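import Vale.Agent.P167.H685.Orbs

/-!
P167, block PLID, part 1: sums over the functions which are constant along the segments of the
orbits of a permutation, cut before every element of a finite set `S`.
-/

namespace Vale.Agent.P167.H199

open Finset
open Vale.Agent.P167.H685 (orb orbs mem_orb self_mem_orb orb_eq_iff mem_orbs orb_mem_orbs
  eq_orb_of_mem orbs_disjoint nonempty_of_mem_orbs)

section fac

variable {α C : Type*} [Fintype α] [DecidableEq α] [Fintype C] [DecidableEq C]

/-- Sum over the functions which factor through a surjection. -/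
theorem sum_fac {R : Type*} [CommSemiring R] (κ : α → C) (hκ : Function.Surjective κ)
    (y : α → Bool → R) :
    ∑ s : α → Bool, (if ∀ x x', κ x = κ x' → s x = s x' then ∏ x, y x (s x) else 0) =
      ∏ c : C, ∑ b : Bool, ∏ x with κ x = c, y x b := by
  classical
  rw [← Finset.sum_filter, Finset.prod_univ_sum, Fintype.piFinset_univ]
  symm
  refine Finset.sum_bij (fun t _ => t ∘ κ) ?_ ?_ ?_ ?_
  · intro t _
    rw [mem_filter]
    exact ⟨mem_univ _, fun x x' h => by simp only [Function.comp_apply, h]⟩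
  · intro t _ t' _ h
    funext c
    obtain ⟨x, rfl⟩ := hκ c
    exact congrFun h x
  · intro s hs
    rw [mem_filter] at hs
    refine ⟨fun c => s (hκ c).choose, mem_univ _, ?_⟩
    funext x
    exact hs.2 _ _ (hκ (κ x)).choose_spec
  · intro t _
    rw [← Finset.prod_fiberwise (s := (Finset.univ : Finset α)) (g := κ)]
    refine Finset.prod_congr rfl fun c _ => ?_
    refine Finset.prod_congr rfl fun x hx => ?_
    rw [mem_filter] at hx
    rw [Function.comp_apply, hx.2]

end fac

section strand

variable {α : Type*} [DecidableEq α]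

/-- First return to `S`. -/
noncomputable def ret (f : α → α) (S : Finset α) (e : α) : ℕ := sInf {k | 1 ≤ k ∧ f^[k] e ∈ S}

/-- The segment from `e` to the next point of `S` (not included). -/
noncomputable def strand (f : α → α) (S : Finset α) (e : α) : Finset α :=
  (range (ret f S e)).image fun k => f^[k] e

/-- The orbit of `e` returns to `S`. -/
def Returns (f : α → α) (S : Finset α) (e : α) : Prop := ∃ k, 1 ≤ k ∧ f^[k] e ∈ S

variable {f : α → α} {S : Finset α} {e : α}

omit [DecidableEq α] in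
theorem Returns.spec (h : Returns f S e) : 1 ≤ ret f S e ∧ f^[ret f S e] e ∈ S :=
  Nat.sInf_mem (s := {k | 1 ≤ k ∧ f^[k] e ∈ S}) h

omit [DecidableEq α] in
theorem ret_min {k : ℕ} (h1 : 1 ≤ k) (h2 : k < ret f S e) : f^[k] e ∉ S := fun h =>
  Nat.notMem_of_lt_sInf h2 ⟨h1, h⟩

omit [DecidableEq α] in
theorem ret_le {k : ℕ} (h1 : 1 ≤ k) (h : f^[k] e ∈ S) : ret f S e ≤ k := Nat.sInf_le ⟨h1, h⟩

theorem mem_strand {x : α} : x ∈ strand f S e ↔ ∃ k < ret f S e, f^[k] e = x := by
  simp [strand]

theorem self_mem_strand (h : Returns f S e) : e ∈ strand f S e :=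
  mem_strand.2 ⟨0, h.spec.1, rfl⟩

omit [DecidableEq α] in
theorem strand_injOn (hf : Function.Injective f) (he : e ∈ S) :
    Set.InjOn (fun k => f^[k] e) (range (ret f S e) : Set ℕ) := by
  have key : ∀ i j : ℕ, i < j → j < ret f S e → f^[i] e ≠ f^[j] e := by
    intro i j hij hj h
    have h1 : f^[j - i] e = e := by
      apply (hf.iterate i)
      rw [← Function.iterate_add_apply, show i + (j - i) = j by omega, h]
    have h2 : f^[j - i] e ∈ S := by rw [h1]; exact he
    exact ret_min (f := f) (S := S) (e := e) (k := j - i) (by omega) (by omega) h2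
  intro i hi j hj h
  rw [coe_range, Set.mem_Iio] at hi hj
  rcases lt_trichotomy i j with h1 | h1 | h1
  · exact absurd h (key i j h1 hj)
  · exact h1
  · exact absurd h.symm (key j i h1 hi)

theorem sum_strand {M : Type*} [AddCommMonoid M] (hf : Function.Injective f) (he : e ∈ S)
    (F : α → M) : ∑ x ∈ strand f S e, F x = ∑ k ∈ range (ret f S e), F (f^[k] e) := by
  rw [strand, sum_image (strand_injOn hf he)]

theorem prod_strand {M : Type*} [CommMonoid M] (hf : Function.Injective f) (he : e ∈ S)
    (F : α → M) : ∏ x ∈ strand f S e, F x = ∏ k ∈ range (ret f S e), F (f^[k] e) := by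
  rw [strand, prod_image (strand_injOn hf he)]

/-- A point belongs to one strand at most. -/
theorem strand_unique (hf : Function.Injective f) {e e' x : α} (he : e ∈ S) (he' : e' ∈ S)
    (h : x ∈ strand f S e) (h' : x ∈ strand f S e') : e = e' := by
  obtain ⟨i, hi, rfl⟩ := mem_strand.1 h
  obtain ⟨j, hj, hij⟩ := mem_strand.1 h'
  have key : ∀ (a b : α) (i j : ℕ), a ∈ S → b ∈ S → i ≤ j → j < ret f S b → f^[i] a = f^[j] b →
      a = b := by
    intro a b i j ha hb hij hj h
    have h1 : a = f^[j - i] b := by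
      apply (hf.iterate i)
      rw [← Function.iterate_add_apply, show i + (j - i) = j by omega, h]
    rcases Nat.eq_zero_or_pos (j - i) with h2 | h2
    · rw [h1, h2]; rfl
    · exact absurd (h1 ▸ ha) (ret_min (f := f) (S := S) (e := b) h2 (by omega))
  rcases le_total i j with h1 | h1
  · exact key e e' i j he he' h1 hj hij.symm
  · exact (key e' e j i he' he h1 hi hij).symm

/-- In a strand only the first point belongs to `S`. -/
theorem strand_inter {x : α} (hx : x ∈ strand f S e) (hxS : x ∈ S) : x = e := by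
  obtain ⟨k, hk, rfl⟩ := mem_strand.1 hx
  rcases Nat.eq_zero_or_pos k with h | h
  · rw [h]; rfl
  · exact absurd hxS (ret_min h hk)

end strand

section perm

variable {α : Type*} [Fintype α] [DecidableEq α] (σ : Equiv.Perm α) (S : Finset α)

theorem mem_orb_iter {x y : α} : y ∈ orb σ x ↔ ∃ n : ℕ, (σ : α → α)^[n] x = y := by
  rw [mem_orb]
  constructor
  · intro h
    obtain ⟨n, _, hn⟩ := h.exists_pow_eq'
    exact ⟨n, by rw [← hn, ← Equiv.Perm.iterate_eq_pow]⟩
  · rintro ⟨n, hn⟩
    exact ⟨n, by rw [zpow_natCast, ← Equiv.Perm.iterate_eq_pow, hn]⟩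

theorem orb_next (x : α) : orb σ (σ x) = orb σ x := by
  rw [orb_eq_iff, Equiv.Perm.sameCycle_apply_left]

theorem orb_iter (x : α) (n : ℕ) : orb σ ((σ : α → α)^[n] x) = orb σ x := by
  induction n with
  | zero => rfl
  | succ n ih => rw [Function.iterate_succ_apply', orb_next, ih]

theorem returns_of_mem {x : α} (hx : ¬ Disjoint (orb σ x) S) : Returns σ S x := by
  rw [Finset.not_disjoint_iff] at hx
  obtain ⟨z, hz, hzS⟩ := hx
  rw [← orb_next, mem_orb_iter] at hz
  obtain ⟨n, hn⟩ := hz
  exact ⟨n + 1, by omega, by rw [Function.iterate_succ_apply, hn]; exact hzS⟩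

/-- Every point whose orbit meets `S` belongs to a strand. -/
theorem exists_strand {x : α} (hx : ¬ Disjoint (orb σ x) S) : ∃ e ∈ S, x ∈ strand σ S e := by
  classical
  have hex : ∃ j : ℕ, ∃ e ∈ S, (σ : α → α)^[j] e = x := by
    rw [Finset.not_disjoint_iff] at hx
    obtain ⟨z, hz, hzS⟩ := hx
    have : x ∈ orb σ z := by
      rw [mem_orb] at hz ⊢
      exact hz.symm
    rw [mem_orb_iter] at this
    obtain ⟨n, hn⟩ := this
    exact ⟨n, z, hzS, hn⟩
  obtain ⟨e, he, hex'⟩ := Nat.find_spec hex
  refine ⟨e, he, mem_strand.2 ⟨Nat.find hex, ?_, hex'⟩⟩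
  have hR : Returns σ S e := by
    apply returns_of_mem
    rw [Finset.not_disjoint_iff]
    exact ⟨e, self_mem_orb e, he⟩
  by_contra hlt
  push Not at hlt
  have h1 := hR.spec
  have h2 : (σ : α → α)^[Nat.find hex - ret σ S e] ((σ : α → α)^[ret σ S e] e) = x := by
    rw [← Function.iterate_add_apply, show Nat.find hex - ret σ S e + ret σ S e = Nat.find hex by
      omega, hex']
  have := Nat.find_min' hex ⟨_, h1.2, h2⟩
  omega

/-- The classes. -/
abbrev Cl : Type _ := {e // e ∈ S} ⊕ {ℓ // ℓ ∈ (orbs σ).filter fun ℓ => Disjoint ℓ S}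

open Classical in
/-- The class of a point. -/
noncomputable def cl (x : α) : Cl σ S :=
  if h : Disjoint (orb σ x) S then Sum.inr ⟨orb σ x, mem_filter.2 ⟨orb_mem_orbs x, h⟩⟩
  else Sum.inl ⟨(exists_strand σ S h).choose, (exists_strand σ S h).choose_spec.1⟩

theorem cl_inl {x : α} {e : {e // e ∈ S}} : cl σ S x = Sum.inl e ↔ x ∈ strand σ S (e : α) := by
  unfold cl
  constructor
  · intro h
    split_ifs at h with h1
    rw [Sum.inl.injEq] at h
    rw [← h]
    exact (exists_strand σ S h1).choose_spec.2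
  · intro h
    have h1 : ¬ Disjoint (orb σ x) S := by
      rw [Finset.not_disjoint_iff]
      obtain ⟨k, _, rfl⟩ := mem_strand.1 h
      exact ⟨e, by rw [orb_iter]; exact self_mem_orb _, e.2⟩
    rw [dif_neg h1, Sum.inl.injEq]
    apply Subtype.ext
    exact strand_unique σ.injective (exists_strand σ S h1).choose_spec.1 e.2
      (exists_strand σ S h1).choose_spec.2 h

theorem cl_inr {x : α} {ℓ : {ℓ // ℓ ∈ (orbs σ).filter fun ℓ => Disjoint ℓ S}} :
    cl σ S x = Sum.inr ℓ ↔ x ∈ (ℓ : Finset α) := by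
  have hℓ := mem_filter.1 ℓ.2
  unfold cl
  constructor
  · intro h
    split_ifs at h with h1
    rw [Sum.inr.injEq] at h
    rw [← h]
    exact self_mem_orb x
  · intro h
    have h1 : (ℓ : Finset α) = orb σ x := eq_orb_of_mem hℓ.1 h
    have h2 : Disjoint (orb σ x) S := h1 ▸ hℓ.2
    rw [dif_pos h2, Sum.inr.injEq]
    exact Subtype.ext h1.symm

theorem cl_surj : Function.Surjective (cl σ S) := by
  rintro (e | ℓ)
  · refine ⟨e, (cl_inl σ S).2 (self_mem_strand (returns_of_mem σ S ?_))⟩
    rw [Finset.not_disjoint_iff]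
    exact ⟨e, self_mem_orb _, e.2⟩
  · obtain ⟨x, hx⟩ := nonempty_of_mem_orbs (mem_filter.1 ℓ.2).1
    exact ⟨x, (cl_inr σ S).2 hx⟩

theorem const_iff (s : α → Bool) : (∀ x, σ x ∉ S → s (σ x) = s x) ↔
    ∀ x x', cl σ S x = cl σ S x' → s x = s x' := by
  constructor
  · intro h x x' hxx
    rcases hc : cl σ S x with e | ℓ
    · have key : ∀ z ∈ strand σ S (e : α), s z = s e := by
        intro z hz
        obtain ⟨k, hk, rfl⟩ := mem_strand.1 hz
        clear hz
        induction k with
        | zero => rfl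
        | succ k ih =>
          rw [Function.iterate_succ_apply', h, ih (by omega)]
          have := ret_min (f := σ) (S := S) (e := (e : α)) (k := k + 1) (by omega) hk
          rwa [Function.iterate_succ_apply'] at this
      rw [key x ((cl_inl σ S).1 hc), key x' ((cl_inl σ S).1 (hxx ▸ hc))]
    · have hℓ := mem_filter.1 ℓ.2
      have h1 := (cl_inr σ S).1 hc
      have h2 := (cl_inr σ S).1 (hxx ▸ hc)
      rw [eq_orb_of_mem hℓ.1 h1, mem_orb_iter] at h2
      obtain ⟨n, rfl⟩ := h2
      clear hxx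
      symm
      induction n with
      | zero => rfl
      | succ n ih =>
        rw [Function.iterate_succ_apply', h, ih]
        intro hS
        refine Finset.disjoint_left.1 hℓ.2 ?_ hS
        rw [eq_orb_of_mem hℓ.1 h1, mem_orb_iter]
        exact ⟨n + 1, Function.iterate_succ_apply' _ _ _⟩
  · intro h x hx
    apply h
    rcases hc : cl σ S x with e | ℓ
    · rw [cl_inl]
      obtain ⟨k, hk, rfl⟩ := mem_strand.1 ((cl_inl σ S).1 hc)
      refine mem_strand.2 ⟨k + 1, ?_, Function.iterate_succ_apply' _ _ _⟩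
      have hR : Returns σ S (e : α) := by
        apply returns_of_mem
        rw [Finset.not_disjoint_iff]
        exact ⟨e, self_mem_orb _, e.2⟩
      rcases Nat.lt_or_ge (k + 1) (ret σ S (e : α)) with h1 | h1
      · exact h1
      · exfalso
        have h2 : k + 1 = ret σ S (e : α) := by omega
        apply hx
        have h3 := hR.spec.2
        rw [← h2, Function.iterate_succ_apply'] at h3
        exact h3
    · rw [cl_inr]
      have hℓ := mem_filter.1 ℓ.2
      rw [eq_orb_of_mem hℓ.1 ((cl_inr σ S).1 hc), mem_orb_iter]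
      exact ⟨1, rfl⟩

/-- **Sum over the functions which are constant between the cuts.** -/
theorem cut_sum {R : Type*} [CommSemiring R] (y : α → Bool → R) :
    ∑ s : α → Bool, (if ∀ x, σ x ∉ S → s (σ x) = s x then ∏ x, y x (s x) else 0) =
      (∏ ℓ ∈ (orbs σ).filter (fun ℓ => Disjoint ℓ S), ∑ b : Bool, ∏ x ∈ ℓ, y x b) *
        ∏ e ∈ S, ∑ b : Bool, ∏ x ∈ strand σ S e, y x b := by
  classical
  have h1 : ∀ s : α → Bool, (if ∀ x, σ x ∉ S → s (σ x) = s x then ∏ x, y x (s x) else 0) =
      if ∀ x x', cl σ S x = cl σ S x' → s x = s x' then ∏ x, y x (s x) else 0 := by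
    intro s
    exact if_congr (const_iff σ S s) rfl rfl
  rw [Finset.sum_congr rfl fun s _ => h1 s]
  have h2 := sum_fac (cl σ S) (cl_surj σ S) y
  rw [Fintype.prod_sum_type] at h2
  have e1 : ∀ e : {e // e ∈ S}, (univ.filter fun x => cl σ S x = Sum.inl e) = strand σ S (e : α) := by
    intro e
    ext x
    rw [mem_filter, cl_inl]
    simp
  have e2 : ∀ ℓ : {ℓ // ℓ ∈ (orbs σ).filter fun ℓ => Disjoint ℓ S},
      (univ.filter fun x => cl σ S x = Sum.inr ℓ) = (ℓ : Finset α) := by
    intro ℓ
    ext x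
    rw [mem_filter, cl_inr]
    simp
  simp only [e1, e2] at h2
  rw [Finset.prod_coe_sort S (fun e => ∑ b : Bool, ∏ x ∈ strand σ S e, y x b),
    Finset.prod_coe_sort ((orbs σ).filter fun ℓ => Disjoint ℓ S)
      (fun ℓ => ∑ b : Bool, ∏ x ∈ ℓ, y x b), mul_comm] at h2
  rw [← h2]

end perm

end Vale.Agent.P167.H199
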