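import Vale.Agent.P167.A.Bkw
import Vale.Agent.P167.H199.CutOrb

/-!
P167, block PLID, part 2: Baxter-Kelland-Wu with cuts on a finite grid.

A half-arrow configuration is `w : Edge V → Bool → Bool`: `w e false` is the arrow of `e` at its
left/lower end, `w e true` the arrow at its right/upper end; `true` means right/up.
-/

namespace Vale.Agent.P167.H199

open Finset
open Vale.Agent.P167.A
open Vale.Agent.P152 (Edge Ori vw wt)
open Vale.Agent.P167.H685 (orb orbs)

variable {V : Type} (g : Grid V)

/-- Side of the head of an edge. -/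
def hb (e : Edge V) : Bool := decide (g.sg e = 1)

/-- Phase at the head side, for the canonical direction. -/
noncomputable def ah (a : Edge V → Bool → ℝ) (e : Edge V) : ℝ := a e (hb g e) * g.sg e

/-- Phase at the tail side, for the canonical direction. -/
noncomputable def at' (a : Edge V → Bool → ℝ) (e : Edge V) : ℝ := a e (!hb g e) * g.sg e

/-- The angle of a loop or of a strand. -/
noncomputable def cang (θ : ℝ) (a : Edge V → Bool → ℝ) (ρ : V → Bool) (c : Finset (Edge V)) : ℝ :=
  ∑ x ∈ c, (θ / 4 * g.turn ρ x + ah g a x + at' g a (g.nx ρ x))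

/-- The half-arrow configuration with canonical values `sh` (head side) and `st` (tail side). -/
def toH (sh st : Edge V → Bool) : Edge V → Bool → Bool := fun e b =>
  if g.sg e = 1 then (if b then sh e else st e) else (if b then !(st e) else !(sh e))

/-- Vertex factor. -/
noncomputable def FFc (θ : ℝ) (sh st : Edge V → Bool) (v : V) (q : Bool) : ℂ :=
  if st (if q then ou2 g v else ou1 g v) = sh (in1 g v) ∧
    st (if q then ou1 g v else ou2 g v) = sh (in2 g v)
  then ph θ q (sh (in1 g v)) * ph θ q (sh (in2 g v)) else 0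

theorem vertexc (θ : ℝ) (sh st : Edge V → Bool) (v : V) :
    ((vw (2 * Real.cos (θ / 2)) (toH g sh st (Sum.inl (g.e1.symm v)) true)
      (toH g sh st (Sum.inl v) false) (toH g sh st (Sum.inr (g.e2.symm v)) true)
      (toH g sh st (Sum.inr v) false) : ℝ) : ℂ) = ∑ q : Bool, FFc g θ sh st v q := by
  rw [Fintype.sum_bool]
  have hK : FFc g θ sh st v true + FFc g θ sh st v false =
      KK θ (sh (in1 g v)) (sh (in2 g v)) (st (ou1 g v)) (st (ou2 g v)) := by
    simp [FFc, KK]
  rw [hK]
  cases h : g.par v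
  · have e1 : in1 g v = Sum.inl (g.e1.symm v) := by simp [in1, h]
    have e2 : in2 g v = Sum.inl v := by simp [in2, h]
    have e3 : ou1 g v = Sum.inr v := by simp [ou1, h]
    have e4 : ou2 g v = Sum.inr (g.e2.symm v) := by simp [ou2, h]
    have s1 : g.sg (Sum.inl (g.e1.symm v)) = 1 := by simp [Grid.sg, g.p1', h]
    have s2 : g.sg (Sum.inl v) = -1 := by simp [Grid.sg, h]
    have s3 : g.sg (Sum.inr v) = 1 := by simp [Grid.sg, h]
    have s4 : g.sg (Sum.inr (g.e2.symm v)) = -1 := by simp [Grid.sg, g.p2', h]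
    rw [← KK_odd, e1, e2, e3, e4]
    simp [toH, s1, s2, s3, s4]
  · have e1 : in1 g v = Sum.inr (g.e2.symm v) := by simp [in1, h]
    have e2 : in2 g v = Sum.inr v := by simp [in2, h]
    have e3 : ou1 g v = Sum.inl (g.e1.symm v) := by simp [ou1, h]
    have e4 : ou2 g v = Sum.inl v := by simp [ou2, h]
    have s1 : g.sg (Sum.inr (g.e2.symm v)) = 1 := by simp [Grid.sg, g.p2', h]
    have s2 : g.sg (Sum.inr v) = -1 := by simp [Grid.sg, h]
    have s3 : g.sg (Sum.inl (g.e1.symm v)) = -1 := by simp [Grid.sg, g.p1', h]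
    have s4 : g.sg (Sum.inl v) = 1 := by simp [Grid.sg, h]
    rw [← KK_even, e1, e2, e3, e4]
    simp [toH, s1, s2, s3, s4]

/-- The half-arrow configurations in terms of the canonical values. -/
def eqH : (Edge V → Bool → Bool) ≃ (Edge V → Bool) × (Edge V → Bool) where
  toFun w := (fun e => if g.sg e = 1 then w e true else !(w e false),
    fun e => if g.sg e = 1 then w e false else !(w e true))
  invFun s := toH g s.1 s.2
  left_inv w := by
    funext e b
    rcases sg_cases g e with h | h <;> cases b <;> simp [toH, h]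
  right_inv s := by
    refine Prod.ext ?_ ?_ <;> funext e <;> rcases sg_cases g e with h | h <;> simp [toH, h]

theorem toH_eq_iff (sh st : Edge V → Bool) (e : Edge V) :
    toH g sh st e false = toH g sh st e true ↔ st e = sh e := by
  rcases sg_cases g e with h | h <;> cases h1 : sh e <;> cases h2 : st e <;> simp [toH, h, h1, h2]

theorem phase_toH (a : Edge V → Bool → ℝ) (sh st : Edge V → Bool) (e : Edge V) :
    ∑ b : Bool, a e b * (if toH g sh st e b then 1 else -1) =
      ah g a e * (if sh e then 1 else -1) + at' g a e * (if st e then 1 else -1) := by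
  rw [Fintype.sum_bool]
  rcases sg_cases g e with h | h <;> cases h1 : sh e <;> cases h2 : st e <;>
    simp [toH, h, h1, h2, ah, at', hb] <;> ring

variable [Fintype V] [DecidableEq V]

omit [DecidableEq V] in
theorem prod_FFc (θ : ℝ) (sh st : Edge V → Bool) (ρ : V → Bool) :
    ∏ v, FFc g θ sh st v (ρ v) =
      if ∀ e, st (g.nx ρ e) = sh e then ∏ e, ph θ (ρ (g.hd e)) (sh e) else 0 := by
  have h1 : ∀ v, FFc g θ sh st v (ρ v) =
      if st (g.nx ρ (in1 g v)) = sh (in1 g v) ∧ st (g.nx ρ (in2 g v)) = sh (in2 g v)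
      then ph θ (ρ (g.hd (in1 g v))) (sh (in1 g v)) * ph θ (ρ (g.hd (in2 g v))) (sh (in2 g v))
      else 0 := by
    intro v
    rw [nx_in1, nx_in2, hd_in1, hd_in2, FFc]
  simp only [h1]
  split_ifs with h
  · rw [← forall_in g (fun e => st (g.nx ρ e) = sh e)] at h
    rw [← prod_in g (fun e => ph θ (ρ (g.hd e)) (sh e))]
    refine Finset.prod_congr rfl fun v _ => ?_
    exact if_pos (h v)
  · rw [← forall_in g (fun e => st (g.nx ρ e) = sh e), not_forall] at h
    obtain ⟨v, hv⟩ := h
    exact Finset.prod_eq_zero (Finset.mem_univ v) (if_neg hv)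

/-- The product of the six-vertex weights of a half-arrow configuration. -/
noncomputable def hwt (c : ℝ) (w : Edge V → Bool → Bool) : ℝ :=
  ∏ v, vw c (w (Sum.inl (g.e1.symm v)) true) (w (Sum.inl v) false)
    (w (Sum.inr (g.e2.symm v)) true) (w (Sum.inr v) false)

/-- The product of the factors of the loops and of the strands. -/
noncomputable def cutPr (θ : ℝ) (S : Finset (Edge V)) (a : Edge V → Bool → ℝ) (ρ : V → Bool) : ℝ :=
  (∏ ℓ ∈ (orbs (g.nxP ρ)).filter (fun ℓ => Disjoint ℓ S), 2 * Real.cos (cang g θ a ρ ℓ)) *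
    ∏ e ∈ S, 2 * Real.cos (cang g θ a ρ (strand (g.nx ρ) S e))

/-- Sum over the tail values. -/
theorem sum_tail (ρ : V → Bool) (S : Finset (Edge V)) (sh : Edge V → Bool)
    (F : (Edge V → Bool) → ℂ) :
    ∑ st : Edge V → Bool, (if ∀ e ∉ S, st e = sh e then
        (if ∀ e, st (g.nx ρ e) = sh e then F st else 0) else 0) =
      if ∀ x, g.nx ρ x ∉ S → sh (g.nx ρ x) = sh x then F (fun e => sh (g.pv ρ e)) else 0 := by
  classical
  rw [Finset.sum_eq_single (fun e => sh (g.pv ρ e))]
  · have h1 : ∀ e, (fun e => sh (g.pv ρ e)) (g.nx ρ e) = sh e := fun e => by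
      simp only [g.pv_nx]
    rw [if_pos h1]
    refine if_congr ?_ rfl rfl
    constructor
    · intro h x hx
      have := h _ hx
      simp only [g.pv_nx] at this
      exact this.symm
    · intro h e he
      have := h (g.pv ρ e) (by rw [g.nx_pv]; exact he)
      rw [g.nx_pv] at this
      exact this.symm
  · intro st _ hst
    by_cases h1 : ∀ e ∉ S, st e = sh e
    · rw [if_pos h1, if_neg]
      intro h2
      apply hst
      funext e
      rw [← h2, g.nx_pv]
    · rw [if_neg h1]
  · intro h
    exact absurd (mem_univ _) h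

/-- **Baxter-Kelland-Wu with cuts.** -/
theorem cut_bkwC (θ : ℝ) (S : Finset (Edge V)) (a : Edge V → Bool → ℝ) :
    ∑ w : Edge V → Bool → Bool, (if ∀ e ∉ S, w e false = w e true then
        (hwt g (2 * Real.cos (θ / 2)) w : ℂ) *
          Complex.exp (Complex.I * ((∑ e, ∑ b : Bool, a e b * (if w e b then 1 else -1) : ℝ) : ℂ))
        else 0) =
      ((∑ ρ : V → Bool, cutPr g θ S a ρ : ℝ) : ℂ) := by
  classical
  rw [← Equiv.sum_comp (eqH g).symm, Fintype.sum_prod_type]
  -- the factor of an edge
  set y : (V → Bool) → Edge V → Bool → ℂ := fun ρ x b => ph θ (ρ (g.hd x)) b *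
    Complex.exp (Complex.I * (((ah g a x + at' g a (g.nx ρ x)) * (if b then 1 else -1) : ℝ) : ℂ))
    with hy
  have h1 : ∀ sh st : Edge V → Bool,
      (if ∀ e ∉ S, ((eqH g).symm (sh, st)) e false = ((eqH g).symm (sh, st)) e true then
        (hwt g (2 * Real.cos (θ / 2)) ((eqH g).symm (sh, st)) : ℂ) *
          Complex.exp (Complex.I * ((∑ e, ∑ b : Bool, a e b *
            (if ((eqH g).symm (sh, st)) e b then 1 else -1) : ℝ) : ℂ)) else 0) =
      ∑ ρ : V → Bool, (if ∀ e ∉ S, st e = sh e then
        (if ∀ e, st (g.nx ρ e) = sh e then (∏ e, ph θ (ρ (g.hd e)) (sh e)) *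
          ((∏ e, Complex.exp (Complex.I * ((ah g a e * (if sh e then 1 else -1) : ℝ) : ℂ))) *
          ∏ e, Complex.exp (Complex.I * ((at' g a e * (if st e then 1 else -1) : ℝ) : ℂ)))
          else 0) else 0) := by
    intro sh st
    have e0 : (eqH g).symm (sh, st) = toH g sh st := rfl
    rw [e0]
    simp only [toH_eq_iff, phase_toH]
    by_cases hS : ∀ e ∉ S, st e = sh e
    · simp only [if_pos hS]
      have h2 : ((hwt g (2 * Real.cos (θ / 2)) (toH g sh st) : ℝ) : ℂ) =
          ∑ ρ : V → Bool, ∏ v, FFc g θ sh st v (ρ v) := by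
        unfold hwt
        rw [Complex.ofReal_prod]
        simp only [vertexc]
        rw [Finset.prod_univ_sum, Fintype.piFinset_univ]
      have h3 : Complex.exp (Complex.I * ((∑ e, (ah g a e * (if sh e then 1 else -1) +
          at' g a e * (if st e then 1 else -1)) : ℝ) : ℂ)) =
          (∏ e, Complex.exp (Complex.I * ((ah g a e * (if sh e then 1 else -1) : ℝ) : ℂ))) *
          ∏ e, Complex.exp (Complex.I * ((at' g a e * (if st e then 1 else -1) : ℝ) : ℂ)) := by
        rw [Finset.sum_add_distrib, Complex.ofReal_add, mul_add, Complex.exp_add,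
          Complex.ofReal_sum, Complex.ofReal_sum, Finset.mul_sum, Finset.mul_sum,
          Complex.exp_sum, Complex.exp_sum]
      rw [h2, h3, Finset.sum_mul]
      refine Finset.sum_congr rfl fun ρ _ => ?_
      rw [prod_FFc]
      split_ifs with h
      · rfl
      · rw [zero_mul]
    · simp only [if_neg hS, Finset.sum_const_zero]
  simp only [h1]
  have h2 : ∀ sh : Edge V → Bool, (∑ st : Edge V → Bool, ∑ ρ : V → Bool,
      (if ∀ e ∉ S, st e = sh e then
        (if ∀ e, st (g.nx ρ e) = sh e then (∏ e, ph θ (ρ (g.hd e)) (sh e)) *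
          ((∏ e, Complex.exp (Complex.I * ((ah g a e * (if sh e then 1 else -1) : ℝ) : ℂ))) *
          ∏ e, Complex.exp (Complex.I * ((at' g a e * (if st e then 1 else -1) : ℝ) : ℂ)))
          else 0) else 0)) =
      ∑ ρ : V → Bool, (if ∀ x, g.nxP ρ x ∉ S → sh (g.nxP ρ x) = sh x then
        ∏ x, y ρ x (sh x) else 0) := by
    intro sh
    rw [Finset.sum_comm]
    refine Finset.sum_congr rfl fun ρ _ => ?_
    rw [sum_tail g ρ S sh (fun st => (∏ e, ph θ (ρ (g.hd e)) (sh e)) *
          ((∏ e, Complex.exp (Complex.I * ((ah g a e * (if sh e then 1 else -1) : ℝ) : ℂ))) *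
          ∏ e, Complex.exp (Complex.I * ((at' g a e * (if st e then 1 else -1) : ℝ) : ℂ))))]
    refine if_congr Iff.rfl ?_ rfl
    have h4 : ∏ e, Complex.exp (Complex.I * ((at' g a e * (if sh (g.pv ρ e) then 1 else -1) : ℝ)
        : ℂ)) = ∏ x, Complex.exp (Complex.I * ((at' g a (g.nx ρ x) *
          (if sh x then 1 else -1) : ℝ) : ℂ)) := by
      rw [← Equiv.prod_comp (g.nxP ρ)]
      refine Finset.prod_congr rfl fun x _ => ?_
      simp only [Grid.nxP_apply, g.pv_nx]
    rw [h4, ← Finset.prod_mul_distrib, ← Finset.prod_mul_distrib]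
    refine Finset.prod_congr rfl fun x _ => ?_
    simp only [hy]
    rw [← Complex.exp_add, ← mul_add, ← Complex.ofReal_add, ← add_mul]
  simp only [h2]
  rw [Finset.sum_comm, Complex.ofReal_sum]
  refine Finset.sum_congr rfl fun ρ _ => ?_
  rw [cut_sum (g.nxP ρ) S (y ρ)]
  have h5 : ∀ c : Finset (Edge V), ∑ b : Bool, ∏ x ∈ c, y ρ x b =
      ((2 * Real.cos (cang g θ a ρ c) : ℝ) : ℂ) := by
    intro c
    have h6 : ∀ b : Bool, ∏ x ∈ c, y ρ x b =
        Complex.exp (Complex.I * ((cang g θ a ρ c * (if b then 1 else -1) : ℝ) : ℂ)) := by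
      intro b
      simp only [hy, ph, ← Complex.exp_add]
      rw [← Complex.exp_sum, cang, Finset.sum_mul, Complex.ofReal_sum, Finset.mul_sum]
      congr 1
      refine Finset.sum_congr rfl fun e _ => ?_
      rw [← mul_add, ← Complex.ofReal_add]
      congr 2
      simp only [Grid.turn]
      push_cast
      cases ρ (g.hd e) <;> cases b <;> simp <;> ring
    simp only [h6]
    rw [Fintype.sum_bool]
    push_cast
    rw [Complex.cos]
    simp
    ring_nf
  simp only [h5]
  unfold cutPr
  rw [Complex.ofReal_mul, Complex.ofReal_prod, Complex.ofReal_prod]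
  rfl

end Vale.Agent.P167.H199
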