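import Vale.Agent.P167.H685.Fin
import Vale.Agent.P167.H199.CutBkw

/-!
P167, block PLID, part 3: the product over the loops and the strands in the plane, comparison with
the torus.
-/

namespace Vale.Agent.P167.H199

open Finset Filter Topology MeasureTheory
open Vale.Agent.P167.A (Grid plane torus red redE plane_nx plane_hd plane_sg par_red nx_red)
open Vale.Agent.P167.H685
open Vale.Agent.P152 (Edge Ori vw wt)

/-- The product over the loops which do not meet the cuts, and over the strands. `a e b` is the phase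
of the half arrow `(e, b)`. -/
noncomputable def Xc (S : Finset Ed) (a : Ed → Bool → ℝ) (ω : Cfg) : ℝ :=
  (∏ᶠ ℓ ∈ {ℓ : Finset Ed | IsLoop ω ℓ ∧ Disjoint ℓ S},
    2 * Real.cos (cang plane (Real.pi / 3) a ω ℓ)) *
    ∏ e ∈ S, 2 * Real.cos (cang plane (Real.pi / 3) a ω (strand (nx ω) S e))

theorem plane_nx_fun (ω : Cfg) : plane.nx ω = nx ω := funext (plane_nx ω)

theorem loop_nx {ω : Cfg} {ℓ : Finset Ed} (h : IsLoop ω ℓ) {e : Ed} (he : e ∈ ℓ) : nx ω e ∈ ℓ :=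
  (loop_gen h he _).2 ⟨1, rfl⟩

theorem loop_iter {ω : Cfg} {ℓ : Finset Ed} (h : IsLoop ω ℓ) {e : Ed} (he : e ∈ ℓ) (n : ℕ) :
    (nx ω)^[n] e ∈ ℓ := (loop_gen h he _).2 ⟨n, rfl⟩

theorem strand_sub {ω : Cfg} {ℓ : Finset Ed} (h : IsLoop ω ℓ) {e : Ed} (he : e ∈ ℓ)
    (S : Finset Ed) : strand (nx ω) S e ⊆ ℓ := by
  intro x hx
  obtain ⟨k, _, rfl⟩ := mem_strand.1 hx
  exact loop_iter h he k

theorem cang_off {V : Type} (g : Grid V) (a : Edge V → Bool → ℝ) (ρ : V → Bool)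
    {c : Finset (Edge V)} (hc : ∀ x ∈ c, g.nx ρ x ∈ c) (h : ∀ x ∈ c, ∀ b, a x b = 0) (θ : ℝ) :
    cang g θ a ρ c = θ / 4 * ((∑ x ∈ c, g.turn ρ x : ℤ) : ℝ) := by
  unfold cang
  rw [Int.cast_sum, mul_sum]
  refine sum_congr rfl fun x hx => ?_
  rw [ah, at', h x hx, h _ (hc x hx)]
  simp

theorem cos_loop {ω : Cfg} {ℓ : Finset Ed} (h : IsLoop ω ℓ) {a : Ed → Bool → ℝ}
    (ha : ∀ x ∈ ℓ, ∀ b, a x b = 0) : 2 * Real.cos (cang plane (Real.pi / 3) a ω ℓ) = 1 := by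
  rw [cang_off plane a ω (fun x hx => by rw [plane_nx]; exact loop_nx h hx) ha]
  rcases s_turn ω ℓ h with ⟨h1, _⟩ | ⟨h1, _⟩
  · rw [h1]
    have : Real.pi / 3 / 4 * ((4 : ℤ) : ℝ) = Real.pi / 3 := by push_cast; ring
    rw [this, Real.cos_pi_div_three]; norm_num
  · rw [h1]
    have : Real.pi / 3 / 4 * ((-4 : ℤ) : ℝ) = -(Real.pi / 3) := by push_cast; ring
    rw [this, Real.cos_neg, Real.cos_pi_div_three]; norm_num

/-- The product over all free loops is a product over those which meet `E`. -/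
theorem Xc_eq (ω : Cfg) {S E : Finset Ed} {a : Ed → Bool → ℝ} (ha : ∀ e ∉ E, ∀ b, a e b = 0) :
    Xc S a ω = (∏ ℓ ∈ (LE ω E).filter (fun ℓ => Disjoint ℓ S),
      2 * Real.cos (cang plane (Real.pi / 3) a ω ℓ)) *
      ∏ e ∈ S, 2 * Real.cos (cang plane (Real.pi / 3) a ω (strand (nx ω) S e)) := by
  classical
  unfold Xc
  congr 1
  apply finprod_mem_eq_prod_of_inter_mulSupport_eq
  ext ℓ
  simp only [Set.mem_inter_iff, Set.mem_ofPred_eq, Function.mem_mulSupport, mem_coe, mem_filter,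
    mem_LE]
  constructor
  · rintro ⟨⟨h1, h3⟩, h2⟩
    refine ⟨⟨⟨h1, ?_⟩, h3⟩, h2⟩
    by_contra hn
    apply h2
    push Not at hn
    exact cos_loop h1 fun x hx b => ha x (fun hE => hn x hE hx) b
  · rintro ⟨⟨⟨h1, _⟩, h3⟩, h2⟩
    exact ⟨⟨h1, h3⟩, h2⟩

theorem abs_two_cos (t : ℝ) : |2 * Real.cos t| ≤ 2 := by
  rw [abs_mul, abs_two]
  have := Real.abs_cos_le_one t
  linarith

theorem abs_Xc_le (ω : Cfg) {S E : Finset Ed} {a : Ed → Bool → ℝ}
    (ha : ∀ e ∉ E, ∀ b, a e b = 0) : |Xc S a ω| ≤ 2 ^ (E.card + S.card) := by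
  classical
  rw [Xc_eq ω ha, abs_mul, abs_prod, abs_prod, pow_add]
  refine mul_le_mul ?_ ?_ (prod_nonneg fun _ _ => abs_nonneg _) (by positivity)
  · calc ∏ ℓ ∈ (LE ω E).filter (fun ℓ => Disjoint ℓ S),
          |2 * Real.cos (cang plane (Real.pi / 3) a ω ℓ)|
        ≤ ∏ _ℓ ∈ (LE ω E).filter (fun ℓ => Disjoint ℓ S), (2 : ℝ) :=
          prod_le_prod (fun _ _ => abs_nonneg _) fun _ _ => abs_two_cos _
      _ = 2 ^ ((LE ω E).filter (fun ℓ => Disjoint ℓ S)).card := by rw [prod_const]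
      _ ≤ 2 ^ E.card := pow_le_pow_right₀ (by norm_num)
          ((card_filter_le _ _).trans (card_LE_le ω E))
  · calc ∏ e ∈ S, |2 * Real.cos (cang plane (Real.pi / 3) a ω (strand (nx ω) S e))|
        ≤ ∏ _e ∈ S, (2 : ℝ) := prod_le_prod (fun _ _ => abs_nonneg _) fun _ _ => abs_two_cos _
      _ = 2 ^ S.card := by rw [prod_const]

/-! ### locality -/

theorem iter_congr {ω ω' : Cfg} {ℓ : Finset Ed} (h : IsLoop ω ℓ)
    (hh : ∀ v ∈ vs ℓ, ω v = ω' v) {e : Ed} (he : e ∈ ℓ) (n : ℕ) :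
    (nx ω)^[n] e = (nx ω')^[n] e := by
  induction n with
  | zero => rfl
  | succ n ih =>
    rw [Function.iterate_succ_apply', Function.iterate_succ_apply', ← ih]
    apply nx_loc
    apply hh
    exact mem_image_of_mem _ (loop_iter h he n)

theorem ret_congr {α β : Type*} {f : α → α} {f' : β → β} {S : Finset α} {S' : Finset β} {e : α}
    {e' : β} (h : ∀ k, f^[k] e ∈ S ↔ f'^[k] e' ∈ S') : ret f S e = ret f' S' e' := by
  unfold ret
  congr 1
  ext k
  exact and_congr_right fun _ => h k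

theorem strand_congr {ω ω' : Cfg} {S : Finset Ed} {e : Ed}
    (h : ∀ n, (nx ω)^[n] e = (nx ω')^[n] e) : strand (nx ω) S e = strand (nx ω') S e := by
  have h1 : ret (nx ω) S e = ret (nx ω') S e := ret_congr fun k => by rw [h]
  unfold strand
  rw [h1]
  exact image_congr fun k _ => h k

theorem cang_congr {ω ω' : Cfg} {a : Ed → Bool → ℝ} {c : Finset Ed}
    (h : ∀ x ∈ c, ω (hdv x) = ω' (hdv x)) (θ : ℝ) :
    cang plane θ a ω c = cang plane θ a ω' c := by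
  unfold cang
  refine sum_congr rfl fun x hx => ?_
  rw [plane_nx, plane_nx, nx_loc (h x hx)]
  have : plane.turn ω x = plane.turn ω' x := by
    unfold Grid.turn
    rw [plane_hd, h x hx]
  rw [this]

theorem Xc_dep {S E : Finset Ed} (hSE : S ⊆ E) {a : Ed → Bool → ℝ}
    (ha : ∀ e ∉ E, ∀ b, a e b = 0) (K : ℕ) :
    ∀ ω ∈ GK E K, ∀ ω' ∈ GK E K, (∀ v ∈ bx K, ω v = ω' v) → Xc S a ω = Xc S a ω' := by
  classical
  intro ω hω ω' hω' h
  have key : ∀ ω ∈ GK E K, ∀ ω' ∈ GK E K, (∀ v ∈ bx K, ω v = ω' v) → LE ω E ⊆ LE ω' E := by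
    intro ω hω ω' _ h ℓ hℓ
    have hb := LE_box hω hℓ
    obtain ⟨h1, h2⟩ := mem_LE.1 hℓ
    exact mem_LE.2 ⟨loop_loc h1 fun v hv => h v (hb v hv), h2⟩
  rw [Xc_eq ω ha, Xc_eq ω' ha,
    subset_antisymm (key ω hω ω' hω' h) (key ω' hω' ω hω fun v hv => (h v hv).symm)]
  congr 1
  · refine prod_congr rfl fun ℓ hℓ => ?_
    rw [mem_filter] at hℓ
    have hb := LE_box hω' hℓ.1
    rw [cang_congr fun x hx => h _ (hb _ (mem_image_of_mem _ hx))]
  · refine prod_congr rfl fun e he => ?_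
    obtain ⟨ℓ, h1, h2, h3⟩ := hω e (hSE he)
    have hi := iter_congr (ω' := ω') h1 (fun v hv => h v (h3 v hv)) h2
    rw [← strand_congr (S := S) hi]
    rw [cang_congr fun x hx => h _ (h3 _ (mem_image_of_mem _ (strand_sub h1 h2 S hx)))]

/-! ### comparison with the torus -/

section torus

variable {M L : ℕ} [NeZero M] [NeZero L] (hM : Even M) (hL : Even L)

/-- Push forward of the phases. -/
noncomputable def pb' (M L : ℕ) (E : Finset Ed) (a : Ed → Bool → ℝ)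
    (x : Edge (ZMod M × ZMod L)) (b : Bool) : ℝ :=
  ∑ e ∈ E with redE M L e = x, a e b

theorem pb'_eq {K : ℕ} {E : Finset Ed} {a : Ed → Bool → ℝ} (ha : ∀ e ∉ E, ∀ b, a e b = 0)
    (hE : ∀ e ∈ E, bs e ∈ bx K) (h1 : 2 * K + 1 ≤ M) (h2 : 2 * K + 1 ≤ L) {e : Ed}
    (he : bs e ∈ bx K) (b : Bool) : pb' M L E a (redE M L e) b = a e b := by
  classical
  unfold pb'
  have hfil : ∀ e' ∈ E.filter (fun e' => redE M L e' = redE M L e), e' = e := by
    intro e' he'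
    rw [mem_filter] at he'
    exact redE_inj h1 h2 (hE e' he'.1) he he'.2
  by_cases hE' : e ∈ E
  · rw [sum_eq_single e]
    · intro e' he' hne
      exact absurd (hfil e' he') hne
    · intro hn
      exact (hn (mem_filter.2 ⟨hE', rfl⟩)).elim
  · rw [sum_eq_zero, ha e hE' b]
    intro e' he'
    have := hfil e' he'
    rw [this] at he'
    exact absurd (mem_filter.1 he').1 hE'

omit [NeZero M] [NeZero L] in
theorem pb'_off {E : Finset Ed} {a : Ed → Bool → ℝ} {x : Edge (ZMod M × ZMod L)}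
    (hx : x ∉ E.image (redE M L)) (b : Bool) : pb' M L E a x b = 0 := by
  unfold pb'
  refine sum_eq_zero fun e he => ?_
  rw [mem_filter] at he
  exact absurd (mem_image.2 ⟨e, he.1, he.2⟩) hx

/-- Angles of images. -/
theorem cang_image {K : ℕ} {E : Finset Ed} {a : Ed → Bool → ℝ} (ha : ∀ e ∉ E, ∀ b, a e b = 0)
    (hE : ∀ e ∈ E, bs e ∈ bx K) (h1 : 2 * K + 1 ≤ M) (h2 : 2 * K + 1 ≤ L)
    (ρ : ZMod M × ZMod L → Bool) {c : Finset Ed} (hc : ∀ x ∈ c, bs x ∈ bx K)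
    (hc' : ∀ x ∈ c, bs (nx (unR ρ) x) ∈ bx K) (θ : ℝ) :
    cang (torus M L hM hL) θ (pb' M L E a) ρ (c.image (redE M L)) =
      cang plane θ a (unR ρ) c := by
  classical
  unfold cang
  rw [sum_image]
  · refine sum_congr rfl fun x hx => ?_
    have e1 : (torus M L hM hL).nx ρ (redE M L x) = redE M L (nx (unR ρ) x) := nx_red hM hL ρ x
    rw [e1, turn_red, plane_nx]
    simp only [ah, at', hb]
    rw [sg_red, sg_red, plane_sg, plane_sg, pb'_eq ha hE h1 h2 (hc x hx),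
      pb'_eq ha hE h1 h2 (hc' x hx)]
  · intro e he e' he' h
    exact redE_inj h1 h2 (hc e he) (hc e' he') h

theorem cutPr_eq {S E : Finset Ed} (hSE : S ⊆ E) {a : Ed → Bool → ℝ}
    (ha : ∀ e ∉ E, ∀ b, a e b = 0) {K : ℕ} (hMK : 2 * (K + 1) + 1 ≤ M)
    (hLK : 2 * (K + 1) + 1 ≤ L) (ρ : ZMod M × ZMod L → Bool) (hG : unR ρ ∈ GK E K) :
    cutPr (torus M L hM hL) (Real.pi / 3) (S.image (redE M L)) (pb' M L E a) ρ =
      Pr (torus M L hM hL) 0 ρ * Xc S a (unR ρ) := by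
  classical
  set gT := torus M L hM hL with hgT
  set ω : Cfg := unR ρ with hω
  have hEb : ∀ e ∈ E, bs e ∈ bx (K + 1) := by
    intro e he
    obtain ⟨ℓ, _, h2, h3⟩ := hG e he
    exact bs_mem h3 h2
  -- the orbits which meet the image of `E`
  have himg : (orbs (gT.nxP ρ)).filter (fun O => ∃ x ∈ E.image (redE M L), x ∈ O)
      = (LE ω E).image (fun ℓ => ℓ.image (redE M L)) := by
    ext O
    rw [mem_filter, mem_image]
    constructor
    · rintro ⟨h1, x, hx, hxO⟩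
      obtain ⟨e, he, rfl⟩ := mem_image.1 hx
      obtain ⟨ℓ, h1', h2', _⟩ := hG e he
      refine ⟨ℓ, mem_LE.2 ⟨h1', e, he, h2'⟩, ?_⟩
      rw [eq_orb_of_mem h1 hxO, hgT, orb_image hM hL h1' h2']
    · rintro ⟨ℓ, hℓ, rfl⟩
      obtain ⟨h1, e, he, heℓ⟩ := mem_LE.1 hℓ
      refine ⟨?_, redE M L e, mem_image_of_mem _ he, mem_image_of_mem _ heℓ⟩
      rw [← orb_image hM hL h1 heℓ]
      exact orb_mem_orbs _
  have hinj : ∀ ℓ ∈ LE ω E, ∀ ℓ' ∈ LE ω E, ℓ.image (redE M L) = ℓ'.image (redE M L) → ℓ = ℓ' := by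
    intro ℓ hℓ ℓ' hℓ' h
    obtain ⟨h1, e, _, heℓ⟩ := mem_LE.1 hℓ
    obtain ⟨h1', _⟩ := mem_LE.1 hℓ'
    have : redE M L e ∈ ℓ'.image (redE M L) := h ▸ mem_image_of_mem _ heℓ
    obtain ⟨e', he', hee'⟩ := mem_image.1 this
    have := redE_inj hMK hLK (bs_mem (LE_box hG hℓ') he') (bs_mem (LE_box hG hℓ) heℓ) hee'
    rw [this] at he'
    exact loop_unique h1 h1' heℓ he'
  -- disjointness of the images
  have hdis : ∀ ℓ ∈ LE ω E, (Disjoint (ℓ.image (redE M L)) (S.image (redE M L)) ↔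
      Disjoint ℓ S) := by
    intro ℓ hℓ
    rw [Finset.disjoint_left, Finset.disjoint_left]
    constructor
    · intro h e he heS
      exact h (mem_image_of_mem _ he) (mem_image_of_mem _ heS)
    · intro h x hx hxS
      obtain ⟨e, he, rfl⟩ := mem_image.1 hx
      obtain ⟨e', he', hee'⟩ := mem_image.1 hxS
      have := redE_inj hMK hLK (hEb e' (hSE he')) (bs_mem (LE_box hG hℓ) he) hee'
      exact h he (this ▸ he')
  have hsplit : ∀ F : Finset (Edge (ZMod M × ZMod L)) → ℝ,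
      ∏ O ∈ (orbs (gT.nxP ρ)).filter (fun O => Disjoint O (S.image (redE M L))), F O
      = (∏ ℓ ∈ (LE ω E).filter (fun ℓ => Disjoint ℓ S), F (ℓ.image (redE M L))) *
        ∏ O ∈ (orbs (gT.nxP ρ)).filter (fun O => ¬ ∃ x ∈ E.image (redE M L), x ∈ O), F O := by
    intro F
    rw [← prod_filter_mul_prod_filter_not ((orbs (gT.nxP ρ)).filter
      (fun O => Disjoint O (S.image (redE M L)))) (fun O => ∃ x ∈ E.image (redE M L), x ∈ O)]
    congr 1
    · rw [filter_comm, himg]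
      have : ((LE ω E).image (fun ℓ => ℓ.image (redE M L))).filter
          (fun O => Disjoint O (S.image (redE M L))) =
          ((LE ω E).filter (fun ℓ => Disjoint ℓ S)).image (fun ℓ => ℓ.image (redE M L)) := by
        ext O
        simp only [mem_filter, mem_image]
        constructor
        · rintro ⟨⟨ℓ, hℓ, rfl⟩, h⟩
          exact ⟨ℓ, ⟨hℓ, (hdis ℓ hℓ).1 h⟩, rfl⟩
        · rintro ⟨ℓ, ⟨hℓ, h⟩, rfl⟩
          exact ⟨⟨ℓ, hℓ, rfl⟩, (hdis ℓ hℓ).2 h⟩
      rw [this, prod_image]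
      intro ℓ hℓ ℓ' hℓ' h
      exact hinj ℓ (mem_filter.1 hℓ).1 ℓ' (mem_filter.1 hℓ').1 h
    · congr 1
      ext O
      simp only [mem_filter]
      constructor
      · rintro ⟨⟨h1, _⟩, h2⟩
        exact ⟨h1, h2⟩
      · rintro ⟨h1, h2⟩
        refine ⟨⟨h1, ?_⟩, h2⟩
        rw [Finset.disjoint_left]
        intro x hx hxS
        obtain ⟨e, he, rfl⟩ := mem_image.1 hxS
        exact h2 ⟨_, mem_image_of_mem _ (hSE he), hx⟩
  have hPr : Pr gT 0 ρ = ∏ O ∈ (orbs (gT.nxP ρ)).filter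
      (fun O => ¬ ∃ x ∈ E.image (redE M L), x ∈ O), fac gT 0 ρ O := by
    unfold Pr
    rw [← prod_filter_mul_prod_filter_not (orbs (gT.nxP ρ))
      (fun O => ∃ x ∈ E.image (redE M L), x ∈ O), himg, prod_image]
    · rw [prod_eq_one, one_mul]
      intro ℓ hℓ
      have hb := LE_box hG hℓ
      have e1 : fac gT 0 ρ (ℓ.image (redE M L)) = fac plane 0 ω ℓ := by
        unfold fac
        rw [sum_image]
        · congr 2
          refine sum_congr rfl fun e he => ?_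
          rw [hgT, turn_red, sg_red, plane_sg]
          rfl
        · intro e he e' he' h
          exact redE_inj hMK hLK (bs_mem hb he) (bs_mem hb he') h
      rw [e1]
      exact fac_plane_zero s_turn (mem_LE.1 hℓ).1
    · intro ℓ hℓ ℓ' hℓ' h
      exact hinj ℓ hℓ ℓ' hℓ' h
  unfold cutPr
  rw [hsplit, hPr, Xc_eq ω ha]
  have e1 : ∏ ℓ ∈ (LE ω E).filter (fun ℓ => Disjoint ℓ S),
      2 * Real.cos (cang gT (Real.pi / 3) (pb' M L E a) ρ (ℓ.image (redE M L))) =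
      ∏ ℓ ∈ (LE ω E).filter (fun ℓ => Disjoint ℓ S),
      2 * Real.cos (cang plane (Real.pi / 3) a ω ℓ) := by
    refine prod_congr rfl fun ℓ hℓ => ?_
    rw [mem_filter] at hℓ
    have hb := LE_box hG hℓ.1
    rw [hgT, cang_image hM hL ha hEb hMK hLK ρ (fun x hx => bs_mem hb hx)
      (fun x hx => bs_mem hb (loop_nx (mem_LE.1 hℓ.1).1 hx))]
  have e2 : ∏ O ∈ (orbs (gT.nxP ρ)).filter (fun O => ¬ ∃ x ∈ E.image (redE M L), x ∈ O),
      2 * Real.cos (cang gT (Real.pi / 3) (pb' M L E a) ρ O) =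
      ∏ O ∈ (orbs (gT.nxP ρ)).filter (fun O => ¬ ∃ x ∈ E.image (redE M L), x ∈ O),
      fac gT 0 ρ O := by
    refine prod_congr rfl fun O hO => ?_
    rw [mem_filter] at hO
    rw [fac_zero, cang_off gT (pb' M L E a) ρ]
    · intro x hx
      obtain ⟨z, rfl⟩ := mem_orbs.1 hO.1
      rw [mem_orb_iff] at hx ⊢
      obtain ⟨n, rfl⟩ := hx
      exact ⟨n + 1, Function.iterate_succ_apply' _ _ _⟩
    · intro x hx b
      apply pb'_off
      intro hxE
      exact hO.2 ⟨x, hxE, hx⟩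
  have e3 : ∏ x ∈ S.image (redE M L),
      2 * Real.cos (cang gT (Real.pi / 3) (pb' M L E a) ρ (strand (gT.nx ρ)
        (S.image (redE M L)) x)) =
      ∏ e ∈ S, 2 * Real.cos (cang plane (Real.pi / 3) a ω (strand (nx ω) S e)) := by
    rw [prod_image]
    · refine prod_congr rfl fun e he => ?_
      obtain ⟨ℓ, h1, h2, h3⟩ := hG e (hSE he)
      have hit : ∀ k, (gT.nx ρ)^[k] (redE M L e) = redE M L ((nx ω)^[k] e) :=
        fun k => nx_iter_red hM hL ρ e k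
      have hr : ret (gT.nx ρ) (S.image (redE M L)) (redE M L e) = ret (nx ω) S e := by
        apply ret_congr
        intro k
        rw [hit]
        constructor
        · intro h
          obtain ⟨e', he', hee'⟩ := mem_image.1 h
          have := redE_inj hMK hLK (hEb e' (hSE he')) (bs_mem h3 (loop_iter h1 h2 k)) hee'
          exact this ▸ he'
        · intro h
          exact mem_image_of_mem _ h
      have hs : strand (gT.nx ρ) (S.image (redE M L)) (redE M L e) =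
          (strand (nx ω) S e).image (redE M L) := by
        unfold strand
        rw [hr, image_image]
        exact image_congr fun k _ => hit k
      rw [hs, hgT, cang_image hM hL ha hEb hMK hLK ρ
        (fun x hx => bs_mem h3 (strand_sub h1 h2 S hx))
        (fun x hx => bs_mem h3 (loop_nx h1 (strand_sub h1 h2 S hx)))]
    · intro e he e' he' h
      exact redE_inj hMK hLK (hEb e (hSE he)) (hEb e' (hSE he')) h
  rw [e1, e2, e3]
  ring

end torus

/-- Bound of the cut product. -/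
theorem abs_cutPr_le {V : Type} [Fintype V] [DecidableEq V] (g : Grid V) (ρ : V → Bool)
    (h1 : ∀ ℓ ∈ orbs (g.nxP ρ), 1 ≤ fac g 0 ρ ℓ) {a : Edge V → Bool → ℝ} {E : Finset (Edge V)}
    (ha : ∀ e ∉ E, ∀ b, a e b = 0) (S : Finset (Edge V)) :
    |cutPr g (Real.pi / 3) S a ρ| ≤ 2 ^ (E.card + S.card) * Pr g 0 ρ := by
  classical
  have hnn : ∀ ℓ ∈ orbs (g.nxP ρ), 0 ≤ fac g 0 ρ ℓ := fun ℓ hℓ => by linarith [h1 ℓ hℓ]
  have hclosed : ∀ ℓ ∈ orbs (g.nxP ρ), ∀ x ∈ ℓ, g.nx ρ x ∈ ℓ := by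
    intro ℓ hℓ x hx
    rw [eq_orb_of_mem hℓ hx, mem_orb]
    exact ⟨1, rfl⟩
  have h2 : ∀ ℓ ∈ (orbs (g.nxP ρ)).filter (fun ℓ => Disjoint ℓ S),
      |2 * Real.cos (cang g (Real.pi / 3) a ρ ℓ)| ≤
      (if ∃ e ∈ E, e ∈ ℓ then (2 : ℝ) else 1) * fac g 0 ρ ℓ := by
    intro ℓ hℓ
    rw [mem_filter] at hℓ
    split_ifs with h
    · have := abs_two_cos (cang g (Real.pi / 3) a ρ ℓ)
      have := h1 ℓ hℓ.1
      linarith
    · rw [cang_off g a ρ (hclosed ℓ hℓ.1) (fun x hx b => ha x (fun hE => h ⟨x, hE, hx⟩) b),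
        ← fac_zero, one_mul, abs_of_nonneg (hnn ℓ hℓ.1)]
  unfold cutPr
  rw [abs_mul, abs_prod, abs_prod, pow_add, mul_right_comm]
  refine mul_le_mul ?_ ?_ (prod_nonneg fun _ _ => abs_nonneg _) ?_
  · refine (prod_le_prod (fun ℓ _ => abs_nonneg _) h2).trans ?_
    rw [prod_mul_distrib]
    refine mul_le_mul ?_ ?_ (prod_nonneg fun ℓ hℓ => hnn ℓ (mem_filter.1 hℓ).1) (by positivity)
    · rw [prod_ite, prod_const, prod_const_one, mul_one]
      refine pow_le_pow_right₀ (by norm_num) ((card_le_card ?_).trans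
        (card_orbs_meet_le (σ := g.nxP ρ) E))
      intro ℓ hℓ
      rw [mem_filter] at hℓ ⊢
      exact ⟨(mem_filter.1 hℓ.1).1, hℓ.2⟩
    · unfold Pr
      rw [← prod_filter_mul_prod_filter_not (orbs (g.nxP ρ)) (fun ℓ => Disjoint ℓ S)]
      conv_lhs => rw [← mul_one (∏ ℓ ∈ (orbs (g.nxP ρ)).filter (fun ℓ => Disjoint ℓ S),
        fac g 0 ρ ℓ)]
      apply mul_le_mul_of_nonneg_left _ (prod_nonneg fun ℓ hℓ => hnn ℓ (mem_filter.1 hℓ).1)
      calc (1 : ℝ) = ∏ ℓ ∈ (orbs (g.nxP ρ)).filter (fun ℓ => ¬ Disjoint ℓ S), (1 : ℝ) := by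
            rw [prod_const_one]
        _ ≤ _ := prod_le_prod (fun _ _ => zero_le_one) fun ℓ hℓ => h1 ℓ (mem_filter.1 hℓ).1
  · calc ∏ e ∈ S, |2 * Real.cos (cang g (Real.pi / 3) a ρ (strand (g.nx ρ) S e))|
        ≤ ∏ _e ∈ S, (2 : ℝ) := prod_le_prod (fun _ _ => abs_nonneg _) fun _ _ => abs_two_cos _
      _ = 2 ^ S.card := by rw [prod_const]
  · have : 0 ≤ Pr g 0 ρ := prod_nonneg hnn
    positivity

end Vale.Agent.P167.H199
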