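import Vale.Agent.P167.H199.Half
import Vale.Agent.P167.H166N.V4Defs

/-!
P167, block VOUT (V4): the geometric input `GEOX`.
-/

namespace Vale.Agent.P167.H199

open Finset Filter Topology
open Vale.Agent.P167.E6 (IsPolygon Encloses dir face edges)
open Vale.Agent.P167.H825 (Marks pdir dirOf bsite enl)
open Vale.Agent.P167.H166N (GEOX Qs)

theorem onL_iff (r : Fin 4) (b v : ℤ × ℤ) : OnL r b v ↔ v ∉ Qs r b := by
  fin_cases r
  · exact (not_lt (a := v.2) (b := b.2)).symm
  · exact (not_le (a := b.1) (b := v.1)).symm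
  · exact (not_le (a := b.2) (b := v.2)).symm
  · exact (not_lt (a := v.1) (b := b.1)).symm

theorem nm_bsite {l : ℕ} [NeZero l] {p : ZMod l → ℤ × ℤ} {Q : Marks} (hQ : Q.Ok) (n : ℕ) :
    (nm (bsite p Q n) : ℝ) ≤ (nm (p 0) + 1) * n := by
  have h1 : nm (bsite p Q n) ≤ n * nm (p 0) + ⌊Q.tp * n⌋₊ := by
    unfold bsite
    refine (nm_add _ _).trans (add_le_add ?_ ?_)
    · rw [nm_le]
      have a := nm_fst (p 0)
      have b := nm_snd (p 0)
      constructor
      · show |(n : ℤ) * (p 0).1| ≤ _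
        rw [abs_mul, Nat.abs_cast]
        exact mul_le_mul_of_nonneg_left a (by positivity)
      · show |(n : ℤ) * (p 0).2| ≤ _
        rw [abs_mul, Nat.abs_cast]
        exact mul_le_mul_of_nonneg_left b (by positivity)
    · refine (nm_smul_unit (nm_dir _) _).trans ?_
      rw [Nat.abs_cast]
  have h2 : (⌊Q.tp * n⌋₊ : ℝ) ≤ n := by
    refine (Nat.floor_le (by have := hQ.tp0; positivity)).trans ?_
    have := hQ.tp1
    have hn : (0 : ℝ) ≤ n := Nat.cast_nonneg n
    nlinarith
  have h3 : (nm (bsite p Q n) : ℝ) ≤ n * nm (p 0) + ⌊Q.tp * n⌋₊ := by exact_mod_cast h1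
  nlinarith

/-- **The geometric input of V4.** -/
theorem geox : GEOX := by
  intro l _ p S₀ hp hS Q hQ
  obtain ⟨R1, hR1, hbox⟩ := enl_box S₀
  obtain ⟨C, hC⟩ := exists_nat_ge (R1 + nm (p 0) + 2 : ℝ)
  set c := min Q.tp (1 - Q.tp) with hc
  have hc0 : 0 < c := lt_min hQ.tp0 (by linarith [hQ.tp1])
  have hnm0 : (0 : ℝ) ≤ nm (p 0) := by
    have : (0 : ℤ) ≤ nm (p 0) := by
      unfold nm
      positivity
    exact_mod_cast this
  refine ⟨C, c / 2, by positivity, ?_, fun K i0 R2 => ?_⟩
  · have hs := near_side hp hS 0 (tp := Q.tp) (k := c / 2) (by linarith [min_le_left Q.tp (1 - Q.tp)])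
      (by linarith [min_le_right Q.tp (1 - Q.tp)]) (by positivity)
    filter_upwards [hs, eventually_gt_atTop 0] with n hn hn0
    have hn1 : (1 : ℝ) ≤ n := by exact_mod_cast hn0
    refine ⟨fun v hv => ?_, fun v hv => ?_⟩
    · have h1 := hbox n v hv
      have h2 := nm_bsite (p := p) hQ n
      have h3 : (nm (v - bsite p Q n) : ℝ) ≤ nm v + nm (bsite p Q n) := by
        have := nm_add v (-(bsite p Q n))
        rw [nm_neg, ← sub_eq_add_neg] at this
        exact_mod_cast this
      have h4 : (nm (v - bsite p Q n) : ℝ) + 2 ≤ C * n := by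
        have h5 : (R1 + nm (p 0) + 2) * n ≤ C * n :=
          mul_le_mul_of_nonneg_right hC (by linarith)
        nlinarith
      exact_mod_cast h4
    · have h1 := hn v (by
        simp only [Nat.cast_zero]
        exact hv)
      simp only [Nat.cast_zero] at h1
      exact h1.trans (onL_iff _ _ _)
  · obtain ⟨ε0, hε0, H⟩ := chain_ex hp hS hQ.tp0 hQ.tp1 K i0 (|R2| + nm (p 0) + 1)
    refine ⟨ε0, hε0, fun ε hε hε' => ?_⟩
    obtain ⟨m, hm, H2⟩ := H ε hε hε'
    refine ⟨m, hm, ?_⟩
    filter_upwards [H2, eventually_gt_atTop 0] with n ⟨z, z1, z2, z3, z4⟩ hn0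
    have hn0' : (0 : ℝ) < n := by exact_mod_cast hn0
    refine ⟨z, fun i hi => ?_, z2, fun i hi v hv => z3 i hi v ?_, ?_⟩
    · rw [z1 i hi]
      unfold bsite
      push_cast
      rfl
    · push_cast
      exact hv
    · have h2 := nm_bsite (p := p) hQ n
      have h3 : (nm (z m) : ℝ) ≤ nm (z m - bsite p Q n) + nm (bsite p Q n) := by
        have := nm_add (z m - bsite p Q n) (bsite p Q n)
        rw [sub_add_cancel] at this
        exact_mod_cast this
      have h4 := le_abs_self R2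
      nlinarith

end Vale.Agent.P167.H199
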