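import Vale.Agent.P167.H199.CutPlane

/-!
P167, block PLID, part 4: the limit of the cut tori.
-/

namespace Vale.Agent.P167.H199

open Finset Filter Topology MeasureTheory
open Vale.Agent.P167.A (Grid plane torus red redE plane_nx plane_hd plane_sg par_red nx_red)
open Vale.Agent.P167.H685
open Vale.Agent.P152 (Edge Ori vw wt)

/-- **Transfer, all even tori.** -/
theorem transfer2 {μ : Measure (ℤ × ℤ → Bool)} [IsProbabilityMeasure μ] (hμ : IsFair μ)
    {W : (M L : ℕ) → [NeZero M] → [NeZero L] → (ZMod M × ZMod L → Bool) → ℝ} {C : ℝ}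
    (hC : 0 ≤ C) (hW : GoodWeight W C)
    {X : (ℤ × ℤ → Bool) → ℝ} {D : ℝ} (hXD : ∀ R, |X R| ≤ D)
    {G : ℕ → Set (ℤ × ℤ → Bool)}
    (hG : ∀ K, Dep (fun R => R ∈ G K) (bx K : Set (ℤ × ℤ)))
    (hGX : ∀ K, ∀ R ∈ G K, ∀ R' ∈ G K, (∀ v ∈ bx K, R v = R' v) → X R = X R')
    (hGae : ∀ᵐ R ∂μ, ∀ᶠ K in atTop, R ∈ G K)
    {Φ : (M L : ℕ) → [NeZero M] → [NeZero L] → (ZMod M × ZMod L → Bool) → ℝ}
    (hΦD : ∃ N : ℕ, ∀ (M L : ℕ) [NeZero M] [NeZero L], Even M → Even L → N ≤ M → N ≤ L →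
      ∀ R, |Φ M L R| ≤ D * W M L R)
    (hΦ : ∀ K, ∃ N : ℕ, ∀ (M L : ℕ) [NeZero M] [NeZero L], Even M → Even L → N ≤ M → N ≤ L →
      ∀ R : ZMod M × ZMod L → Bool, unR R ∈ G K → Φ M L R = W M L R * X (unR R)) :
    ∀ ε > 0, ∃ N : ℕ, ∀ (M L : ℕ) [NeZero M] [NeZero L], Even M → Even L → N ≤ M → N ≤ L →
      |(∑ R, Φ M L R) / (∑ R, W M L R) - ∫ R, X R ∂μ| ≤ ε := by
  classical
  have hD : 0 ≤ D := le_trans (abs_nonneg _) (hXD fun _ => true)
  set FX : ℕ → (ℤ × ℤ → Bool) → ℝ := fun K => (G K).indicator X with hFX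
  set F1 : ℕ → (ℤ × ℤ → Bool) → ℝ := fun K => (G K).indicator 1 with hF1
  have hdepF1 : ∀ K, Dep (F1 K) (bx K : Set (ℤ × ℤ)) := by
    intro K R R' h
    have : (R ∈ G K) = (R' ∈ G K) := hG K R R' h
    by_cases hR : R ∈ G K
    · simp only [hF1]
      rw [Set.indicator_of_mem hR, Set.indicator_of_mem (this ▸ hR)]; rfl
    · simp only [hF1]
      rw [Set.indicator_of_notMem hR, Set.indicator_of_notMem (this ▸ hR)]
  have hdepFX : ∀ K, Dep (FX K) (bx K : Set (ℤ × ℤ)) := by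
    intro K R R' h
    have : (R ∈ G K) = (R' ∈ G K) := hG K R R' h
    by_cases hR : R ∈ G K
    · have hR' : R' ∈ G K := this ▸ hR
      simp only [hFX]
      rw [Set.indicator_of_mem hR, Set.indicator_of_mem hR']
      exact hGX K R hR R' hR' h
    · simp only [hFX]
      rw [Set.indicator_of_notMem hR, Set.indicator_of_notMem (this ▸ hR)]
  have hbX : ∀ K R, |FX K R| ≤ D := by
    intro K R
    by_cases hR : R ∈ G K
    · simp only [hFX]
      rw [Set.indicator_of_mem hR]; exact hXD R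
    · simp only [hFX]
      rw [Set.indicator_of_notMem hR, abs_zero]; exact hD
  have hb1 : ∀ K R, |F1 K R| ≤ 1 := by
    intro K R
    by_cases hR : R ∈ G K
    · simp only [hF1]
      rw [Set.indicator_of_mem hR]; simp
    · simp only [hF1]
      rw [Set.indicator_of_notMem hR]; simp
  have hmX : ∀ K, Measurable (FX K) := fun K => (hdepFX K).measurable
  have hm1 : ∀ K, Measurable (F1 K) := fun K => (hdepF1 K).measurable
  -- limits of the plane expectations
  have limX : Tendsto (fun K => ∫ R, FX K R ∂μ) atTop (𝓝 (∫ R, X R ∂μ)) := by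
    refine tendsto_integral_of_dominated_convergence (fun _ => D)
      (fun K => (hmX K).aestronglyMeasurable) (integrable_const D)
      (fun K => Eventually.of_forall fun R => hbX K R) ?_
    filter_upwards [hGae] with R hR
    refine tendsto_const_nhds.congr' ?_
    filter_upwards [hR] with K hK
    simp only [hFX]
    rw [Set.indicator_of_mem hK]
  have lim1 : Tendsto (fun K => ∫ R, F1 K R ∂μ) atTop (𝓝 1) := by
    have : (1 : ℝ) = ∫ _R : ℤ × ℤ → Bool, (1 : ℝ) ∂μ := by simp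
    rw [this]
    refine tendsto_integral_of_dominated_convergence (fun _ => 1)
      (fun K => (hm1 K).aestronglyMeasurable) (integrable_const 1)
      (fun K => Eventually.of_forall fun R => hb1 K R) ?_
    filter_upwards [hGae] with R hR
    refine tendsto_const_nhds.congr' ?_
    filter_upwards [hR] with K hK
    simp only [hF1]
    rw [Set.indicator_of_mem hK]; rfl
  intro ε hε
  -- choice of the box
  set η : ℝ := ε / (4 * (D + 1)) with hη
  have hη0 : 0 < η := by positivity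
  have hDη : D * η ≤ ε / 4 := by
    rw [hη]
    have : D * (ε / (4 * (D + 1))) = ε / 4 * (D / (D + 1)) := by
      field_simp
    rw [this]
    have h2 : D / (D + 1) ≤ 1 := by
      rw [div_le_one (by linarith)]; linarith
    calc ε / 4 * (D / (D + 1)) ≤ ε / 4 * 1 := by gcongr
      _ = ε / 4 := mul_one _
  have hη1 : η ≤ ε / 4 := by
    rw [hη]
    apply div_le_div_of_nonneg_left hε.le (by norm_num)
    linarith
  obtain ⟨K, hK1, hK2⟩ : ∃ K, |∫ R, FX K R ∂μ - ∫ R, X R ∂μ| ≤ η ∧ 1 - ∫ R, F1 K R ∂μ ≤ η := by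
    have e1 := (Metric.tendsto_atTop.1 limX) η hη0
    have e2 := (Metric.tendsto_atTop.1 lim1) η hη0
    obtain ⟨K1, hK1⟩ := e1
    obtain ⟨K2, hK2⟩ := e2
    refine ⟨max K1 K2, ?_, ?_⟩
    · have := hK1 (max K1 K2) (le_max_left _ _)
      rw [Real.dist_eq] at this
      exact this.le
    · have := hK2 (max K1 K2) (le_max_right _ _)
      rw [Real.dist_eq] at this
      linarith [(abs_lt.1 this).1]
  obtain ⟨N₁, hN₁⟩ := hΦ K
  obtain ⟨N₂, hN₂⟩ := hΦD
  obtain ⟨N₃, hN₃⟩ := local_conv hμ hC hW (hdepFX K) (hbX K) hη0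
  obtain ⟨N₄, hN₄⟩ := local_conv hμ hC hW (hdepF1 K) (hb1 K) hη0
  refine ⟨max (max N₁ N₂) (max N₃ N₄), fun M L _ _ heM heL hM hL => ?_⟩
  have m1 : N₁ ≤ M := le_trans (le_trans (le_max_left _ _) (le_max_left _ _)) hM
  have m2 : N₂ ≤ M := le_trans (le_trans (le_max_right _ _) (le_max_left _ _)) hM
  have m3 : N₃ ≤ M := le_trans (le_trans (le_max_left _ _) (le_max_right _ _)) hM
  have m4 : N₄ ≤ M := le_trans (le_trans (le_max_right _ _) (le_max_right _ _)) hM
  have l1 : N₁ ≤ L := le_trans (le_trans (le_max_left _ _) (le_max_left _ _)) hL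
  have l2 : N₂ ≤ L := le_trans (le_trans (le_max_right _ _) (le_max_left _ _)) hL
  have l3 : N₃ ≤ L := le_trans (le_trans (le_max_left _ _) (le_max_right _ _)) hL
  have l4 : N₄ ≤ L := le_trans (le_trans (le_max_right _ _) (le_max_right _ _)) hL
  have a3 := hN₃ M L m3 l3 heM heL
  have a4 := hN₄ M L m4 l4 heM heL
  have hZpos : 0 < ∑ R, W M L R :=
    lt_of_lt_of_le (mul_pos (Real.exp_pos _) card_pos') (hW.mass M L heM heL)
  have a1 : |(∑ R, Φ M L R) / (∑ R, W M L R) - (∑ R, W M L R * FX K (unR R)) / (∑ R, W M L R)|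
      ≤ D * (1 - (∑ R, W M L R * F1 K (unR R)) / (∑ R, W M L R)) := by
    rw [← sub_div, ← sum_sub_distrib, abs_div, abs_of_pos hZpos]
    have : D * (1 - (∑ R, W M L R * F1 K (unR R)) / (∑ R, W M L R))
        = (∑ R, D * (W M L R - W M L R * F1 K (unR R))) / (∑ R, W M L R) := by
      rw [← mul_sum, sum_sub_distrib, mul_div_assoc, sub_div, div_self hZpos.ne']
    rw [this]
    apply div_le_div_of_nonneg_right _ hZpos.le
    refine (abs_sum_le_sum_abs _ _).trans (sum_le_sum fun R _ => ?_)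
    by_cases hR : unR R ∈ G K
    · simp only [hFX, hF1]
      rw [Set.indicator_of_mem hR, Set.indicator_of_mem hR, hN₁ M L heM heL m1 l1 R hR]
      simp
    · simp only [hFX, hF1]
      rw [Set.indicator_of_notMem hR, Set.indicator_of_notMem hR]
      simpa using hN₂ M L heM heL m2 l2 R
  generalize (∑ R, W M L R * FX K (unR R)) / (∑ R, W M L R) = x2 at a1 a3
  generalize (∑ R, W M L R * F1 K (unR R)) / (∑ R, W M L R) = x3 at a1 a4
  generalize (∑ R, Φ M L R) / (∑ R, W M L R) = x1 at a1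
  have b3 : D * (1 - x3) ≤ D * (η + η) := by
    apply mul_le_mul_of_nonneg_left _ hD
    linarith [(abs_le.1 a4).1]
  have b4 : D * (η + η) = D * η + D * η := by ring
  calc |x1 - ∫ R, X R ∂μ| = |(x1 - x2) + (x2 - ∫ R, FX K R ∂μ) +
        (∫ R, FX K R ∂μ - ∫ R, X R ∂μ)| := by ring_nf
    _ ≤ |x1 - x2| + |x2 - ∫ R, FX K R ∂μ| + |∫ R, FX K R ∂μ - ∫ R, X R ∂μ| :=
        abs_add_three _ _ _
    _ ≤ ε := by linarith

/-- The torus observable of a cut datum. -/
noncomputable def cutPh (S E : Finset Ed) (a : Ed → Bool → ℝ) (M L : ℕ) [NeZero M] [NeZero L]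
    (ρ : ZMod M × ZMod L → Bool) : ℝ :=
  open Classical in
  if h : Even M ∧ Even L then
    cutPr (torus M L h.1 h.2) (Real.pi / 3) (S.image (redE M L)) (pb' M L E a) ρ else 0

/-- **The limit of the cut tori**, percolation form. -/
theorem cut_lim {S E : Finset Ed} (hSE : S ⊆ E) {a : Ed → Bool → ℝ}
    (ha : ∀ e ∉ E, ∀ b, a e b = 0) :
    ∀ ε > 0, ∃ N : ℕ, ∀ (M L : ℕ) [NeZero M] [NeZero L], Even M → Even L → N ≤ M → N ≤ L →
      |(∑ R, cutPh S E a M L R) / (∑ R, Wt M L R) - ∫ ω, Xc S a ω ∂μ| ≤ ε := by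
  classical
  refine transfer2 (G := GK E) (D := 2 ^ (E.card + S.card)) isFair_mu (C := 2 * Real.log 2)
    (by have := Real.log_nonneg (show (1 : ℝ) ≤ 2 by norm_num); positivity)
    (goodWeight s_turn s_turn0) (fun ω => abs_Xc_le ω ha) (GK_dep E) (Xc_dep hSE ha)
    (ae_GK s_fin E) ?_ ?_
  · refine ⟨0, fun M L _ _ hM hL _ _ R => ?_⟩
    simp only [cutPh, Wt]
    rw [dif_pos ⟨hM, hL⟩, dif_pos ⟨hM, hL⟩]
    have := abs_cutPr_le (torus M L hM hL) R
      (fun ℓ hℓ => one_le_fac hM hL s_turn s_turn0 R hℓ)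
      (a := pb' M L E a) (E := E.image (redE M L)) (fun x hx b => pb'_off hx b)
      (S.image (redE M L))
    refine this.trans ?_
    have h1 := one_le_Pr hM hL s_turn s_turn0 R
    apply mul_le_mul_of_nonneg_right _ (by linarith)
    exact pow_le_pow_right₀ (by norm_num) (add_le_add card_image_le card_image_le)
  · intro K
    refine ⟨2 * (K + 1) + 1, fun M L _ _ hM hL h1 h2 R hR => ?_⟩
    simp only [cutPh, Wt]
    rw [dif_pos ⟨hM, hL⟩, dif_pos ⟨hM, hL⟩]
    exact cutPr_eq hM hL hSE ha h1 h2 R hR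

end Vale.Agent.P167.H199
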