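import Vale.Agent.P167.H199.WC

/-!
P167, block 2A: admissibility of sums, translates and reflections of configurations of walls.
-/

namespace Vale.Agent.P167.H199

open Finset Filter Topology MeasureTheory
open Vale.Agent.P167.H592
open Vale.Agent.P167.H825 (Wall WC dv epos gX gY gD gA)
open Vale.Agent.P152 (Edge Ori vw wt)

theorem nm_le {v : ℤ × ℤ} {a : ℤ} : nm v ≤ a ↔ |v.1| ≤ a ∧ |v.2| ≤ a := by
  unfold nm
  exact max_le_iff

theorem nm_fst (v : ℤ × ℤ) : |v.1| ≤ nm v := le_max_left _ _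
theorem nm_snd (v : ℤ × ℤ) : |v.2| ≤ nm v := le_max_right _ _

theorem nm_add (u v : ℤ × ℤ) : nm (u + v) ≤ nm u + nm v := by
  rw [nm_le]
  exact ⟨(abs_add_le _ _).trans (add_le_add (nm_fst _) (nm_fst _)),
    (abs_add_le _ _).trans (add_le_add (nm_snd _) (nm_snd _))⟩

theorem nm_swap (v : ℤ × ℤ) : nm v.swap = nm v := max_comm _ _

theorem nm_neg (v : ℤ × ℤ) : nm (-v) = nm v := by
  unfold nm
  simp

/-- Positions of the cut edges and of the flow. -/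
def pts {ι : Type} (W : WC ι) : Set (ℤ × ℤ) :=
  {v | (∃ i, ∃ k < (W.w i).L, (W.w i).pos k = v) ∨ ∃ e, W.c e ≠ 0 ∧ epos e = v}

theorem Adm.mono {ι : Type} [Fintype ι] {W : WC ι} {κ κ' R R' B B' : ℝ} {n : ℕ}
    (h : W.Adm κ R B n) (hκ : κ' * n ≤ κ * n) (hR : R * n ≤ R' * n) (hB : B ≤ B') :
    W.Adm κ' R' B' n where
  len i := hκ.trans (h.len i)
  box i k hk := (h.box i k hk).trans hR
  sep i i' hi k hk k' hk' := hκ.trans (h.sep i i' hi k hk k' hk')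
  jump i := (h.jump i).imp_right fun ⟨h1, h2, h3⟩ => ⟨h1, hκ.trans h2, by linarith⟩
  csup e he := ⟨(h.csup e he).1.trans hR, fun i k hk => hκ.trans ((h.csup e he).2 i k hk)⟩
  cle e := (h.cle e).trans (by gcongr)
  dle z := (h.dle z).trans (by gcongr)

/-! ### sums -/

theorem dv_sum {I : Type} (A : Finset I) (c : I → Ed → ℝ) (z : ℤ × ℤ) :
    dv (fun e => ∑ i ∈ A, c i e) z = ∑ i ∈ A, dv (c i) z := by
  unfold dv
  rw [← sum_sub_distrib, ← sum_add_distrib, ← sum_sub_distrib]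

theorem Adm.sig {I : Type} [Fintype I] {κ' : I → Type} [∀ i, Fintype (κ' i)]
    {W : ∀ i, WC (κ' i)} {κ R B : ℝ} {n : ℕ} (h : ∀ i, (W i).Adm κ R B n)
    (hf : ∀ i j, i ≠ j → ∀ u ∈ pts (W i), ∀ v ∈ pts (W j), κ * n ≤ (nm (u - v) : ℝ)) :
    (sig W).Adm κ R (Fintype.card I * B) n where
  len x := (h x.1).len x.2
  box x k hk := (h x.1).box x.2 k hk
  sep := by
    rintro ⟨i, x⟩ ⟨j, y⟩ hne k hk k' hk'
    by_cases hij : i = j
    · subst hij
      exact (h i).sep x y (fun hh => hne (by rw [hh])) k hk k' hk'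
    · exact hf i j hij _ (Or.inl ⟨x, k, hk, rfl⟩) _ (Or.inl ⟨y, k', hk', rfl⟩)
  jump x := (h x.1).jump x.2
  csup := by
    intro e he
    have h1 : ∃ i, (W i).c e ≠ 0 := by
      by_contra hn
      push Not at hn
      exact he (sum_eq_zero fun i _ => hn i)
    obtain ⟨i, hi⟩ := h1
    refine ⟨((h i).csup e hi).1, ?_⟩
    rintro ⟨j, y⟩ k hk
    by_cases hij : i = j
    · subst hij
      exact ((h i).csup e hi).2 y k hk
    · exact hf i j hij _ (Or.inr ⟨e, hi, rfl⟩) _ (Or.inl ⟨y, k, hk, rfl⟩)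
  cle e := by
    refine (abs_sum_le_sum_abs _ _).trans ((sum_le_sum fun i _ => (h i).cle e).trans (le_of_eq ?_))
    rw [sum_const, card_univ, nsmul_eq_mul, mul_div_assoc]
  dle z := by
    show |dv (fun e => ∑ i, (W i).c e) z| ≤ _
    rw [dv_sum]
    refine (abs_sum_le_sum_abs _ _).trans ((sum_le_sum fun i _ => (h i).dle z).trans (le_of_eq ?_))
    rw [sum_const, card_univ, nsmul_eq_mul, mul_div_assoc]

theorem jumps_sig {I : Type} [Fintype I] {κ' : I → Type} [∀ i, Fintype (κ' i)]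
    (W : ∀ i, WC (κ' i)) : (sig W).jumps = ∑ i, (W i).jumps := by
  classical
  unfold WC.jumps
  simp only [card_filter]
  rw [Fintype.sum_sigma]
  rfl

/-! ### translations -/

theorem pts_tr {ι : Type} [Fintype ι] (W : WC ι) (a : ℤ × ℤ) {v : ℤ × ℤ} :
    v ∈ pts (tr W a) ↔ v - a ∈ pts W := by
  constructor
  · rintro (⟨i, k, hk, rfl⟩ | ⟨e, he, rfl⟩)
    · refine Or.inl ⟨i, k, hk, ?_⟩
      show (W.w i).pos k = (wtr (W.w i) a).pos k - a
      rw [wtr_pos, add_sub_cancel_right]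
    · refine Or.inr ⟨shE (-a) e, he, ?_⟩
      rcases e with v | v
      · rfl
      · rfl
  · rintro (⟨i, k, hk, h⟩ | ⟨e, he, h⟩)
    · refine Or.inl ⟨i, k, hk, ?_⟩
      show (wtr (W.w i) a).pos k = v
      rw [wtr_pos, h, sub_add_cancel]
    · refine Or.inr ⟨shE a e, ?_, ?_⟩
      · show W.c (shE (-a) (shE a e)) ≠ 0
        rwa [shE_shE, neg_add_cancel, shE_zero]
      · have : epos (shE a e) = epos e + a := by rcases e with v | v <;> rfl
        rw [this, h, sub_add_cancel]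

theorem dv_tr (c : Ed → ℝ) (a z : ℤ × ℤ) : dv (fun e => c (shE (-a) e)) z = dv c (z - a) := by
  unfold dv
  show c (Sum.inl ((z.1 - 1, z.2 - 1) + -a)) - c (Sum.inl ((z.1 - 1, z.2) + -a)) +
    c (Sum.inr ((z.1, z.2 - 1) + -a)) - c (Sum.inr ((z.1 - 1, z.2 - 1) + -a)) =
    c (Sum.inl (z.1 - a.1 - 1, z.2 - a.2 - 1)) - c (Sum.inl (z.1 - a.1 - 1, z.2 - a.2)) +
    c (Sum.inr (z.1 - a.1, z.2 - a.2 - 1)) - c (Sum.inr (z.1 - a.1 - 1, z.2 - a.2 - 1))
  have e1 : ((z.1 - 1, z.2 - 1) + -a : ℤ × ℤ) = (z.1 - a.1 - 1, z.2 - a.2 - 1) := by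
    apply Prod.ext <;> simp <;> ring
  have e2 : ((z.1 - 1, z.2) + -a : ℤ × ℤ) = (z.1 - a.1 - 1, z.2 - a.2) := by
    apply Prod.ext <;> simp <;> ring
  have e3 : ((z.1, z.2 - 1) + -a : ℤ × ℤ) = (z.1 - a.1, z.2 - a.2 - 1) := by
    apply Prod.ext <;> simp <;> ring
  rw [e1, e2, e3]

theorem Adm.tr {ι : Type} [Fintype ι] {W : WC ι} {κ R R' B : ℝ} {n : ℕ} {a : ℤ × ℤ}
    (h : W.Adm κ R B n) (hR : R * n + nm a ≤ R' * n) : (tr W a).Adm κ R' B n where
  len i := h.len i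
  box i k hk := by
    show (nm ((wtr (W.w i) a).pos k) : ℝ) ≤ _
    rw [wtr_pos]
    have h1 := h.box i k hk
    have h2 : (nm ((W.w i).pos k + a) : ℝ) ≤ nm ((W.w i).pos k) + nm a := by
      exact_mod_cast nm_add _ _
    linarith
  sep i i' hi k hk k' hk' := by
    show _ ≤ (nm ((wtr (W.w i) a).pos k - (wtr (W.w i') a).pos k') : ℝ)
    rw [wtr_pos, wtr_pos, add_sub_add_right_eq_sub]
    exact h.sep i i' hi k hk k' hk'
  jump i := h.jump i
  csup e he := by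
    have h1 := h.csup (shE (-a) e) he
    have h0 : epos e = epos (shE (-a) e) + a := by
      rcases e with v | v
      · exact (neg_add_cancel_right v a).symm
      · exact (neg_add_cancel_right v a).symm
    refine ⟨?_, fun i k hk => ?_⟩
    · rw [h0]
      have h2 : (nm (epos (shE (-a) e) + a) : ℝ) ≤ nm (epos (shE (-a) e)) + nm a := by
        exact_mod_cast nm_add _ _
      linarith [h1.1]
    · show _ ≤ (nm (epos e - (wtr (W.w i) a).pos k) : ℝ)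
      rw [wtr_pos, h0, add_sub_add_right_eq_sub]
      exact h1.2 i k hk
  cle e := h.cle _
  dle z := by
    show |dv (fun e => W.c (shE (-a) e)) z| ≤ _
    rw [dv_tr]
    exact h.dle _

theorem jumps_tr {ι : Type} [Fintype ι] (W : WC ι) (a : ℤ × ℤ) : (tr W a).jumps = W.jumps := rfl

/-! ### reflection in the diagonal -/

theorem epos_rD (e : Ed) : epos (rD.ρ e) = (epos e).swap := by rcases e with v | v <;> rfl

theorem pts_mD {ι : Type} [Fintype ι] (W : WC ι) {v : ℤ × ℤ} (hv : v ∈ pts (mD W)) :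
    v.swap ∈ pts W := by
  rcases hv with ⟨i, k, hk, rfl⟩ | ⟨e, he, rfl⟩
  · refine Or.inl ⟨i, k, hk, ?_⟩
    show (W.w i).pos k = ((wrD (W.w i)).pos k).swap
    rw [wrD_pos, Prod.swap_swap]
  · exact Or.inr ⟨rD.ρ e, cP_supp he, epos_rD e⟩

theorem dv_mD (c : Ed → ℝ) (z : ℤ × ℤ) : dv (cP rD c) z = - dv c z.swap := by
  unfold dv
  show (1 : ℝ) * c (Sum.inr (z.2 - 1, z.1 - 1)) - 1 * c (Sum.inr (z.2, z.1 - 1)) +
    1 * c (Sum.inl (z.2 - 1, z.1)) - 1 * c (Sum.inl (z.2 - 1, z.1 - 1)) =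
    -(c (Sum.inl (z.2 - 1, z.1 - 1)) - c (Sum.inl (z.2 - 1, z.1)) +
    c (Sum.inr (z.2, z.1 - 1)) - c (Sum.inr (z.2 - 1, z.1 - 1)))
  ring

theorem swap_sub' (u v : ℤ × ℤ) : nm (u.swap - v.swap) = nm (u - v) := by
  rw [show u.swap - v.swap = (u - v).swap from rfl, nm_swap]

theorem Adm.mD {ι : Type} [Fintype ι] {W : WC ι} {κ R B : ℝ} {n : ℕ}
    (h : W.Adm κ R B n) : (mD W).Adm κ R B n where
  len i := h.len i
  box i k hk := by
    show (nm ((wrD (W.w i)).pos k) : ℝ) ≤ _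
    rw [wrD_pos, nm_swap]
    exact h.box i k hk
  sep i i' hi k hk k' hk' := by
    show _ ≤ (nm ((wrD (W.w i)).pos k - (wrD (W.w i')).pos k') : ℝ)
    rw [wrD_pos, wrD_pos, swap_sub']
    exact h.sep i i' hi k hk k' hk'
  jump i := h.jump i
  csup e he := by
    have h1 := h.csup (rD.ρ e) (cP_supp he)
    have h0 : epos e = (epos (rD.ρ e)).swap := by rw [epos_rD, Prod.swap_swap]
    refine ⟨?_, fun i k hk => ?_⟩
    · rw [h0, nm_swap]
      exact h1.1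
    · show _ ≤ (nm (epos e - (wrD (W.w i)).pos k) : ℝ)
      rw [wrD_pos, h0, swap_sub']
      exact h1.2 i k hk
  cle e := by
    show |cP rD W.c e| ≤ _
    rw [cP_abs]
    exact h.cle _
  dle z := by
    show |dv (cP rD W.c) z| ≤ _
    rw [dv_mD, abs_neg]
    exact h.dle _

theorem jumps_mD {ι : Type} [Fintype ι] (W : WC ι) : (mD W).jumps = W.jumps := rfl

/-! ### reflection in the columns -/

/-- The two reflections of the positions. -/
def rp (s : ℤ) (v : ℤ × ℤ) : ℤ × ℤ := (s - v.1, v.2)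

theorem wrX_pos (w : Wall) {k : ℕ} (hk : k < (wrX w).L) : ∃ k' < w.L, ∃ s : ℤ, (s = 0 ∨ s = 1) ∧
    (wrX w).pos k = rp s (w.pos k') := by
  rw [wrX_L] at hk
  cases ho : w.o
  · refine ⟨k, hk, 0, Or.inl rfl, ?_⟩
    have h1 : wrX w = ⟨false, (-w.q.1, w.q.2), w.L, w.c + w.J, !w.t, w.j, w.k0⟩ := by
      unfold wrX; rw [if_neg (by simp [ho])]
    have h2 : w.pos k = (w.q.1, w.q.2 + k) := by unfold Wall.pos; rw [if_neg (by simp [ho])]
    rw [h1, h2]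
    show ((-w.q.1, w.q.2 + k) : ℤ × ℤ) = (0 - w.q.1, w.q.2 + k)
    rw [zero_sub]
  · refine ⟨w.L - 1 - k, by omega, 1, Or.inr rfl, ?_⟩
    have h1 : wrX w = ⟨true, (2 - w.q.1 - w.L, w.q.2), w.L, w.c + w.j * (Real.pi / 3), w.t, -w.j,
      w.L - w.k0⟩ := by unfold wrX; rw [if_pos ho]
    have h2 : w.pos (w.L - 1 - k) = (w.q.1 + ((w.L - 1 - k : ℕ) : ℤ), w.q.2) := by
      unfold Wall.pos; rw [if_pos ho]
    rw [h1, h2]
    show ((2 - w.q.1 - w.L + k, w.q.2) : ℤ × ℤ) = (1 - (w.q.1 + ((w.L - 1 - k : ℕ) : ℤ)), w.q.2)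
    congr 1
    omega

theorem epos_rX (e : Ed) : ∃ s : ℤ, (s = 0 ∨ s = 1) ∧ epos e = rp s (epos ((rX ℤ ℤ).ρ e)) := by
  rcases e with v | v
  · refine ⟨0, Or.inl rfl, ?_⟩
    show v = (0 - -v.1, v.2)
    apply Prod.ext <;> simp
  · refine ⟨1, Or.inr rfl, ?_⟩
    show v = (1 - (1 - v.1), v.2)
    apply Prod.ext <;> simp

theorem nm_rp {s : ℤ} (hs : s = 0 ∨ s = 1) (v : ℤ × ℤ) : nm (rp s v) ≤ nm v + 1 := by
  have h1 := nm_fst v
  have h2 := nm_snd v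
  rw [nm_le]
  refine ⟨?_, by show |v.2| ≤ _; omega⟩
  show |s - v.1| ≤ _
  rw [abs_le] at h1 ⊢
  omega

theorem nm_rp_sub {s t : ℤ} (hs : s = 0 ∨ s = 1) (ht : t = 0 ∨ t = 1) (u v : ℤ × ℤ) :
    nm (u - v) ≤ nm (rp s u - rp t v) + 1 := by
  have h1 : |s - u.1 - (t - v.1)| ≤ nm (rp s u - rp t v) := nm_fst (rp s u - rp t v)
  have h2 : |u.2 - v.2| ≤ nm (rp s u - rp t v) := nm_snd (rp s u - rp t v)
  rw [nm_le]
  refine ⟨?_, by show |u.2 - v.2| ≤ _; omega⟩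
  show |u.1 - v.1| ≤ _
  rw [abs_le] at h1 ⊢
  omega

theorem pts_mX {ι : Type} [Fintype ι] (W : WC ι) {v : ℤ × ℤ} (hv : v ∈ pts (mX W)) :
    ∃ u ∈ pts W, ∃ s : ℤ, (s = 0 ∨ s = 1) ∧ v = rp s u := by
  rcases hv with ⟨i, k, hk, rfl⟩ | ⟨e, he, rfl⟩
  · obtain ⟨k', hk', s, hs, h⟩ := wrX_pos (W.w i) hk
    exact ⟨_, Or.inl ⟨i, k', hk', rfl⟩, s, hs, h⟩
  · obtain ⟨s, hs, h⟩ := epos_rX e
    exact ⟨_, Or.inr ⟨_, cP_supp he, rfl⟩, s, hs, h⟩

theorem dv_mX (c : Ed → ℝ) (z : ℤ × ℤ) : dv (cP (rX ℤ ℤ) c) z = - dv c (2 - z.1, z.2) := by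
  unfold dv
  show (-1 : ℝ) * c (Sum.inl (-(z.1 - 1), z.2 - 1)) - (-1) * c (Sum.inl (-(z.1 - 1), z.2)) +
    1 * c (Sum.inr (1 - z.1, z.2 - 1)) - 1 * c (Sum.inr (1 - (z.1 - 1), z.2 - 1)) =
    -(c (Sum.inl (2 - z.1 - 1, z.2 - 1)) - c (Sum.inl (2 - z.1 - 1, z.2)) +
    c (Sum.inr (2 - z.1, z.2 - 1)) - c (Sum.inr (2 - z.1 - 1, z.2 - 1)))
  have e1 : -(z.1 - 1) = 2 - z.1 - 1 := by ring
  have e2 : 1 - z.1 = 2 - z.1 - 1 := by ring
  have e3 : 1 - (z.1 - 1) = 2 - z.1 := by ring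
  rw [e1, e2, e3]
  ring

theorem Adm.mX {ι : Type} [Fintype ι] {W : WC ι} {κ κ' R R' B : ℝ} {n : ℕ}
    (h : W.Adm κ R B n) (hκ : κ' * n + 1 ≤ κ * n) (hR : R * n + 1 ≤ R' * n) :
    (mX W).Adm κ' R' B n where
  len i := by
    show _ ≤ (((wrX (W.w i)).L : ℕ) : ℝ)
    rw [wrX_L]
    linarith [h.len i]
  box i k hk := by
    obtain ⟨k', hk', s, hs, h1⟩ := wrX_pos (W.w i) hk
    show (nm ((wrX (W.w i)).pos k) : ℝ) ≤ _
    rw [h1]
    have h2 := h.box i k' hk'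
    have h3 : (nm (rp s ((W.w i).pos k')) : ℝ) ≤ nm ((W.w i).pos k') + 1 := by
      exact_mod_cast nm_rp hs _
    linarith
  sep i i' hi k hk k' hk' := by
    obtain ⟨j, hj, s, hs, h1⟩ := wrX_pos (W.w i) hk
    obtain ⟨j', hj', s', hs', h1'⟩ := wrX_pos (W.w i') hk'
    show _ ≤ (nm ((wrX (W.w i)).pos k - (wrX (W.w i')).pos k') : ℝ)
    rw [h1, h1']
    have h2 := h.sep i i' hi j hj j' hj'
    have h3 : (nm ((W.w i).pos j - (W.w i').pos j') : ℝ) ≤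
        nm (rp s ((W.w i).pos j) - rp s' ((W.w i').pos j')) + 1 := by
      exact_mod_cast nm_rp_sub hs hs' _ _
    linarith
  jump i := by
    rcases h.jump i with h0 | ⟨h1, h2, h3⟩
    · left
      show (wrX (W.w i)).j = 0
      unfold wrX
      split_ifs
      · show -(W.w i).j = 0
        rw [h0, neg_zero]
      · exact h0
    · right
      show ((wrX (W.w i)).j = 1 ∨ (wrX (W.w i)).j = -1) ∧ κ' * n ≤ (wrX (W.w i)).k0 ∧
        (wrX (W.w i)).k0 + κ' * n ≤ (wrX (W.w i)).L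
      unfold wrX
      split_ifs
      · refine ⟨?_, ?_, ?_⟩
        · show -(W.w i).j = 1 ∨ -(W.w i).j = -1
          omega
        · show _ ≤ ((((W.w i).L - (W.w i).k0 : ℕ)) : ℝ)
          have h4 : ((W.w i).L : ℝ) ≤ (((W.w i).L - (W.w i).k0 : ℕ) : ℝ) + (W.w i).k0 := by
            have : (W.w i).L ≤ ((W.w i).L - (W.w i).k0) + (W.w i).k0 := by omega
            exact_mod_cast this
          linarith
        · show ((((W.w i).L - (W.w i).k0 : ℕ)) : ℝ) + _ ≤ (((W.w i).L : ℕ) : ℝ)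
          have h4 : ((((W.w i).L - (W.w i).k0 : ℕ)) : ℝ) ≤ max (((W.w i).L : ℝ) - (W.w i).k0) 0 := by
            rcases le_total (W.w i).k0 (W.w i).L with h5 | h5
            · rw [Nat.cast_sub h5]
              exact le_max_left _ _
            · rw [Nat.sub_eq_zero_of_le h5, Nat.cast_zero]
              exact le_max_right _ _
          rcases max_cases (((W.w i).L : ℝ) - (W.w i).k0) 0 with ⟨h5, h6⟩ | ⟨h5, h6⟩
          · rw [h5] at h4
            linarith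
          · rw [h5] at h4
            linarith [h.len i]
      · exact ⟨h1, by linarith, by linarith⟩
  csup e he := by
    have h1 := h.csup ((rX ℤ ℤ).ρ e) (cP_supp he)
    obtain ⟨s, hs, h0⟩ := epos_rX e
    refine ⟨?_, fun i k hk => ?_⟩
    · rw [h0]
      have h3 : (nm (rp s (epos ((rX ℤ ℤ).ρ e))) : ℝ) ≤ nm (epos ((rX ℤ ℤ).ρ e)) + 1 := by
        exact_mod_cast nm_rp hs _
      linarith [h1.1]
    · obtain ⟨j, hj, t, ht, h2⟩ := wrX_pos (W.w i) hk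
      show _ ≤ (nm (epos e - (wrX (W.w i)).pos k) : ℝ)
      rw [h0, h2]
      have h3 := h1.2 i j hj
      have h4 : (nm (epos ((rX ℤ ℤ).ρ e) - (W.w i).pos j) : ℝ) ≤
          nm (rp s (epos ((rX ℤ ℤ).ρ e)) - rp t ((W.w i).pos j)) + 1 := by
        exact_mod_cast nm_rp_sub hs ht _ _
      linarith
  cle e := by
    show |cP (rX ℤ ℤ) W.c e| ≤ _
    rw [cP_abs]
    exact h.cle _
  dle z := by
    show |dv (cP (rX ℤ ℤ) W.c) z| ≤ _
    rw [dv_mX, abs_neg]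
    exact h.dle _

theorem jumps_mX {ι : Type} [Fintype ι] (W : WC ι) : (mX W).jumps = W.jumps := by
  classical
  unfold WC.jumps
  congr 1
  refine filter_congr fun i _ => ?_
  show (wrX (W.w i)).j ≠ 0 ↔ _
  unfold wrX
  split_ifs
  · exact neg_ne_zero
  · rfl

end Vale.Agent.P167.H199
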