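import Vale.Agent.P167.H199.PwAdm2
import Vale.Agent.P167.H531.Poly

/-!
P167, block START (lower bound of the exterior event): a chain of balls off the enlarged polygon,
from the base point to infinity.
-/

namespace Vale.Agent.P167.H199

open Finset Filter Topology
open Vale.Agent.P167.E6 (IsPolygon Encloses dir face edges)
open Vale.Agent.P167.E2 (mem_edges ro ro_spec)
open Vale.Agent.P167.H531 (fo' ext_const fo_not_mem fi_mem)
open Vale.Agent.P167.H825 (Marks pdir dirOf bsite enl)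

/-! ### paths of faces off the polygon -/

/-- Neighbouring faces which are not enclosed. -/
def ExS (S : Finset (ℤ × ℤ)) (f g : ℤ × ℤ) : Prop := (∃ r, g = f + dir r) ∧ f ∉ S ∧ g ∉ S

theorem ExS.symm {S : Finset (ℤ × ℤ)} {f g : ℤ × ℤ} (h : ExS S f g) : ExS S g f := by
  obtain ⟨⟨r, rfl⟩, h1, h2⟩ := h
  refine ⟨⟨r + 2, ?_⟩, h2, h1⟩
  have : dir (r + 2) = - dir r := by fin_cases r <;> rfl
  rw [this, add_neg_cancel_right]

theorem face_sub (v : ℤ × ℤ) (r : Fin 4) : face v (r - 1) = face v r + dir (r - 1) := by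
  unfold face
  rw [add_assoc]
  congr 1
  fin_cases r <;> rfl

variable {l : ℕ} {p : ZMod l → ℤ × ℤ} {S : Finset (ℤ × ℤ)}

theorem ro_eq (hp : IsPolygon p) (i : ℕ) : ro p (i : ZMod l) = pdir p i := by
  have h1 := ro_spec hp (i : ZMod l)
  have h2 := pdir_spec hp i
  rw [h1] at h2
  have h3 := add_left_cancel h2
  rw [← dirOf_dir (ro p (i : ZMod l)), h3, dirOf_dir]

/-- All the outer faces at the polygon are joined off the polygon. -/
theorem ext_reach (hp : IsPolygon p) (hS : Encloses p S) (i j : ZMod l) :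
    Relation.ReflTransGen (ExS S) (fo' p i) (fo' p j) := by
  classical
  set h : ℤ × ℤ → ZMod 2 := fun f =>
    if Relation.ReflTransGen (ExS S) (fo' p i) f then 1 else 0 with hh
  have key := ext_const hp hS (h := h) (fun v r he => by
    rw [mem_edges, not_or] at he
    have e1 : ExS S (face v r) (face v (r - 1)) := ⟨⟨_, face_sub v r⟩, he.1, he.2⟩
    have : Relation.ReflTransGen (ExS S) (fo' p i) (face v r) ↔
        Relation.ReflTransGen (ExS S) (fo' p i) (face v (r - 1)) :=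
      ⟨fun h => h.tail e1, fun h => h.tail e1.symm⟩
    simp only [hh, this]) i j
  simp only [hh] at key
  rw [if_pos Relation.ReflTransGen.refl] at key
  by_contra hn
  rw [if_neg hn] at key
  exact absurd key (by decide)

/-- There is a path of faces off the polygon to infinity. -/
theorem ext_far (hp : IsPolygon p) (hS : Encloses p S) (i : ZMod l) (N : ℤ) :
    ∃ f, Relation.ReflTransGen (ExS S) (fo' p i) f ∧ N ≤ f.1 := by
  obtain ⟨f, hf, hmax⟩ := S.exists_max_image (fun f => f.1) ⟨_, fi_mem hp hS i⟩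
  have hout : (f.1 + 1, f.2) ∉ S := fun h => by
    have := hmax _ h
    simp only at this
    omega
  have e1 : face (f.1 + 1, f.2) 1 = f := by
    show (f.1 + 1 + -1, f.2 + 0) = f
    ext <;> simp
  have e2 : face (f.1 + 1, f.2) (1 - 1) = (f.1 + 1, f.2) := by
    show (f.1 + 1 + 0, f.2 + 0) = _
    ext <;> simp
  obtain ⟨j, hj1, hj2⟩ := (hS (f.1 + 1, f.2) 1).2 ⟨by rw [e1]; exact hf, by rw [e2]; exact hout⟩
  have hro : ro p j = 1 := by
    have h1 := ro_spec hp j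
    rw [hj2, hj1] at h1
    have h3 := add_left_cancel h1
    rw [← dirOf_dir (ro p j), ← h3, dirOf_dir]
  have hfo : fo' p j = (f.1 + 1, f.2) := by
    unfold fo'
    rw [hro, hj1, e2]
  have h0 := ext_reach hp hS i j
  rw [hfo] at h0
  have step : ∀ k : ℕ, Relation.ReflTransGen (ExS S) (fo' p i) (f.1 + 1 + k, f.2) := by
    intro k
    induction k with
    | zero => simpa using h0
    | succ k ih =>
      refine ih.tail ⟨⟨0, ?_⟩, fun h => ?_, fun h => ?_⟩
      · show _ = (f.1 + 1 + k + 1, f.2 + 0)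
        push_cast
        ext
        · simp; ring
        · simp
      · have := hmax _ h
        simp only at this
        omega
      · have := hmax _ h
        simp only at this
        push_cast at this
        omega
  refine ⟨_, step (N - f.1).toNat, ?_⟩
  simp only
  have := Int.self_le_toNat (N - f.1)
  omega

/-! ### chains -/

/-- A chain of `m` steps of length at most `r` through points with the property `G`. -/
def Chn (G : ℤ × ℤ → Prop) (r : ℤ) (m : ℕ) (a b : ℤ × ℤ) : Prop :=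
  ∃ z : ℕ → ℤ × ℤ, z 0 = a ∧ z m = b ∧ (∀ i ≤ m, G (z i)) ∧ ∀ i < m, nm (z (i + 1) - z i) ≤ r

theorem Chn.trans {G : ℤ × ℤ → Prop} {r : ℤ} {m m' : ℕ} {a b c : ℤ × ℤ} (h : Chn G r m a b)
    (h' : Chn G r m' b c) : Chn G r (m + m') a c := by
  obtain ⟨z, z0, z1, z2, z3⟩ := h
  obtain ⟨w, w0, w1, w2, w3⟩ := h'
  refine ⟨fun i => if i ≤ m then z i else w (i - m), ?_, ?_, fun i hi => ?_, fun i hi => ?_⟩
  · simp [z0]
  · by_cases h : m' = 0
    · subst h
      simp only [add_zero, le_refl, if_true]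
      rw [z1, ← w0, w1]
    · beta_reduce
      rw [if_neg (by omega), Nat.add_sub_cancel_left, w1]
  · beta_reduce
    split_ifs with h
    · exact z2 i h
    · exact w2 _ (by omega)
  · beta_reduce
    by_cases h : i + 1 ≤ m
    · rw [if_pos h, if_pos (by omega)]
      exact z3 i (by omega)
    · rw [if_neg h]
      by_cases h2 : i ≤ m
      · have : i = m := by omega
        subst this
        rw [if_pos le_rfl, z1, ← w0, show i + 1 - i = 0 + 1 by omega]
        exact w3 0 (by omega)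
      · rw [if_neg h2, show i + 1 - m = i - m + 1 by omega]
        exact w3 _ (by omega)

theorem nm_smul_unit {u : ℤ × ℤ} (hu : nm u ≤ 1) (k : ℤ) : nm (k • u) ≤ |k| := by
  rw [nm_le]
  have h1 := (nm_fst u).trans hu
  have h2 := (nm_snd u).trans hu
  constructor
  · show |k * u.1| ≤ _
    rw [abs_mul]
    nlinarith [abs_nonneg k]
  · show |k * u.2| ≤ _
    rw [abs_mul]
    nlinarith [abs_nonneg k]

theorem line_step {r t : ℤ} (hr : 0 ≤ r) {a u : ℤ × ℤ} (hu : nm u ≤ 1) (i : ℕ) :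
    nm ((a + (min (((i + 1 : ℕ) : ℤ) * r) t) • u) - (a + (min ((i : ℤ) * r) t) • u)) ≤ r := by
  rw [add_sub_add_left_eq_sub, ← sub_smul]
  refine (nm_smul_unit hu _).trans ?_
  have h1 : ((i + 1 : ℕ) : ℤ) * r = i * r + r := by push_cast; ring
  rw [h1, abs_le]
  constructor <;> omega

/-- Straight chains. -/
theorem Chn.line {G : ℤ × ℤ → Prop} {r t : ℤ} (hr : 0 ≤ r) {a u : ℤ × ℤ} (hu : nm u ≤ 1)
    (ht : 0 ≤ t) {J : ℕ} (hJ : t ≤ J * r) (hG : ∀ s, 0 ≤ s → s ≤ t → G (a + s • u)) :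
    Chn G r J a (a + t • u) := by
  refine ⟨fun i => a + (min ((i : ℤ) * r) t) • u, ?_, ?_, fun i _ => ?_, fun i _ => ?_⟩
  · simp [ht]
  · simp only
    rw [min_eq_right hJ]
  · exact hG _ (le_min (by positivity) ht) (min_le_right _ _)
  · exact line_step hr hu i

theorem Chn.mono {G G' : ℤ × ℤ → Prop} {r : ℤ} {m : ℕ} {a b : ℤ × ℤ} (h : Chn G r m a b)
    (hG : ∀ z, G z → G' z) : Chn G' r m a b := by
  obtain ⟨z, z0, z1, z2, z3⟩ := h
  exact ⟨z, z0, z1, fun i hi => hG _ (z2 i hi), z3⟩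

/-! ### good points -/

/-- The ball of radius `ρ` is off the enlargement. -/
def Gd (S : Finset (ℤ × ℤ)) (n : ℕ) (ρ : ℤ) (z : ℤ × ℤ) : Prop :=
  ∀ v, nm (v - z) ≤ ρ → v ∉ enl S n

/-- The centre of a block. -/
def cen (n : ℕ) (f : ℤ × ℤ) : ℤ × ℤ := (n * f.1 + (n : ℤ) / 2, n * f.2 + (n : ℤ) / 2)

theorem nm_le' {v z : ℤ × ℤ} {ρ : ℤ} (h : nm (v - z) ≤ ρ) :
    z.1 - ρ ≤ v.1 ∧ v.1 ≤ z.1 + ρ ∧ z.2 - ρ ≤ v.2 ∧ v.2 ≤ z.2 + ρ := by
  rw [nm_le] at h
  obtain ⟨h1, h2⟩ := h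
  rw [abs_le] at h1 h2
  simp only [Prod.fst_sub, Prod.snd_sub] at h1 h2
  omega

theorem dir_val (r : Fin 4) : dir r = (1, 0) ∨ dir r = (0, 1) ∨ dir r = (-1, 0) ∨
    dir r = (0, -1) := by
  fin_cases r
  · exact Or.inl rfl
  · exact Or.inr (Or.inl rfl)
  · exact Or.inr (Or.inr (Or.inl rfl))
  · exact Or.inr (Or.inr (Or.inr rfl))

theorem nm_dir (r : Fin 4) : nm (dir r) ≤ 1 := by
  fin_cases r <;> simp [nm, dir]

theorem good_between {n : ℕ} {ρ : ℤ} (hρ : 0 ≤ ρ) (hn : 4 * ρ + 8 ≤ n) {f g : ℤ × ℤ}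
    (h : ExS S f g) : ∃ u : ℤ × ℤ, nm u ≤ 1 ∧ cen n g = cen n f + (n : ℤ) • u ∧
      ∀ s : ℤ, 0 ≤ s → s ≤ n → Gd S n ρ (cen n f + s • u) := by
  obtain ⟨⟨r, rfl⟩, hf, hg⟩ := h
  refine ⟨dir r, nm_dir r, ?_, fun s hs0 hs1 v hv => ?_⟩
  · unfold cen
    ext
    · show (n : ℤ) * (f.1 + (dir r).1) + (n : ℤ) / 2 = n * f.1 + (n : ℤ) / 2 + n * (dir r).1
      ring
    · show (n : ℤ) * (f.2 + (dir r).2) + (n : ℤ) / 2 = n * f.2 + (n : ℤ) / 2 + n * (dir r).2
      ring
  · obtain ⟨h1, h2, h3, h4⟩ := nm_le' hv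
    have key : Blk n f v ∨ Blk n (f + dir r) v := by
      rcases dir_val r with hd | hd | hd | hd <;> rw [hd] at h1 h2 h3 h4 ⊢ <;>
        simp only [cen, Prod.fst_add, Prod.snd_add, Prod.smul_fst, Prod.smul_snd, smul_eq_mul,
          mul_one, mul_zero, add_zero, mul_neg] at h1 h2 h3 h4 <;>
        simp only [Blk, Prod.fst_add, Prod.snd_add, add_zero, mul_add, mul_one, mul_neg]
      · by_cases hx : v.1 < n * f.1 + n
        · left; omega
        · right; omega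
      · by_cases hx : v.2 < n * f.2 + n
        · left; omega
        · right; omega
      · by_cases hx : n * f.1 ≤ v.1
        · left; omega
        · right; omega
      · by_cases hx : n * f.2 ≤ v.2
        · left; omega
        · right; omega
    rcases key with k | k
    · exact k.notMem hf
    · exact k.notMem hg

/-- Points near the outer side of a side. -/
theorem start_blk {n : ℕ} {ρ τ h : ℤ} (P : ℤ × ℤ) (r : Fin 4) (h1 : ρ + 1 ≤ τ)
    (h2 : τ + ρ + 1 ≤ n) (h3 : ρ + 1 ≤ h) (h4 : h + ρ + 1 ≤ n) {v : ℤ × ℤ}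
    (hv : nm (v - ((n : ℤ) • P + τ • dir r + h • dir (r - 1))) ≤ ρ) :
    Blk n (face P (r - 1)) v := by
  obtain ⟨q1, q2, q3, q4⟩ := nm_le' hv
  simp only [Prod.fst_add, Prod.snd_add, Prod.smul_fst, Prod.smul_snd, smul_eq_mul] at q1 q2 q3 q4
  fin_cases r
  · have e1 : dir (⟨0, by norm_num⟩ : Fin 4) = (1, 0) := rfl
    have e2 : dir ((⟨0, by norm_num⟩ : Fin 4) - 1) = (0, -1) := rfl
    have e3 : face P ((⟨0, by norm_num⟩ : Fin 4) - 1) = (P.1 + 0, P.2 + -1) := rfl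
    rw [e1, e2] at q1 q2 q3 q4
    rw [e3]
    simp only [Blk, mul_add, mul_one, mul_zero, mul_neg, add_zero] at q1 q2 q3 q4 ⊢
    omega
  · have e1 : dir (⟨1, by norm_num⟩ : Fin 4) = (0, 1) := rfl
    have e2 : dir ((⟨1, by norm_num⟩ : Fin 4) - 1) = (1, 0) := rfl
    have e3 : face P ((⟨1, by norm_num⟩ : Fin 4) - 1) = (P.1 + 0, P.2 + 0) := rfl
    rw [e1, e2] at q1 q2 q3 q4
    rw [e3]
    simp only [Blk, mul_one, mul_zero, add_zero] at q1 q2 q3 q4 ⊢
    omega
  · have e1 : dir (⟨2, by norm_num⟩ : Fin 4) = (-1, 0) := rfl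
    have e2 : dir ((⟨2, by norm_num⟩ : Fin 4) - 1) = (0, 1) := rfl
    have e3 : face P ((⟨2, by norm_num⟩ : Fin 4) - 1) = (P.1 + -1, P.2 + 0) := rfl
    rw [e1, e2] at q1 q2 q3 q4
    rw [e3]
    simp only [Blk, mul_add, mul_one, mul_zero, mul_neg, add_zero] at q1 q2 q3 q4 ⊢
    omega
  · have e1 : dir (⟨3, by norm_num⟩ : Fin 4) = (0, -1) := rfl
    have e2 : dir ((⟨3, by norm_num⟩ : Fin 4) - 1) = (-1, 0) := rfl
    have e3 : face P ((⟨3, by norm_num⟩ : Fin 4) - 1) = (P.1 + -1, P.2 + -1) := rfl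
    rw [e1, e2] at q1 q2 q3 q4
    rw [e3]
    simp only [Blk, mul_add, mul_one, mul_zero, mul_neg, add_zero] at q1 q2 q3 q4 ⊢
    omega

/-- Coordinates of the centre of the outer block. -/
theorem cen_start (n : ℕ) (P : ℤ × ℤ) (r : Fin 4) : ∃ T H : ℤ, (n : ℤ) / 2 ≤ T ∧
    T ≤ (n : ℤ) / 2 + 1 ∧ (n : ℤ) / 2 ≤ H ∧ H ≤ (n : ℤ) / 2 + 1 ∧
    cen n (face P (r - 1)) = (n : ℤ) • P + T • dir r + H • dir (r - 1) := by
  fin_cases r
  · refine ⟨(n : ℤ) / 2, n - (n : ℤ) / 2, by omega, by omega, by omega, by omega, ?_⟩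
    show cen n (P.1 + 0, P.2 + -1) = (n : ℤ) • P + _ • ((1, 0) : ℤ × ℤ) + _ • ((0, -1) : ℤ × ℤ)
    simp only [cen]
    ext
    · simp
    · simp [mul_add]; ring
  · refine ⟨(n : ℤ) / 2, (n : ℤ) / 2, by omega, by omega, by omega, by omega, ?_⟩
    show cen n (P.1 + 0, P.2 + 0) = (n : ℤ) • P + _ • ((0, 1) : ℤ × ℤ) + _ • ((1, 0) : ℤ × ℤ)
    simp only [cen]
    ext
    · simp
    · simp
  · refine ⟨n - (n : ℤ) / 2, (n : ℤ) / 2, by omega, by omega, by omega, by omega, ?_⟩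
    show cen n (P.1 + -1, P.2 + 0) = (n : ℤ) • P + _ • ((-1, 0) : ℤ × ℤ) + _ • ((0, 1) : ℤ × ℤ)
    simp only [cen]
    ext
    · simp [mul_add]; ring
    · simp
  · refine ⟨n - (n : ℤ) / 2, n - (n : ℤ) / 2, by omega, by omega, by omega, by omega, ?_⟩
    show cen n (P.1 + -1, P.2 + -1) = (n : ℤ) • P + _ • ((0, -1) : ℤ × ℤ) +
      _ • ((-1, 0) : ℤ × ℤ)
    simp only [cen]
    ext
    · simp [mul_add]; ring
    · simp [mul_add]; ring

/-- Chains along a path of faces. -/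
theorem chn_faces {f g : ℤ × ℤ} (h : Relation.ReflTransGen (ExS S) f g) (J : ℕ) : ∃ m : ℕ,
    ∀ (n : ℕ) (r ρ : ℤ), 0 ≤ r → 0 ≤ ρ → 4 * ρ + 8 ≤ n → (n : ℤ) ≤ J * r → (f ∉ S) →
      Chn (Gd S n ρ) r m (cen n f) (cen n g) := by
  induction h with
  | refl =>
    refine ⟨0, fun n r ρ hr hρ hn hJ hf => ⟨fun _ => cen n f, rfl, rfl, fun i _ v hv => ?_,
      fun i hi => absurd hi (by omega)⟩⟩
    have : Blk n f v := by
      obtain ⟨h1, h2, h3, h4⟩ := nm_le' hv
      simp only [cen] at h1 h2 h3 h4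
      unfold Blk
      omega
    exact this.notMem hf
  | tail _ hs ih =>
    obtain ⟨m, hm⟩ := ih
    refine ⟨m + J, fun n r ρ hr hρ hn hJ hf => (hm n r ρ hr hρ hn hJ hf).trans ?_⟩
    obtain ⟨u, hu, h1, h2⟩ := good_between hρ hn hs
    rw [h1]
    exact Chn.line hr hu (by omega) hJ h2

/-- **The chain from the base point to infinity, off the enlarged polygon.** -/
theorem chain_ex (hp : IsPolygon p) (hS : Encloses p S) {tp : ℝ} (h0 : 0 < tp) (h1 : tp < 1)
    (K i₀ : ℕ) (R2 : ℝ) : ∃ ε₀ : ℝ, 0 < ε₀ ∧ ∀ ε : ℝ, 0 < ε → ε < ε₀ → ∃ m : ℕ, i₀ ≤ m ∧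
      ∀ᶠ n : ℕ in atTop, ∃ z : ℕ → ℤ × ℤ,
        (∀ i ≤ i₀, z i = (n : ℤ) • p 0 + (⌊tp * n⌋₊ : ℤ) • dir (pdir p 0) +
          ((K + 2 + i : ℕ) * (⌊ε * n⌋₊ : ℤ)) • dir (pdir p 0 - 1)) ∧
        (∀ i < m, nm (z (i + 1) - z i) ≤ ⌊ε * n⌋₊) ∧
        (∀ i ≤ m, ∀ v, nm (v - z i) ≤ (K + 1 : ℕ) * (⌊ε * n⌋₊ : ℤ) → v ∉ enl S n) ∧
        R2 * n < nm (z m) := by
  set c := min tp (1 - tp) with hc
  have hc0 : 0 < c := lt_min h0 (by linarith)
  have hc1 : c ≤ 1 / 2 := by
    rcases le_total tp (1 / 2) with h | h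
    · exact (min_le_left _ _).trans h
    · exact (min_le_right _ _).trans (by linarith)
  refine ⟨c / (8 * (K + 3 + i₀)), by positivity, fun ε hε hε' => ?_⟩
  have hεc : 8 * (K + 3 + i₀) * ε < c := by
    rw [lt_div_iff₀ (by positivity)] at hε'
    linarith
  obtain ⟨J, hJ⟩ := exists_nat_ge (2 / ε)
  have hJε : 2 ≤ J * ε := by rwa [div_le_iff₀ hε] at hJ
  obtain ⟨f, hf, hfN⟩ := ext_far hp hS ((0 : ℕ) : ZMod l) (⌈|R2|⌉ + 1)
  obtain ⟨m', hm'⟩ := chn_faces hf J
  have hfo : fo' p ((0 : ℕ) : ZMod l) = face (p ((0 : ℕ) : ZMod l)) (pdir p 0 - 1) := by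
    unfold fo'
    rw [ro_eq hp]
  have hfoS := fo_not_mem hp hS ((0 : ℕ) : ZMod l)
  have hp0 : p ((0 : ℕ) : ZMod l) = p 0 := by simp
  rw [hp0] at hfo
  refine ⟨(J + i₀) + (J + m'), by omega, ?_⟩
  filter_upwards [(tendsto_natCast_atTop_atTop (R := ℝ)).eventually_ge_atTop (2 / ε),
    (tendsto_natCast_atTop_atTop (R := ℝ)).eventually_ge_atTop (16 / c),
    eventually_gt_atTop 0] with n hn1 hn2 hn0
  have hn0' : (0 : ℝ) < n := by exact_mod_cast hn0
  rw [div_le_iff₀ hε] at hn1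
  rw [div_le_iff₀ hc0] at hn2
  have f1 := Nat.lt_floor_add_one (ε * n)
  have f2 := Nat.floor_le (show 0 ≤ ε * n by positivity)
  have t1 := Nat.lt_floor_add_one (tp * n)
  have t2 := Nat.floor_le (show 0 ≤ tp * n by positivity)
  generalize hr : (⌊ε * n⌋₊ : ℕ) = r at *
  generalize hT : (⌊tp * n⌋₊ : ℕ) = T at *
  have hJr : (n : ℤ) ≤ J * (r : ℤ) := by
    have : (n : ℝ) ≤ J * r := by
      have h2 : ε * n / 2 ≤ r := by linarith
      have h3 : (J : ℝ) * (ε * n / 2) ≤ J * r := mul_le_mul_of_nonneg_left h2 (Nat.cast_nonneg _)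
      nlinarith
    exact_mod_cast this
  have hKr : 8 * ((K + 3 + i₀ : ℕ) : ℝ) * r ≤ c * n := by
    push_cast
    have h2 : 8 * ((K : ℝ) + 3 + i₀) * r ≤ 8 * ((K : ℝ) + 3 + i₀) * (ε * n) :=
      mul_le_mul_of_nonneg_left f2 (by positivity)
    have h3 : 8 * ((K : ℝ) + 3 + i₀) * ε * n ≤ c * n :=
      mul_le_mul_of_nonneg_right hεc.le hn0'.le
    linarith
  have hTc : c * n - 1 ≤ T ∧ (T : ℝ) ≤ n - c * n := by
    have h2 : c * n ≤ tp * n := mul_le_mul_of_nonneg_right (min_le_left _ _) hn0'.le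
    have h3 : c * n ≤ (1 - tp) * n := mul_le_mul_of_nonneg_right (min_le_right _ _) hn0'.le
    constructor <;> linarith
  -- everything in integers
  set ρ : ℤ := ((K + 1 : ℕ) : ℤ) * r with hρ
  have hρ0 : 0 ≤ ρ := by positivity
  have hr1 : (1 : ℤ) ≤ r := by
    have : (0 : ℝ) < r := by nlinarith
    have : 0 < r := by exact_mod_cast this
    omega
  -- the numbers
  have hbig : 8 * (((K + 3 + i₀ : ℕ) : ℤ) * r) ≤ T + 1 := by
    have : 8 * (((K + 3 + i₀ : ℕ) : ℝ) * r) ≤ T + 1 := by linarith [hTc.1]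
    exact_mod_cast this
  have hbig2 : 8 * (((K + 3 + i₀ : ℕ) : ℤ) * r) ≤ n - T := by
    have : 8 * (((K + 3 + i₀ : ℕ) : ℝ) * r) ≤ n - T := by linarith [hTc.2]
    have h2 : 8 * (((K + 3 + i₀ : ℕ) : ℝ) * r) + T ≤ n := by linarith
    have h3 : 8 * (((K + 3 + i₀ : ℕ) : ℤ) * r) + T ≤ n := by exact_mod_cast h2
    linarith
  have hn16 : (16 : ℤ) ≤ T + 1 := by
    have : (16 : ℝ) ≤ T + 1 := by linarith [hTc.1]
    exact_mod_cast this
  have hn16' : (16 : ℤ) ≤ n - T := by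
    have : (16 : ℝ) + T ≤ n := by linarith [hTc.2]
    have h3 : (16 : ℤ) + T ≤ n := by exact_mod_cast this
    linarith
  have e1 : ((K + 3 + i₀ : ℕ) : ℤ) * r = ρ + ((2 + i₀ : ℕ) : ℤ) * r := by
    rw [hρ]; push_cast; ring
  have e2 : ((2 + i₀ : ℕ) : ℤ) * r = 2 * r + (i₀ : ℤ) * r := by push_cast; ring
  have e3 : ((K + 2 : ℕ) : ℤ) * r = ρ + r := by rw [hρ]; push_cast; ring
  have hi0 : (0 : ℤ) ≤ (i₀ : ℤ) * r := by positivity
  rw [e1, e2] at hbig hbig2
  -- the centre of the first block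
  obtain ⟨T', H, c1, c2, c3, c4, c5⟩ := cen_start n (p 0) (pdir p 0)
  have hgood : ∀ τ h : ℤ, ρ + 1 ≤ τ → τ + ρ + 1 ≤ n → ρ + 1 ≤ h → h + ρ + 1 ≤ n →
      Gd S n ρ ((n : ℤ) • p 0 + τ • dir (pdir p 0) + h • dir (pdir p 0 - 1)) := by
    intro τ h q1 q2 q3 q4 v hv
    refine (start_blk (p 0) (pdir p 0) q1 q2 q3 q4 hv).notMem ?_
    rw [← hfo]
    exact hfoS
  -- second part: tangential
  have B : Chn (Gd S n ρ) r J
      ((n : ℤ) • p 0 + (T : ℤ) • dir (pdir p 0) + H • dir (pdir p 0 - 1))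
      (cen n (face (p 0) (pdir p 0 - 1))) := by
    rw [c5]
    rcases le_total (T : ℤ) T' with h | h
    · have e : (n : ℤ) • p 0 + T' • dir (pdir p 0) + H • dir (pdir p 0 - 1) =
          ((n : ℤ) • p 0 + (T : ℤ) • dir (pdir p 0) + H • dir (pdir p 0 - 1)) +
            (T' - T) • dir (pdir p 0) := by module
      rw [e]
      refine Chn.line (by omega) (nm_dir _) (by omega) (by omega) fun s hs0 hs1 => ?_
      have e' : (n : ℤ) • p 0 + (T : ℤ) • dir (pdir p 0) + H • dir (pdir p 0 - 1) +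
          s • dir (pdir p 0) =
          (n : ℤ) • p 0 + (T + s) • dir (pdir p 0) + H • dir (pdir p 0 - 1) := by module
      rw [e']
      exact hgood _ _ (by omega) (by omega) (by omega) (by omega)
    · have e : (n : ℤ) • p 0 + T' • dir (pdir p 0) + H • dir (pdir p 0 - 1) =
          ((n : ℤ) • p 0 + (T : ℤ) • dir (pdir p 0) + H • dir (pdir p 0 - 1)) +
            (T - T') • (- dir (pdir p 0)) := by module
      rw [e]
      refine Chn.line (by omega) (by rw [nm_neg]; exact nm_dir _) (by omega) (by omega)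
        fun s hs0 hs1 => ?_
      have e' : (n : ℤ) • p 0 + (T : ℤ) • dir (pdir p 0) + H • dir (pdir p 0 - 1) +
          s • (- dir (pdir p 0)) =
          (n : ℤ) • p 0 + (T - s) • dir (pdir p 0) + H • dir (pdir p 0 - 1) := by module
      rw [e']
      exact hgood _ _ (by omega) (by omega) (by omega) (by omega)
  have C := hm' n r ρ (by omega) hρ0 (by omega) hJr hfoS
  rw [hfo] at C
  obtain ⟨w, w0, w1, w2, w3⟩ := B.trans C
  -- first part: normal
  set t : ℤ := H - ((K + 2 : ℕ) : ℤ) * r with ht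
  have ht0 : (i₀ : ℤ) * r ≤ t := by rw [ht, e3]; omega
  set a : ℤ × ℤ := (n : ℤ) • p 0 + (T : ℤ) • dir (pdir p 0) +
    (((K + 2 : ℕ) : ℤ) * r) • dir (pdir p 0 - 1) with ha
  set A := J + i₀ with hA
  have hAr : t ≤ (A : ℤ) * r := by
    have h2 : (A : ℤ) * r = J * r + i₀ * r := by rw [hA]; push_cast; ring
    rw [h2, ht, e3]
    omega
  have haw : a + t • dir (pdir p 0 - 1) = w 0 := by
    rw [w0, ha, ht]
    module
  refine ⟨fun i => if i ≤ A then a + (min ((i : ℤ) * r) t) • dir (pdir p 0 - 1) else w (i - A),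
    fun i hi => ?_, fun i hi => ?_, fun i hi v hv => ?_, ?_⟩
  · beta_reduce
    rw [if_pos (by omega)]
    have h2 : (i : ℤ) * r ≤ t := by
      have : (i : ℤ) * r ≤ i₀ * r := mul_le_mul_of_nonneg_right (by exact_mod_cast hi) (by omega)
      omega
    rw [min_eq_left h2, ha]
    push_cast
    module
  · beta_reduce
    by_cases h : i + 1 ≤ A
    · rw [if_pos h, if_pos (by omega)]
      exact line_step (by omega) (nm_dir _) i
    · rw [if_neg h]
      by_cases h2 : i ≤ A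
      · have : i = A := by omega
        subst this
        rw [if_pos le_rfl, min_eq_right hAr, haw, show A + 1 - A = 0 + 1 by omega]
        exact w3 0 (by omega)
      · rw [if_neg h2, show i + 1 - A = i - A + 1 by omega]
        exact w3 _ (by omega)
  · beta_reduce at hv
    by_cases h : i ≤ A
    · rw [if_pos h] at hv
      set s : ℤ := min ((i : ℤ) * r) t with hs
      have hs0 : 0 ≤ s := le_min (by positivity) (by omega)
      have hs1 : s ≤ t := min_le_right _ _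
      have e : a + s • dir (pdir p 0 - 1) = (n : ℤ) • p 0 + (T : ℤ) • dir (pdir p 0) +
          (((K + 2 : ℕ) : ℤ) * r + s) • dir (pdir p 0 - 1) := by
        rw [ha]; module
      rw [e] at hv
      refine hgood _ _ (by omega) (by omega) (by rw [e3]; omega) ?_ v hv
      have : ((K + 2 : ℕ) : ℤ) * r + s ≤ H := by rw [ht] at hs1; omega
      omega
    · rw [if_neg h] at hv
      exact w2 _ (by omega) v hv
  · have hlast : ¬ (J + i₀ + (J + m') ≤ A) ∨ J + m' = 0 := by omega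
    have hJ0 : 0 < J := by
      rcases Nat.eq_zero_or_pos J with h | h
      · subst h
        norm_num at hJε
      · exact h
    beta_reduce
    rw [if_neg (by omega), show J + i₀ + (J + m') - A = J + m' by omega, w1]
    have h5 : (n : ℤ) * (⌈|R2|⌉ + 1) ≤ (cen n f).1 := by
      unfold cen
      have := mul_le_mul_of_nonneg_left hfN (show (0 : ℤ) ≤ n by omega)
      simp only
      omega
    have h6 : (cen n f).1 ≤ nm (cen n f) := (le_abs_self _).trans (nm_fst _)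
    have h7 : ((n * (⌈|R2|⌉ + 1) : ℤ) : ℝ) ≤ nm (cen n f) := by exact_mod_cast h5.trans h6
    push_cast at h7
    have h8 := Int.le_ceil |R2|
    have h9 := le_abs_self R2
    nlinarith

end Vale.Agent.P167.H199
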