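import Vale.Agent.P167.H199.CutLim

/-!
P167, block PLID, part 6: finite quotients of the plane (general form of `H685/TLoop`, `Weight`),
the skew tori.
-/

set_option linter.unusedSimpArgs false

namespace Vale.Agent.P167.H199

open Finset Filter Topology MeasureTheory
open Vale.Agent.P167.A (Grid plane torus red redE plane_nx plane_hd plane_sg even_val_add_one
  even_val_intCast)
open Vale.Agent.P167.H685
open Vale.Agent.P152 (Edge Ori vw wt)

/-- The edges of the plane are mapped to the edges of the quotient. -/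
def rE {V : Type} (r : ℤ × ℤ → V) : Ed → Edge V := Sum.map r r

/-- A finite quotient of the plane; the nonzero periods have size at least `m`. -/
structure Cov {V : Type} (g : Grid V) (r : ℤ × ℤ → V) (m : ℕ) : Prop where
  par : ∀ v, g.par (r v) = plane.par v
  e1 : ∀ v, g.e1 (r v) = r (plane.e1 v)
  e2 : ∀ v, g.e2 (r v) = r (plane.e2 v)
  surj : Function.Surjective r
  per : ∀ v w, r v = r w → ∀ u, r (u + (w - v)) = r u
  sep : ∀ v w, r v = r w → v = w ∨ (m : ℤ) ≤ |w.1 - v.1| ∨ (m : ℤ) ≤ |w.2 - v.2|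

namespace Cov

variable {V : Type} {g : Grid V} {r : ℤ × ℤ → V} {m : ℕ} (h : Cov g r m)

include h

theorem e1s (v : ℤ × ℤ) : g.e1.symm (r v) = r (plane.e1.symm v) := by
  rw [Equiv.symm_apply_eq, h.e1, Equiv.apply_symm_apply]

theorem e2s (v : ℤ × ℤ) : g.e2.symm (r v) = r (plane.e2.symm v) := by
  rw [Equiv.symm_apply_eq, h.e2, Equiv.apply_symm_apply]

theorem nx (ρ : V → Bool) (e : Ed) : g.nx ρ (rE r e) = rE r (P167.nx (ρ ∘ r) e) := by
  rw [← plane_nx]
  rcases e with v | v <;> simp only [rE, Sum.map_inl, Sum.map_inr, Grid.nx, h.par, h.e1,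
    h.e2, h.e1s, h.e2s, Function.comp_apply] <;> split_ifs <;> simp

theorem hd (e : Ed) : g.hd (rE r e) = r (plane.hd e) := by
  rcases e with v | v <;> simp only [rE, Sum.map_inl, Sum.map_inr, Grid.hd, h.par, h.e1,
    h.e2] <;> split_ifs <;> rfl

theorem turn (ρ : V → Bool) (e : Ed) : g.turn ρ (rE r e) = plane.turn (ρ ∘ r) e := by
  unfold Grid.turn
  rw [h.hd]
  rfl

theorem sg (e : Ed) : g.sg (rE r e) = P167.sg e := by
  rw [← plane_sg]
  rcases e with v | v <;> simp only [rE, Sum.map_inl, Sum.map_inr, Grid.sg, h.par]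

theorem iter (ρ : V → Bool) (e : Ed) (n : ℕ) :
    (g.nx ρ)^[n] (rE r e) = rE r ((P167.nx (ρ ∘ r))^[n] e) := by
  induction n with
  | zero => rfl
  | succ n ih =>
    rw [Function.iterate_succ_apply', Function.iterate_succ_apply', ih, h.nx]

theorem surjE (x : Edge V) : ∃ e : Ed, rE r e = x := by
  rcases x with v | v
  · obtain ⟨w, hw⟩ := h.surj v
    exact ⟨Sum.inl w, by simp [rE, hw]⟩
  · obtain ⟨w, hw⟩ := h.surj v
    exact ⟨Sum.inr w, by simp [rE, hw]⟩

theorem even_diff {v w : ℤ × ℤ} (hvw : r v = r w) : Even ((w.1 - v.1) + (w.2 - v.2)) := by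
  have h1 := h.par v
  rw [hvw, h.par w] at h1
  simp only [plane, decide_eq_decide] at h1
  have h2 : (w.1 - v.1) + (w.2 - v.2) = (w.1 + w.2) - (v.1 + v.2) := by ring
  rw [h2, Int.even_sub]
  exact h1

theorem eqE {e e' : Ed} (he : rE r e = rE r e') :
    ∃ a b : ℤ, e' = trE a b e ∧ (∀ u, r (u + (a, b)) = r u) ∧ Even (a + b) ∧
      ((a, b) = ((0, 0) : ℤ × ℤ) ∨ (m : ℤ) ≤ |a| ∨ (m : ℤ) ≤ |b|) := by
  have key : ∀ v w : ℤ × ℤ, r v = r w → w = (v.1 + (w.1 - v.1), v.2 + (w.2 - v.2)) ∧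
      (∀ u, r (u + (w.1 - v.1, w.2 - v.2)) = r u) ∧ Even ((w.1 - v.1) + (w.2 - v.2)) ∧
      ((w.1 - v.1, w.2 - v.2) = ((0, 0) : ℤ × ℤ) ∨ (m : ℤ) ≤ |w.1 - v.1| ∨
        (m : ℤ) ≤ |w.2 - v.2|) := by
    intro v w hvw
    refine ⟨by ext <;> simp, h.per v w hvw, h.even_diff hvw, ?_⟩
    rcases h.sep v w hvw with h1 | h1
    · left
      rw [h1]
      simp
    · exact Or.inr h1
  rcases e with v | v <;> rcases e' with w | w
  · simp only [rE, Sum.map_inl, Sum.inl.injEq] at he
    obtain ⟨h1, h2⟩ := key v w he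
    refine ⟨_, _, ?_, h2⟩
    simp only [trE, Sum.map_inl]
    rw [← h1]
  · simp [rE] at he
  · simp [rE] at he
  · simp only [rE, Sum.map_inr, Sum.inr.injEq] at he
    obtain ⟨h1, h2⟩ := key v w he
    refine ⟨_, _, ?_, h2⟩
    simp only [trE, Sum.map_inr]
    rw [← h1]

theorem inj {K : ℕ} (hm : 2 * K + 1 ≤ m) {e e' : Ed} (he : bs e ∈ bx K) (he' : bs e' ∈ bx K)
    (hee : rE r e = rE r e') : e = e' := by
  obtain ⟨a, b, h1, _, _, h4⟩ := h.eqE hee
  have hbs : bs e' = ((bs e).1 + a, (bs e).2 + b) := by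
    rw [h1]
    rcases e with v | v <;> rfl
  rw [mem_bx] at he he'
  rw [hbs] at he'
  simp only at he'
  have hmz : (2 * K + 1 : ℤ) ≤ m := by exact_mod_cast hm
  rcases h4 with h4 | h4 | h4
  · rw [Prod.mk.injEq] at h4
    rw [h1, h4.1, h4.2]
    rcases e with v | v <;> simp [trE]
  · exfalso
    rcases abs_cases a with h5 | h5 <;> omega
  · exfalso
    rcases abs_cases b with h5 | h5 <;> omega

variable [Fintype V] [DecidableEq V]

omit h in
theorem mem_orb_g {ρ : V → Bool} {x y : Edge V} :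
    y ∈ orb (g.nxP ρ) x ↔ ∃ n : ℕ, (g.nx ρ)^[n] x = y := mem_orb_iter _

theorem orb_image {ρ : V → Bool} {ℓ : Finset Ed} (hℓ : IsLoop (ρ ∘ r) ℓ) {e : Ed}
    (he : e ∈ ℓ) : orb (g.nxP ρ) (rE r e) = ℓ.image (rE r) := by
  ext y
  rw [mem_orb_g, mem_image]
  constructor
  · rintro ⟨n, rfl⟩
    exact ⟨(P167.nx (ρ ∘ r))^[n] e, (loop_gen hℓ he _).2 ⟨n, rfl⟩, (h.iter ρ e n).symm⟩
  · rintro ⟨e', he', rfl⟩
    obtain ⟨n, rfl⟩ := (loop_gen hℓ he e').1 he'
    exact ⟨n, h.iter ρ e n⟩

/-- The turning number of an orbit is `±4`, or it is `0` and the orbit is long. -/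
theorem turn_cases (ρ : V → Bool) {ℓ : Finset (Edge V)} (hℓ : ℓ ∈ orbs (g.nxP ρ)) :
    (∑ e ∈ ℓ, g.turn ρ e = 4 ∨ ∑ e ∈ ℓ, g.turn ρ e = -4) ∨
    (∑ e ∈ ℓ, g.turn ρ e = 0 ∧ m ≤ ℓ.card) := by
  classical
  obtain ⟨x, rfl⟩ := mem_orbs.1 hℓ
  obtain ⟨e, rfl⟩ := h.surjE x
  set ω : Cfg := ρ ∘ r with hω
  set n := Function.minimalPeriod (g.nx ρ) (rE r e) with hn
  have hnpos : 0 < n := by
    rw [hn]
    apply Function.minimalPeriod_pos_of_mem_periodicPts
    have : Function.Injective (g.nx ρ) := by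
      intro a b hab
      have := congrArg (g.pv ρ) hab
      rwa [g.pv_nx, g.pv_nx] at this
    exact this.mem_periodicPts _
  -- the orbit as an image
  have himg : orb (g.nxP ρ) (rE r e) = (range n).image (fun i => (g.nx ρ)^[i] (rE r e)) := by
    ext y
    rw [mem_orb_g, mem_image]
    constructor
    · rintro ⟨i, rfl⟩
      exact ⟨i % n, mem_range.2 (Nat.mod_lt _ hnpos), Function.iterate_mod_minimalPeriod_eq⟩
    · rintro ⟨i, _, rfl⟩
      exact ⟨i, rfl⟩
  have hinj : Set.InjOn (fun i => (g.nx ρ)^[i] (rE r e)) (range n : Set ℕ) := by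
    intro i hi j hj hij
    rw [coe_range, Set.mem_Iio] at hi hj
    exact Function.iterate_injOn_Iio_minimalPeriod (f := g.nx ρ) (x := rE r e) hi hj hij
  have hcard : (orb (g.nxP ρ) (rE r e)).card = n := by
    rw [himg, card_image_of_injOn hinj, card_range]
  have hsum : ∑ y ∈ orb (g.nxP ρ) (rE r e), g.turn ρ y
      = ∑ i ∈ range n, plane.turn ω ((P167.nx ω)^[i] e) := by
    rw [himg, sum_image hinj]
    refine sum_congr rfl fun i _ => ?_
    rw [h.iter, h.turn]
  -- displacement of the lift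
  have hper : rE r e = rE r ((P167.nx ω)^[n] e) := by
    rw [← h.iter ρ e n]
    exact (Function.iterate_minimalPeriod (f := g.nx ρ) (x := rE r e)).symm
  obtain ⟨a, b, hab, hp, hev, hsep⟩ := h.eqE hper
  by_cases h0 : (a, b) = ((0, 0) : ℤ × ℤ)
  · left
    have hback : (P167.nx ω)^[n] e = e := by
      rw [hab]
      simp only [Prod.mk.injEq] at h0
      rw [h0.1, h0.2]
      rcases e with v | v <;> simp [trE]
    have hinj2 : Set.InjOn (fun i => (P167.nx ω)^[i] e) (range n : Set ℕ) := by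
      intro i hi j hj hij
      apply hinj hi hj
      simp only
      rw [h.iter, h.iter]
      simp only at hij
      rw [← hω, hij]
    have hloop : IsLoop ω ((range n).image fun i => (P167.nx ω)^[i] e) := by
      refine ⟨e, fun e' => ?_⟩
      rw [mem_image]
      constructor
      · rintro ⟨i, _, rfl⟩
        exact ⟨i, rfl⟩
      · rintro ⟨i, rfl⟩
        refine ⟨i % n, mem_range.2 (Nat.mod_lt _ hnpos), ?_⟩
        have hp : Function.IsPeriodicPt (P167.nx ω) n e := hback
        exact hp.iterate_mod_apply i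
    have hT := s_turn ω _ hloop
    rw [sum_image hinj2] at hT
    rw [hsum]
    rcases hT with h | h
    · exact Or.inl h.1
    · exact Or.inr h.1
  · right
    constructor
    · rw [hsum]
      refine s_turn0 ω a b e n hnpos hev ?_ hab h0
      intro x y
      simp only [hω, Function.comp_apply]
      rw [← hp (x, y)]
      rfl
    · rw [hcard]
      have hb := bs_iter ω e n
      rw [hab] at hb
      have hbs : bs (trE a b e) = ((bs e).1 + a, (bs e).2 + b) := by
        rcases e with v | v <;> rfl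
      rw [hbs] at hb
      simp only [add_sub_cancel_left] at hb
      rcases hsep with h5 | h5 | h5
      · exact absurd h5 h0
      · exact_mod_cast h5.trans hb.1
      · exact_mod_cast h5.trans hb.2

theorem fac_cases (ρ : V → Bool) {ℓ : Finset (Edge V)} (hℓ : ℓ ∈ orbs (g.nxP ρ)) :
    fac g 0 ρ ℓ = 1 ∨ (fac g 0 ρ ℓ = 2 ∧ m ≤ ℓ.card) := by
  rw [fac_zero]
  rcases h.turn_cases ρ hℓ with (h | h) | h
  · left
    rw [h]
    have : Real.pi / 3 / 4 * ((4 : ℤ) : ℝ) = Real.pi / 3 := by push_cast; ring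
    rw [this, Real.cos_pi_div_three]; norm_num
  · left
    rw [h]
    have : Real.pi / 3 / 4 * ((-4 : ℤ) : ℝ) = -(Real.pi / 3) := by push_cast; ring
    rw [this, Real.cos_neg, Real.cos_pi_div_three]; norm_num
  · right
    refine ⟨?_, h.2⟩
    rw [h.1]
    simp

theorem one_le_fac (ρ : V → Bool) {ℓ : Finset (Edge V)} (hℓ : ℓ ∈ orbs (g.nxP ρ)) :
    1 ≤ fac g 0 ρ ℓ := by
  rcases h.fac_cases ρ hℓ with h | h
  · rw [h]
  · rw [h.1]; norm_num

theorem one_le_Pr (ρ : V → Bool) : 1 ≤ Pr g 0 ρ := by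
  unfold Pr
  calc (1 : ℝ) = ∏ ℓ ∈ orbs (g.nxP ρ), (1 : ℝ) := by rw [prod_const_one]
    _ ≤ _ := prod_le_prod (fun _ _ => zero_le_one) fun ℓ hℓ => h.one_le_fac ρ hℓ

theorem Pr_le (ρ : V → Bool) : ∃ N : ℕ, N * m ≤ 2 * Fintype.card V ∧ Pr g 0 ρ ≤ 2 ^ N := by
  classical
  refine ⟨((orbs (g.nxP ρ)).filter fun ℓ => m ≤ ℓ.card).card, ?_, ?_⟩
  · have hcard := card_large_le (σ := g.nxP ρ) m
    rw [Fintype.card_sum] at hcard
    omega
  · have hle : Pr g 0 ρ ≤ ∏ ℓ ∈ orbs (g.nxP ρ), (if m ≤ ℓ.card then (2 : ℝ) else 1) := by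
      unfold Pr
      refine prod_le_prod (fun ℓ hℓ => ?_) (fun ℓ hℓ => ?_)
      · linarith [h.one_le_fac ρ hℓ]
      · rcases h.fac_cases ρ hℓ with h | h
        · rw [h]; split_ifs <;> norm_num
        · rw [h.1, if_pos h.2]
    refine hle.trans ?_
    rw [prod_ite, prod_const, prod_const_one, mul_one]

end Cov

/-- Invariance of the weight. -/
theorem Pr_comp {V : Type} [Fintype V] [DecidableEq V] (g : Grid V) (φ : Equiv.Perm V)
    (c1 : ∀ v, g.e1 (φ v) = φ (g.e1 v)) (c2 : ∀ v, g.e2 (φ v) = φ (g.e2 v))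
    (cp : ∀ v, g.par (φ v) = g.par v) (ρ : V → Bool) : Pr g 0 (ρ ∘ φ) = Pr g 0 ρ := by
  classical
  have c1s : ∀ v, g.e1.symm (φ v) = φ (g.e1.symm v) := by
    intro v
    rw [Equiv.symm_apply_eq, c1, Equiv.apply_symm_apply]
  have c2s : ∀ v, g.e2.symm (φ v) = φ (g.e2.symm v) := by
    intro v
    rw [Equiv.symm_apply_eq, c2, Equiv.apply_symm_apply]
  set φE : Equiv.Perm (Edge V) := Equiv.sumCongr φ φ with hφE
  have hnx : ∀ e, φE (g.nxP (ρ ∘ φ) e) = g.nxP ρ (φE e) := by
    intro e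
    rcases e with v | v
    · simp only [hφE, Grid.nxP_apply, Equiv.sumCongr_apply, Sum.map_inl, Grid.nx, cp, c1, c2, c1s,
        c2s, Function.comp_apply]
      split_ifs <;> rfl
    · simp only [hφE, Grid.nxP_apply, Equiv.sumCongr_apply, Sum.map_inr, Grid.nx, cp, c1, c2, c1s,
        c2s, Function.comp_apply]
      split_ifs <;> rfl
  have hhd : ∀ e, g.hd (φE e) = φ (g.hd e) := by
    intro e
    rcases e with v | v
    · simp only [hφE, Equiv.sumCongr_apply, Sum.map_inl, Grid.hd, cp, c1]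
      split_ifs <;> rfl
    · simp only [hφE, Equiv.sumCongr_apply, Sum.map_inr, Grid.hd, cp, c2]
      split_ifs <;> rfl
  have hturn : ∀ e, g.turn ρ (φE e) = g.turn (ρ ∘ φ) e := by
    intro e
    unfold Grid.turn
    rw [hhd]
    rfl
  unfold Pr
  rw [orbs_conj φE hnx, prod_image (fun _ _ _ _ h => Finset.map_injective _ h)]
  refine prod_congr rfl fun ℓ _ => ?_
  rw [fac_zero, fac_zero, sum_map]
  congr 4
  exact sum_congr rfl fun e _ => (hturn e).symm

/-! ### skew tori -/

section skew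

variable (M L : ℕ) [NeZero M] [NeZero L] (hM : Even M)

/-- The skew torus: coordinates `x - y`, `y`. -/
def skew : Grid (ZMod M × ZMod L) where
  e1 := Equiv.addRight ((1, 0) : ZMod M × ZMod L)
  e2 := Equiv.addRight ((-1, 1) : ZMod M × ZMod L)
  par v := decide (Even v.1.val)
  p1 v := by
    have := even_val_add_one hM v.1
    by_cases h : Even v.1.val <;> simp [this, h]
  p2 v := by
    have h1 := even_val_add_one hM (v.1 + (-1))
    rw [neg_add_cancel_right] at h1
    by_cases h : Even v.1.val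
    · have h2 := h1.1 h
      simp [h, h2]
    · have h2 : Even (v.1 + (-1)).val := by
        by_contra h3
        exact h (h1.2 h3)
      simp [h, h2]

/-- The plane is mapped to the skew torus. -/
def rsk (v : ℤ × ℤ) : ZMod M × ZMod L := (((v.1 - v.2 : ℤ) : ZMod M), (v.2 : ZMod L))

omit [NeZero M] [NeZero L] in
theorem rsk_iff (v w : ℤ × ℤ) : rsk M L v = rsk M L w ↔
    ((M : ℤ) ∣ (w.1 - w.2) - (v.1 - v.2)) ∧ ((L : ℤ) ∣ w.2 - v.2) := by
  simp only [rsk, Prod.mk.injEq]
  rw [ZMod.intCast_eq_intCast_iff_dvd_sub, ZMod.intCast_eq_intCast_iff_dvd_sub]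

omit [NeZero L] in
theorem cov_skew : Cov (skew M L hM) (rsk M L) (min M L) where
  par v := by
    have h1 := even_val_intCast hM (v.1 - v.2)
    simp only [skew, rsk, plane, h1, decide_eq_decide]
    rw [Int.even_sub, Int.even_add]
  e1 v := by
    ext <;> simp [skew, rsk, plane]; ring
  e2 v := by
    ext <;> simp [skew, rsk, plane]; ring
  surj v := by
    obtain ⟨a, ha⟩ := ZMod.intCast_surjective v.1
    obtain ⟨b, hb⟩ := ZMod.intCast_surjective v.2
    exact ⟨(a + b, b), by ext <;> simp [rsk, ha, hb]⟩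
  per v w hvw u := by
    rw [rsk_iff] at hvw ⊢
    obtain ⟨h1, h2⟩ := hvw
    constructor
    · have : (u.1 - u.2) - ((u + (w - v)).1 - (u + (w - v)).2) =
          -(((w.1 - w.2) - (v.1 - v.2))) := by simp; ring
      rw [this]
      exact (dvd_neg).2 h1
    · have : u.2 - (u + (w - v)).2 = -(w.2 - v.2) := by simp
      rw [this]
      exact (dvd_neg).2 h2
  sep v w hvw := by
    rw [rsk_iff] at hvw
    obtain ⟨h1, h2⟩ := hvw
    by_cases h3 : w.2 = v.2
    · by_cases h4 : w.1 = v.1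
      · left
        exact Prod.ext h4.symm h3.symm
      · right; left
        have h5 : (w.1 - w.2) - (v.1 - v.2) = w.1 - v.1 := by rw [h3]; ring
        rw [h5] at h1
        have h6 : (M : ℤ) ≤ |w.1 - v.1| :=
          Int.le_of_dvd (abs_pos.2 (by omega)) ((dvd_abs _ _).2 h1)
        have h7 : ((min M L : ℕ) : ℤ) ≤ M := by exact_mod_cast min_le_left M L
        exact h7.trans h6
    · right; right
      have h6 : (L : ℤ) ≤ |w.2 - v.2| :=
        Int.le_of_dvd (abs_pos.2 (by omega)) ((dvd_abs _ _).2 h2)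
      have h7 : ((min M L : ℕ) : ℤ) ≤ L := by exact_mod_cast min_le_right M L
      exact h7.trans h6

end skew

/-- The weight of the skew torus. -/
noncomputable def WtK (M L : ℕ) [NeZero M] [NeZero L] (ρ : ZMod M × ZMod L → Bool) : ℝ :=
  open Classical in
  if h : Even M then Pr (skew M L h) 0 ρ else 1

theorem goodWeightK : GoodWeight (fun M L _ _ => WtK M L) (2 * Real.log 2) where
  nonneg := by
    intro M L _ _ hM hL R
    simp only [WtK]
    rw [dif_pos hM]
    linarith [(cov_skew M L hM).one_le_Pr R]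
  le := by
    intro M L _ _ hM hL R
    simp only [WtK]
    rw [dif_pos hM]
    obtain ⟨N, hN, hle⟩ := (cov_skew M L hM).Pr_le R
    refine hle.trans ?_
    rw [Fintype.card_prod, ZMod.card, ZMod.card, ← min_mul_max M L] at hN
    have hMpos : 0 < M := Nat.pos_of_ne_zero (NeZero.ne M)
    have hLpos : 0 < L := Nat.pos_of_ne_zero (NeZero.ne L)
    have hmin : 0 < min M L := lt_min hMpos hLpos
    have hN2 : N ≤ 2 * (M + L) := by
      have h3 : N * min M L ≤ 2 * max M L * min M L := by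
        calc N * min M L ≤ 2 * (min M L * max M L) := hN
          _ = 2 * max M L * min M L := by ring
      have h4 : N ≤ 2 * max M L := Nat.le_of_mul_le_mul_right h3 hmin
      have h5 : max M L ≤ M + L := max_le (by omega) (by omega)
      omega
    calc (2 : ℝ) ^ N ≤ 2 ^ (2 * (M + L)) := pow_le_pow_right₀ (by norm_num) hN2
      _ = Real.exp (((2 * (M + L) : ℕ) : ℝ) * Real.log 2) := by
          rw [Real.exp_nat_mul, Real.exp_log (by norm_num)]
      _ = _ := by
          congr 1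
          push_cast
          ring
  inv := by
    intro M L _ _ hM hL x y R
    simp only [WtK]
    rw [dif_pos hM, dif_pos hM]
    set a : ZMod M × ZMod L := (((2 * x : ℤ) : ZMod M), ((2 * y : ℤ) : ZMod L)) with ha
    have hsh : shift a R = R ∘ (Equiv.addRight a) := rfl
    rw [hsh]
    apply Pr_comp
    · intro v
      ext <;> simp [skew] <;> ring
    · intro v
      ext <;> simp [skew] <;> ring
    · intro v
      simp only [skew, decide_eq_decide]
      obtain ⟨p, hp⟩ := ZMod.intCast_surjective v.1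
      have h1 : ((Equiv.addRight a) v).1 = ((p + 2 * x : ℤ) : ZMod M) := by
        simp [ha, ← hp]
      rw [h1, even_val_intCast hM, ← hp, even_val_intCast hM, Int.even_add]
      simp
  mass := by
    intro M L _ _ hM hL
    have hpos : (0 : ℝ) < (Fintype.card (ZMod M × ZMod L → Bool) : ℝ) := card_pos'
    have h3 : Real.exp (-(2 * Real.log 2 * (M + L))) ≤ 1 := by
      rw [Real.exp_le_one_iff]
      have : 0 ≤ Real.log 2 := Real.log_nonneg (by norm_num)
      have : 0 ≤ 2 * Real.log 2 * ((M : ℝ) + L) := by positivity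
      linarith
    calc Real.exp (-(2 * Real.log 2 * (M + L))) * (Fintype.card (ZMod M × ZMod L → Bool) : ℝ)
        ≤ 1 * (Fintype.card (ZMod M × ZMod L → Bool) : ℝ) := by gcongr
      _ = ∑ _R : ZMod M × ZMod L → Bool, (1 : ℝ) := by simp
      _ ≤ ∑ R, WtK M L R := by
          refine sum_le_sum fun R _ => ?_
          simp only [WtK]
          rw [dif_pos hM]
          exact (cov_skew M L hM).one_le_Pr R

end Vale.Agent.P167.H199
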