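import Vale.Agent.P167.H199.CutLim
import Vale.Agent.P167.H592.HDefs

/-!
P167, block PLID, part 5: the limit functional of the insertions.
-/

namespace Vale.Agent.P167.H199

open Finset Filter Topology MeasureTheory
open Vale.Agent.P167.A (Grid plane torus red redE wt_eq)
open Vale.Agent.P167.H685
open Vale.Agent.P167.H592
open Vale.Agent.P152 (Edge Ori vw wt)

/-- The phase functional. -/
noncomputable def phF (E : Finset Ed) (a : Ed → Bool → ℝ) (ω : HO (ℤ × ℤ)) : ℂ :=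
  Complex.exp (Complex.I * ((∑ e ∈ E, ∑ b : Bool, a e b * (if ω e b then 1 else -1) : ℝ) : ℂ))

section std

variable {M L : ℕ} [NeZero M] [NeZero L] (hM : Even M) (hL : Even L)

omit [NeZero M] [NeZero L] in
theorem emE_std : emE ((1, 0) : ZMod M × ZMod L) (0, 1) = redE M L := by
  have h : H592.em ((1, 0) : ZMod M × ZMod L) (0, 1) = red M L := by
    funext v
    simp [H592.em, red]
  unfold emE redE
  rw [h]

theorem e1_symm (v : ZMod M × ZMod L) : (torus M L hM hL).e1.symm v = v - (1, 0) := by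
  rw [Equiv.symm_apply_eq]
  ext <;> simp [torus]

theorem e2_symm (v : ZMod M × ZMod L) : (torus M L hM hL).e2.symm v = v - (0, 1) := by
  rw [Equiv.symm_apply_eq]
  ext <;> simp [torus]

theorem hw_std (c : ℝ) (ω : HO (ZMod M × ZMod L)) :
    hw c (1, 0) (0, 1) ω = hwt (torus M L hM hL) c ω := by
  unfold hw hwt hvw
  refine prod_congr rfl fun v _ => ?_
  rw [e1_symm, e2_symm]

theorem sum_pb' (E : Finset Ed) (a : Ed → Bool → ℝ) (ω : HO (ZMod M × ZMod L)) :
    ∑ x, ∑ b : Bool, pb' M L E a x b * (if ω x b then 1 else -1) =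
      ∑ e ∈ E, ∑ b : Bool, a e b * (if ω (redE M L e) b then 1 else -1) := by
  classical
  have h1 : ∀ x : Edge (ZMod M × ZMod L), ∑ b : Bool, pb' M L E a x b * (if ω x b then 1 else -1)
      = ∑ e ∈ E with redE M L e = x, ∑ b : Bool, a e b *
        (if ω (redE M L e) b then 1 else -1) := by
    intro x
    rw [sum_comm]
    refine sum_congr rfl fun b _ => ?_
    unfold pb'
    rw [sum_mul]
    refine sum_congr rfl fun e he => ?_
    rw [mem_filter] at he
    rw [he.2]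
  rw [sum_congr rfl fun x _ => h1 x]
  exact sum_fiberwise_of_maps_to (fun _ _ => mem_univ _) _

theorem sqrt3 : 2 * Real.cos (Real.pi / 3 / 2) = √3 := by
  rw [show Real.pi / 3 / 2 = Real.pi / 6 by ring, Real.cos_pi_div_six]; ring

include hM hL in
theorem zv_phF (S E : Finset Ed) (a : Ed → Bool → ℝ) :
    zv (√3) ((1, 0) : ZMod M × ZMod L) (0, 1) S (phF E a) =
      ((∑ ρ, cutPh S E a M L ρ : ℝ) : ℂ) := by
  classical
  have h := cut_bkwC (torus M L hM hL) (Real.pi / 3) (S.image (redE M L)) (pb' M L E a)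
  rw [sqrt3] at h
  have e1 : ∑ ρ, cutPh S E a M L ρ =
      ∑ ρ, cutPr (torus M L hM hL) (Real.pi / 3) (S.image (redE M L)) (pb' M L E a) ρ := by
    refine sum_congr rfl fun ρ _ => ?_
    simp only [cutPh]
    rw [dif_pos ⟨hM, hL⟩]
  rw [e1, ← h]
  unfold zv
  refine sum_congr rfl fun ω _ => ?_
  rw [emE_std, sum_pb', hw_std hM hL]
  unfold phF unH
  rw [emE_std]
  by_cases hS : NoDef (S.image (redE M L)) ω
  · rw [if_pos hS, if_pos (show ∀ e ∉ S.image (redE M L), ω e false = ω e true from hS)]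
  · rw [if_neg hS, if_neg (show ¬ ∀ e ∉ S.image (redE M L), ω e false = ω e true from hS)]

include hM hL in
theorem zv_one : zv (√3) ((1, 0) : ZMod M × ZMod L) (0, 1) ∅ (fun _ => 1) =
      ((∑ ρ, Wt M L ρ : ℝ) : ℂ) := by
  classical
  have h := zv_phF hM hL ∅ ∅ (fun _ _ => 0)
  have e0 : phF ∅ (fun _ _ => 0) = fun _ => 1 := by
    funext ω
    simp [phF]
  rw [e0] at h
  rw [h]
  congr 1
  refine sum_congr rfl fun ρ _ => ?_
  simp only [cutPh, Wt]
  rw [dif_pos ⟨hM, hL⟩, dif_pos ⟨hM, hL⟩]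
  unfold cutPr Pr
  rw [image_empty, prod_empty, mul_one]
  have e1 : (orbs ((torus M L hM hL).nxP ρ)).filter (fun ℓ => Disjoint ℓ ∅) =
      orbs ((torus M L hM hL).nxP ρ) := by
    apply filter_true_of_mem
    intro ℓ _
    exact disjoint_empty_right ℓ
  rw [e1]
  refine prod_congr rfl fun ℓ hℓ => ?_
  rw [fac_zero, cang_off]
  · intro x hx
    rw [eq_orb_of_mem hℓ hx, mem_orb]
    exact ⟨1, rfl⟩
  · intro x _ b
    exact pb'_off (by simp) b

include hM hL in
/-- The value of a phase insertion on a torus. -/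
theorem tv_phF (S E : Finset Ed) (a : Ed → Bool → ℝ) :
    tv (√3) ((1, 0) : ZMod M × ZMod L) (0, 1) S (phF E a) =
      (((∑ ρ, cutPh S E a M L ρ) / ∑ ρ, Wt M L ρ : ℝ) : ℂ) := by
  unfold tv
  rw [zv_phF hM hL, zv_one hM hL]
  push_cast
  rfl

end std

/-! ### isomorphic tori -/

section iso

variable {V V' : Type} [AddCommGroup V] [AddCommGroup V'] [Fintype V] [Fintype V']
  [DecidableEq V] [DecidableEq V']

omit [Fintype V] [Fintype V'] [DecidableEq V] [DecidableEq V'] in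
theorem em_iso (φ : V ≃+ V') (g1 g2 : V) (v : ℤ × ℤ) :
    H592.em (φ g1) (φ g2) v = φ (H592.em g1 g2 v) := by
  simp [H592.em, map_add, map_zsmul]

theorem zv_iso (φ : V ≃+ V') (c : ℝ) (g1 g2 : V) (S : Finset Ed) (F : HO (ℤ × ℤ) → ℂ) :
    zv c (φ g1) (φ g2) S F = zv c g1 g2 S F := by
  classical
  let e : Edge V ≃ Edge V' := Equiv.sumCongr φ.toEquiv φ.toEquiv
  let T : HO V ≃ HO V' := e.arrowCongr (Equiv.refl _)
  have hT : ∀ (ω : HO V) (x : Edge V), T ω (e x) = ω x := by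
    intro ω x
    simp [T]
  have hem : ∀ x, emE (φ g1) (φ g2) x = e (emE g1 g2 x) := by
    intro x
    rcases x with v | v
    · simp [emE, e, em_iso]
    · simp [emE, e, em_iso]
  unfold zv
  rw [← Equiv.sum_comp T]
  refine sum_congr rfl fun ω _ => ?_
  have h1 : NoDef (S.image (emE (φ g1) (φ g2))) (T ω) ↔ NoDef (S.image (emE g1 g2)) ω := by
    unfold NoDef
    constructor
    · intro h x hx
      have := h (e x) (fun hm => hx (by
        obtain ⟨y, hy, hy2⟩ := mem_image.1 hm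
        rw [hem] at hy2
        rw [← e.injective hy2]
        exact mem_image_of_mem _ hy))
      rwa [hT] at this
    · intro h x' hx'
      obtain ⟨x, rfl⟩ := e.surjective x'
      rw [hT]
      apply h
      intro hm
      apply hx'
      obtain ⟨y, hy, rfl⟩ := mem_image.1 hm
      exact mem_image.2 ⟨y, hy, hem y⟩
  have h2 : hw c (φ g1) (φ g2) (T ω) = hw c g1 g2 ω := by
    unfold hw
    rw [← Equiv.prod_comp φ.toEquiv]
    refine prod_congr rfl fun v _ => ?_
    have a1 : (Sum.inl (φ v - φ g1) : Edge V') = e (Sum.inl (v - g1)) := by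
      simp [e, map_sub]
    have a2 : (Sum.inl (φ v) : Edge V') = e (Sum.inl v) := by simp [e]
    have a3 : (Sum.inr (φ v - φ g2) : Edge V') = e (Sum.inr (v - g2)) := by
      simp [e, map_sub]
    have a4 : (Sum.inr (φ v) : Edge V') = e (Sum.inr v) := by simp [e]
    show vw c (T ω (Sum.inl (φ v - φ g1)) true) (T ω (Sum.inl (φ v)) false)
      (T ω (Sum.inr (φ v - φ g2)) true) (T ω (Sum.inr (φ v)) false) = _
    rw [a1, a2, a3, a4, hT, hT, hT, hT]
    rfl
  have h3 : unH (φ g1) (φ g2) (T ω) = unH g1 g2 ω := by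
    funext x b
    show T ω (emE (φ g1) (φ g2) x) b = ω (emE g1 g2 x) b
    rw [hem, hT]
  rw [h2, h3]
  by_cases h : NoDef (S.image (emE g1 g2)) ω
  · rw [if_pos h, if_pos (h1.2 h)]
  · rw [if_neg h, if_neg (fun h' => h (h1.1 h'))]

theorem tv_iso (φ : V ≃+ V') (c : ℝ) (g1 g2 : V) (S : Finset Ed) (F : HO (ℤ × ℤ) → ℂ) :
    tv c (φ g1) (φ g2) S F = tv c g1 g2 S F := by
  unfold tv
  rw [zv_iso, zv_iso]

end iso

/-- The skew square torus is the standard one. -/
def skE (M : ℕ) : ZMod M × ZMod M ≃+ ZMod M × ZMod M where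
  toFun v := (v.1 + v.2, v.2)
  invFun v := (v.1 - v.2, v.2)
  left_inv v := by simp
  right_inv v := by simp
  map_add' v w := by
    ext <;> simp; ring

theorem tv_skew (M : ℕ) [NeZero M] (c : ℝ) (S : Finset Ed) (F : HO (ℤ × ℤ) → ℂ) :
    tv c ((1, 0) : ZMod M × ZMod M) (-1, 1) S F = tv c ((1, 0) : ZMod M × ZMod M) (0, 1) S F := by
  have h := tv_iso (skE M) c ((1, 0) : ZMod M × ZMod M) (-1, 1) S F
  have e1 : skE M (1, 0) = (1, 0) := by simp [skE]
  have e2 : skE M (-1, 1) = (0, 1) := by simp [skE]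
  rw [e1, e2] at h
  exact h.symm

/-! ### limits -/

/-- `z` is the limit of the insertion on the standard tori. -/
def LimS (c : ℝ) (S : Finset Ed) (F : HO (ℤ × ℤ) → ℂ) (z : ℂ) : Prop :=
  ∀ ε > 0, ∃ N : ℕ, ∀ (M L : ℕ) [NeZero M] [NeZero L], Even M → Even L → N ≤ M → N ≤ L →
    ‖tv (V := ZMod M × ZMod L) c (1, 0) (0, 1) S F - z‖ ≤ ε

theorem limS_phF {S E : Finset Ed} (hSE : S ⊆ E) {a : Ed → Bool → ℝ}
    (ha : ∀ e ∉ E, ∀ b, a e b = 0) :
    LimS (√3) S (phF E a) ((∫ ω, Xc S a ω ∂μ : ℝ) : ℂ) := by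
  intro ε hε
  obtain ⟨N, hN⟩ := cut_lim hSE ha ε hε
  refine ⟨N, fun M L _ _ hM hL h1 h2 => ?_⟩
  rw [tv_phF hM hL, ← Complex.ofReal_sub, Complex.norm_real, Real.norm_eq_abs]
  exact hN M L hM hL h1 h2

theorem zv_add {V : Type} [AddCommGroup V] [Fintype V] [DecidableEq V] (c : ℝ) (g1 g2 : V)
    (S : Finset Ed) (F F' : HO (ℤ × ℤ) → ℂ) :
    zv c g1 g2 S (fun ω => F ω + F' ω) = zv c g1 g2 S F + zv c g1 g2 S F' := by
  unfold zv
  rw [← sum_add_distrib]
  refine sum_congr rfl fun ω _ => ?_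
  split_ifs
  · ring
  · ring

theorem zv_mul {V : Type} [AddCommGroup V] [Fintype V] [DecidableEq V] (c : ℝ) (g1 g2 : V)
    (S : Finset Ed) (k : ℂ) (F : HO (ℤ × ℤ) → ℂ) :
    zv c g1 g2 S (fun ω => k * F ω) = k * zv c g1 g2 S F := by
  unfold zv
  rw [mul_sum]
  refine sum_congr rfl fun ω _ => ?_
  split_ifs
  · ring
  · ring

theorem LimS.add {c : ℝ} {S : Finset Ed} {F F' : HO (ℤ × ℤ) → ℂ} {z z' : ℂ}
    (h : LimS c S F z) (h' : LimS c S F' z') : LimS c S (fun ω => F ω + F' ω) (z + z') := by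
  intro ε hε
  obtain ⟨N, hN⟩ := h (ε / 2) (by positivity)
  obtain ⟨N', hN'⟩ := h' (ε / 2) (by positivity)
  refine ⟨max N N', fun M L _ _ hM hL h1 h2 => ?_⟩
  have a1 := hN M L hM hL ((le_max_left _ _).trans h1) ((le_max_left _ _).trans h2)
  have a2 := hN' M L hM hL ((le_max_right _ _).trans h1) ((le_max_right _ _).trans h2)
  have e : tv (V := ZMod M × ZMod L) c (1, 0) (0, 1) S (fun ω => F ω + F' ω) - (z + z') =
      (tv (V := ZMod M × ZMod L) c (1, 0) (0, 1) S F - z) +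
      (tv (V := ZMod M × ZMod L) c (1, 0) (0, 1) S F' - z') := by
    unfold tv
    rw [zv_add]
    ring
  rw [e]
  calc _ ≤ _ := norm_add_le _ _
    _ ≤ ε / 2 + ε / 2 := add_le_add a1 a2
    _ = ε := by ring

theorem LimS.mul {c : ℝ} {S : Finset Ed} {F : HO (ℤ × ℤ) → ℂ} {z : ℂ}
    (h : LimS c S F z) (k : ℂ) : LimS c S (fun ω => k * F ω) (k * z) := by
  intro ε hε
  have hk : 0 < ‖k‖ + 1 := by positivity
  obtain ⟨N, hN⟩ := h (ε / (‖k‖ + 1)) (by positivity)
  refine ⟨N, fun M L _ _ hM hL h1 h2 => ?_⟩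
  have a1 := hN M L hM hL h1 h2
  have e : tv (V := ZMod M × ZMod L) c (1, 0) (0, 1) S (fun ω => k * F ω) - k * z =
      k * (tv (V := ZMod M × ZMod L) c (1, 0) (0, 1) S F - z) := by
    unfold tv
    rw [zv_mul]
    ring
  rw [e, norm_mul]
  calc ‖k‖ * _ ≤ (‖k‖ + 1) * (ε / (‖k‖ + 1)) :=
        mul_le_mul (by linarith) a1 (norm_nonneg _) hk.le
    _ = ε := by field_simp

theorem LimS.zero (c : ℝ) (S : Finset Ed) : LimS c S (fun _ => 0) 0 := by
  intro ε hε
  refine ⟨0, fun M L _ _ _ _ _ _ => ?_⟩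
  have : tv (V := ZMod M × ZMod L) c (1, 0) (0, 1) S (fun _ => 0) = 0 := by
    unfold tv zv
    simp
  rw [this, sub_zero, norm_zero]
  exact hε.le

theorem LimS.sum {c : ℝ} {S : Finset Ed} {ι : Type*} (s : Finset ι)
    {F : ι → HO (ℤ × ℤ) → ℂ} (h : ∀ i ∈ s, ∃ z, LimS c S (F i) z) :
    ∃ z, LimS c S (fun ω => ∑ i ∈ s, F i ω) z := by
  classical
  induction s using Finset.induction_on with
  | empty =>
    refine ⟨0, ?_⟩
    simpa using LimS.zero c S
  | insert i s hi ih =>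
    obtain ⟨z, hz⟩ := h i (mem_insert_self _ _)
    obtain ⟨z', hz'⟩ := ih fun j hj => h j (mem_insert_of_mem hj)
    refine ⟨z + z', ?_⟩
    have e : (fun ω => ∑ j ∈ insert i s, F j ω) = fun ω => F i ω + ∑ j ∈ s, F j ω := by
      funext ω
      rw [sum_insert hi]
    rw [e]
    exact hz.add hz'

theorem LimS.unique {c : ℝ} {S : Finset Ed} {F : HO (ℤ × ℤ) → ℂ} {z z' : ℂ}
    (h : LimS c S F z) (h' : LimS c S F z') : z = z' := by
  have key : ∀ ε > 0, ‖z - z'‖ ≤ ε := by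
    intro ε hε
    obtain ⟨N, hN⟩ := h (ε / 2) (by positivity)
    obtain ⟨N', hN'⟩ := h' (ε / 2) (by positivity)
    set M := 2 * (max N N' + 1) with hM
    have hM0 : NeZero M := ⟨by omega⟩
    have he : Even M := ⟨max N N' + 1, by omega⟩
    have h1 : N ≤ M := by
      have := le_max_left N N'
      omega
    have h2 : N' ≤ M := by
      have := le_max_right N N'
      omega
    have a1 := hN M M he he h1 h1
    have a2 := hN' M M he he h2 h2
    have e : z - z' = (tv (V := ZMod M × ZMod M) c (1, 0) (0, 1) S F - z') -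
      (tv (V := ZMod M × ZMod M) c (1, 0) (0, 1) S F - z) := by ring
    rw [e]
    calc _ ≤ _ := norm_sub_le _ _
      _ ≤ ε / 2 + ε / 2 := add_le_add a2 a1
      _ = ε := by ring
  have h0 : ‖z - z'‖ ≤ 0 := le_of_forall_pos_le_add fun ε hε => by
    rw [zero_add]; exact key ε hε
  exact sub_eq_zero.1 (norm_le_zero_iff.1 h0)

/-! ### expansion of local functions in phases -/

/-- sign of a Boolean -/
def sn (b : Bool) : ℝ := if b then 1 else -1

theorem exp_sn (b : Bool) :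
    Complex.exp (Complex.I * ((Real.pi / 2 * sn b : ℝ) : ℂ)) = Complex.I * (sn b : ℂ) := by
  cases b
  · have h0 : sn false = -1 := by simp [sn]
    rw [h0]
    have : Complex.I * ((Real.pi / 2 * (-1) : ℝ) : ℂ) = -(Real.pi / 2 * Complex.I) := by
      push_cast; ring
    rw [this, Complex.exp_neg, Complex.exp_pi_div_two_mul_I, Complex.inv_I]
    push_cast; ring
  · have h0 : sn true = 1 := by simp [sn]
    rw [h0]
    have : Complex.I * ((Real.pi / 2 * 1 : ℝ) : ℂ) = Real.pi / 2 * Complex.I := by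
      push_cast; ring
    rw [this, Complex.exp_pi_div_two_mul_I]
    push_cast; ring

theorem ind_sn (b b' : Bool) : (1 / 2 : ℂ) + (sn b' / 2 : ℝ) * (-Complex.I) *
    Complex.exp (Complex.I * ((Real.pi / 2 * sn b : ℝ) : ℂ)) = if b = b' then 1 else 0 := by
  rw [exp_sn]
  have h : ∀ x y : ℂ, (1 / 2 : ℂ) + x * (-Complex.I) * (Complex.I * y) = 1 / 2 + x * y := by
    intro x y
    have := Complex.I_mul_I
    linear_combination (-(x * y)) * this
  rw [h]
  cases b <;> cases b' <;> simp [sn] <;> norm_num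

open Classical in
/-- Phases `π / 2` on a set of half arrows. -/
noncomputable def aT (T : Finset (Ed × Bool)) (e : Ed) (b : Bool) : ℝ :=
  if (e, b) ∈ T then Real.pi / 2 else 0

theorem phF_aT {Λ : Finset Ed} {T : Finset (Ed × Bool)} (hT : T ⊆ Λ ×ˢ univ)
    (ω : HO (ℤ × ℤ)) :
    ∏ x ∈ T, Complex.exp (Complex.I * ((Real.pi / 2 * sn (ω x.1 x.2) : ℝ) : ℂ)) =
      phF Λ (aT T) ω := by
  classical
  unfold phF
  rw [← Complex.exp_sum, ← mul_sum, ← Complex.ofReal_sum]
  congr 3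
  rw [← sum_product' (s := Λ) (t := univ) (f := fun e b => aT T e b * if ω e b then 1 else -1)]
  rw [← sum_subset hT (f := fun x : Ed × Bool => aT T x.1 x.2 * if ω x.1 x.2 then 1 else -1)]
  · refine sum_congr rfl fun x hx => ?_
    simp only [aT, sn]
    rw [if_pos hx]
  · intro x _ hx
    simp only [aT]
    rw [if_neg hx, zero_mul]

theorem limS_local {S : Finset Ed} {Λ : Finset Ed} (hS : S ⊆ Λ) {F : HO (ℤ × ℤ) → ℂ}
    (hF : ∀ ω ω' : HO (ℤ × ℤ), (∀ e ∈ Λ, ω e = ω' e) → F ω = F ω') :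
    ∃ z, LimS (√3) S F z := by
  classical
  let ex : (Λ → Bool → Bool) → HO (ℤ × ℤ) := fun η e => if h : e ∈ Λ then η ⟨e, h⟩ else fun _ => false
  have hex : ∀ ω : HO (ℤ × ℤ), F ω = ∑ η : Λ → Bool → Bool, F (ex η) *
      ∏ x ∈ Λ ×ˢ (univ : Finset Bool), ((sn (ex η x.1 x.2) / 2 : ℝ) * (-Complex.I) *
        Complex.exp (Complex.I * ((Real.pi / 2 * sn (ω x.1 x.2) : ℝ) : ℂ)) + (1 / 2 : ℂ)) := by
    intro ω
    have h1 : ∀ η : Λ → Bool → Bool, ∏ x ∈ Λ ×ˢ (univ : Finset Bool),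
        ((sn (ex η x.1 x.2) / 2 : ℝ) * (-Complex.I) *
        Complex.exp (Complex.I * ((Real.pi / 2 * sn (ω x.1 x.2) : ℝ) : ℂ)) + (1 / 2 : ℂ)) =
        if ∀ x ∈ Λ ×ˢ (univ : Finset Bool), ω x.1 x.2 = ex η x.1 x.2 then 1 else 0 := by
      intro η
      have h2 : ∀ x : Ed × Bool, ((sn (ex η x.1 x.2) / 2 : ℝ) * (-Complex.I) *
        Complex.exp (Complex.I * ((Real.pi / 2 * sn (ω x.1 x.2) : ℝ) : ℂ)) + (1 / 2 : ℂ)) =
        if ω x.1 x.2 = ex η x.1 x.2 then 1 else 0 := by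
        intro x
        rw [add_comm, ind_sn]
      simp only [h2]
      split_ifs with h
      · exact prod_eq_one fun x hx => if_pos (h x hx)
      · push Not at h
        obtain ⟨x, hx, hne⟩ := h
        exact prod_eq_zero hx (if_neg hne)
    simp only [h1]
    rw [sum_eq_single (fun e : Λ => ω e)]
    · have h3 : ∀ e ∈ Λ, ω e = ex (fun e : Λ => ω e) e := by
        intro e he
        simp only [ex, dif_pos he]
      rw [if_pos, mul_one]
      · exact hF _ _ h3
      · intro x hx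
        rw [mem_product] at hx
        rw [← h3 x.1 hx.1]
    · intro η _ hη
      rw [if_neg, mul_zero]
      intro h
      apply hη
      funext e b
      have := h (e, b) (mem_product.2 ⟨e.2, mem_univ _⟩)
      simp only [ex, e.2, dite_true] at this
      exact this.symm
    · intro h
      exact absurd (mem_univ _) h
  have hfun : F = fun ω => ∑ η : Λ → Bool → Bool, ∑ T ∈ (Λ ×ˢ (univ : Finset Bool)).powerset,
      (F (ex η) * ((∏ x ∈ T, ((sn (ex η x.1 x.2) / 2 : ℝ) * (-Complex.I) : ℂ)) *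
        ∏ _x ∈ (Λ ×ˢ (univ : Finset Bool)) \ T, (1 / 2 : ℂ))) * phF Λ (aT T) ω := by
    funext ω
    rw [hex ω]
    refine sum_congr rfl fun η _ => ?_
    rw [prod_add, mul_sum]
    refine sum_congr rfl fun T hT => ?_
    rw [mem_powerset] at hT
    rw [prod_mul_distrib, phF_aT hT]
    ring
  rw [hfun]
  refine LimS.sum _ fun η _ => LimS.sum _ fun T hT => ?_
  rw [mem_powerset] at hT
  exact ⟨_, (limS_phF hS (a := aT T) (fun e he b => by
    unfold aT
    rw [if_neg]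
    intro h
    exact he (mem_product.1 (hT h)).1)).mul _⟩

/-- **Existence of the limit functional.** -/
theorem exists_om : ∃ om : Ins → ℂ,
    (∀ A : Ins, LI Set.univ A → ∀ ε > 0, ∃ N : ℕ, ∀ (M L : ℕ) [NeZero M] [NeZero L],
      Even M → Even L → N ≤ M → N ≤ L →
      ‖tv (V := ZMod M × ZMod L) (√3) (1, 0) (0, 1) A.S A.F - om A‖ ≤ ε) ∧
    (∀ A : Ins, LI Set.univ A → ∀ ε > 0, ∃ N : ℕ, ∀ (M : ℕ) [NeZero M], Even M → N ≤ M →
      ‖tv (V := ZMod M × ZMod M) (√3) (1, 0) (-1, 1) A.S A.F - om A‖ ≤ ε) ∧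
    ∀ (S E : Finset Ed) (a : Ed → Bool → ℝ), S ⊆ E → (∀ e ∉ E, ∀ b, a e b = 0) →
      om ⟨S, phF E a⟩ = ((∫ ω, Xc S a ω ∂μ : ℝ) : ℂ) := by
  classical
  let om : Ins → ℂ := fun A => if h : ∃ z, LimS (√3) A.S A.F z then h.choose else 0
  have h1 : ∀ A : Ins, LI Set.univ A → LimS (√3) A.S A.F (om A) := by
    rintro A ⟨Λ, _, hS, hF⟩
    have h : ∃ z, LimS (√3) A.S A.F z := limS_local hS hF
    simp only [om]
    rw [dif_pos h]
    exact h.choose_spec
  refine ⟨om, h1, ?_, ?_⟩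
  · intro A hA ε hε
    obtain ⟨N, hN⟩ := h1 A hA ε hε
    refine ⟨N, fun M _ hM h => ?_⟩
    rw [tv_skew]
    exact hN M M hM hM h h
  · intro S E a hSE ha
    have h2 := limS_phF hSE ha
    have h : ∃ z, LimS (√3) S (phF E a) z := ⟨_, h2⟩
    have h3 : LimS (√3) S (phF E a) (om ⟨S, phF E a⟩) := by
      simp only [om]
      rw [dif_pos h]
      exact h.choose_spec
    exact h3.unique h2

end Vale.Agent.P167.H199
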