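import Vale.Agent.P167.H199.Cov
import Vale.Agent.P167.H199.OmLim

/-!
P167, block PLID, part 7: cut products of finite quotients of the plane, limit of the cut skew tori,
existence of the functional `om` for both families.
-/

namespace Vale.Agent.P167.H199

open Finset Filter Topology MeasureTheory
open Vale.Agent.P167.A (Grid plane torus red redE plane_nx plane_hd plane_sg)
open Vale.Agent.P167.H685
open Vale.Agent.P167.H592
open Vale.Agent.P152 (Edge Ori vw wt)

/-- Push forward of the phases. -/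
noncomputable def pbr {V : Type} [DecidableEq V] (r : ℤ × ℤ → V) (E : Finset Ed)
    (a : Ed → Bool → ℝ) (x : Edge V) (b : Bool) : ℝ := ∑ e ∈ E with rE r e = x, a e b

theorem pbr_off {V : Type} [DecidableEq V] {r : ℤ × ℤ → V} {E : Finset Ed}
    {a : Ed → Bool → ℝ} {x : Edge V} (hx : x ∉ E.image (rE r)) (b : Bool) :
    pbr r E a x b = 0 := by
  unfold pbr
  refine sum_eq_zero fun e he => ?_
  rw [mem_filter] at he
  exact absurd (mem_image.2 ⟨e, he.1, he.2⟩) hx

namespace Cov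

variable {V : Type} {g : Grid V} {r : ℤ × ℤ → V} {m : ℕ} (h : Cov g r m)
  [Fintype V] [DecidableEq V]

include h

omit [Fintype V] in
theorem pbr_eq {K : ℕ} {E : Finset Ed} {a : Ed → Bool → ℝ} (ha : ∀ e ∉ E, ∀ b, a e b = 0)
    (hE : ∀ e ∈ E, bs e ∈ bx K) (hm : 2 * K + 1 ≤ m) {e : Ed}
    (he : bs e ∈ bx K) (b : Bool) : pbr r E a (rE r e) b = a e b := by
  classical
  unfold pbr
  have hfil : ∀ e' ∈ E.filter (fun e' => rE r e' = rE r e), e' = e := by
    intro e' he'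
    rw [mem_filter] at he'
    exact h.inj hm (hE e' he'.1) he he'.2
  by_cases hE' : e ∈ E
  · rw [sum_eq_single e]
    · intro e' he' hne
      exact absurd (hfil e' he') hne
    · intro hn
      exact (hn (mem_filter.2 ⟨hE', rfl⟩)).elim
  · rw [sum_eq_zero, ha e hE' b]
    intro e' he'
    have := hfil e' he'
    rw [this] at he'
    exact absurd (mem_filter.1 he').1 hE'

omit [Fintype V] in
/-- Angles of images. -/
theorem cang_image {K : ℕ} {E : Finset Ed} {a : Ed → Bool → ℝ} (ha : ∀ e ∉ E, ∀ b, a e b = 0)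
    (hE : ∀ e ∈ E, bs e ∈ bx K) (hm : 2 * K + 1 ≤ m)
    (ρ : V → Bool) {c : Finset Ed} (hc : ∀ x ∈ c, bs x ∈ bx K)
    (hc' : ∀ x ∈ c, bs (P167.nx (ρ ∘ r) x) ∈ bx K) (θ : ℝ) :
    cang g θ (pbr r E a) ρ (c.image (rE r)) = cang plane θ a (ρ ∘ r) c := by
  classical
  unfold cang
  rw [sum_image]
  · refine sum_congr rfl fun x hx => ?_
    rw [h.nx ρ x, h.turn, plane_nx]
    simp only [ah, at', hb]
    rw [h.sg, h.sg, plane_sg, plane_sg, h.pbr_eq ha hE hm (hc x hx),
      h.pbr_eq ha hE hm (hc' x hx)]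
  · intro e he e' he' hee
    exact h.inj hm (hc e he) (hc e' he') hee

theorem cutPr_eq {S E : Finset Ed} (hSE : S ⊆ E) {a : Ed → Bool → ℝ}
    (ha : ∀ e ∉ E, ∀ b, a e b = 0) {K : ℕ} (hm : 2 * (K + 1) + 1 ≤ m)
    (ρ : V → Bool) (hG : ρ ∘ r ∈ GK E K) :
    cutPr g (Real.pi / 3) (S.image (rE r)) (pbr r E a) ρ = Pr g 0 ρ * Xc S a (ρ ∘ r) := by
  classical
  set ω : Cfg := ρ ∘ r with hω
  have hEb : ∀ e ∈ E, bs e ∈ bx (K + 1) := by
    intro e he
    obtain ⟨ℓ, _, h2, h3⟩ := hG e he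
    exact bs_mem h3 h2
  -- the orbits which meet the image of `E`
  have himg : (orbs (g.nxP ρ)).filter (fun O => ∃ x ∈ E.image (rE r), x ∈ O)
      = (LE ω E).image (fun ℓ => ℓ.image (rE r)) := by
    ext O
    rw [mem_filter, mem_image]
    constructor
    · rintro ⟨h1, x, hx, hxO⟩
      obtain ⟨e, he, rfl⟩ := mem_image.1 hx
      obtain ⟨ℓ, h1', h2', _⟩ := hG e he
      refine ⟨ℓ, mem_LE.2 ⟨h1', e, he, h2'⟩, ?_⟩
      rw [eq_orb_of_mem h1 hxO, h.orb_image h1' h2']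
    · rintro ⟨ℓ, hℓ, rfl⟩
      obtain ⟨h1, e, he, heℓ⟩ := mem_LE.1 hℓ
      refine ⟨?_, rE r e, mem_image_of_mem _ he, mem_image_of_mem _ heℓ⟩
      rw [← h.orb_image h1 heℓ]
      exact orb_mem_orbs _
  have hinj : ∀ ℓ ∈ LE ω E, ∀ ℓ' ∈ LE ω E, ℓ.image (rE r) = ℓ'.image (rE r) → ℓ = ℓ' := by
    intro ℓ hℓ ℓ' hℓ' hh
    obtain ⟨h1, e, _, heℓ⟩ := mem_LE.1 hℓ
    obtain ⟨h1', _⟩ := mem_LE.1 hℓ'
    have : rE r e ∈ ℓ'.image (rE r) := hh ▸ mem_image_of_mem _ heℓ
    obtain ⟨e', he', hee'⟩ := mem_image.1 this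
    have := h.inj hm (bs_mem (LE_box hG hℓ') he') (bs_mem (LE_box hG hℓ) heℓ) hee'
    rw [this] at he'
    exact loop_unique h1 h1' heℓ he'
  -- disjointness of the images
  have hdis : ∀ ℓ ∈ LE ω E, (Disjoint (ℓ.image (rE r)) (S.image (rE r)) ↔ Disjoint ℓ S) := by
    intro ℓ hℓ
    rw [Finset.disjoint_left, Finset.disjoint_left]
    constructor
    · intro hd e he heS
      exact hd (mem_image_of_mem _ he) (mem_image_of_mem _ heS)
    · intro hd x hx hxS
      obtain ⟨e, he, rfl⟩ := mem_image.1 hx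
      obtain ⟨e', he', hee'⟩ := mem_image.1 hxS
      have := h.inj hm (hEb e' (hSE he')) (bs_mem (LE_box hG hℓ) he) hee'
      exact hd he (this ▸ he')
  have hsplit : ∀ F : Finset (Edge V) → ℝ,
      ∏ O ∈ (orbs (g.nxP ρ)).filter (fun O => Disjoint O (S.image (rE r))), F O
      = (∏ ℓ ∈ (LE ω E).filter (fun ℓ => Disjoint ℓ S), F (ℓ.image (rE r))) *
        ∏ O ∈ (orbs (g.nxP ρ)).filter (fun O => ¬ ∃ x ∈ E.image (rE r), x ∈ O), F O := by
    intro F
    rw [← prod_filter_mul_prod_filter_not ((orbs (g.nxP ρ)).filter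
      (fun O => Disjoint O (S.image (rE r)))) (fun O => ∃ x ∈ E.image (rE r), x ∈ O)]
    congr 1
    · rw [filter_comm, himg]
      have : ((LE ω E).image (fun ℓ => ℓ.image (rE r))).filter
          (fun O => Disjoint O (S.image (rE r))) =
          ((LE ω E).filter (fun ℓ => Disjoint ℓ S)).image (fun ℓ => ℓ.image (rE r)) := by
        ext O
        simp only [mem_filter, mem_image]
        constructor
        · rintro ⟨⟨ℓ, hℓ, rfl⟩, hd⟩
          exact ⟨ℓ, ⟨hℓ, (hdis ℓ hℓ).1 hd⟩, rfl⟩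
        · rintro ⟨ℓ, ⟨hℓ, hd⟩, rfl⟩
          exact ⟨⟨ℓ, hℓ, rfl⟩, (hdis ℓ hℓ).2 hd⟩
      rw [this, prod_image]
      intro ℓ hℓ ℓ' hℓ' hh
      exact hinj ℓ (mem_filter.1 hℓ).1 ℓ' (mem_filter.1 hℓ').1 hh
    · congr 1
      ext O
      simp only [mem_filter]
      constructor
      · rintro ⟨⟨h1, _⟩, h2⟩
        exact ⟨h1, h2⟩
      · rintro ⟨h1, h2⟩
        refine ⟨⟨h1, ?_⟩, h2⟩
        rw [Finset.disjoint_left]
        intro x hx hxS
        obtain ⟨e, he, rfl⟩ := mem_image.1 hxS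
        exact h2 ⟨_, mem_image_of_mem _ (hSE he), hx⟩
  have hPr : Pr g 0 ρ = ∏ O ∈ (orbs (g.nxP ρ)).filter
      (fun O => ¬ ∃ x ∈ E.image (rE r), x ∈ O), fac g 0 ρ O := by
    unfold Pr
    rw [← prod_filter_mul_prod_filter_not (orbs (g.nxP ρ))
      (fun O => ∃ x ∈ E.image (rE r), x ∈ O), himg, prod_image]
    · rw [prod_eq_one, one_mul]
      intro ℓ hℓ
      have hb := LE_box hG hℓ
      have e1 : fac g 0 ρ (ℓ.image (rE r)) = fac plane 0 ω ℓ := by
        unfold fac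
        rw [sum_image]
        · congr 2
          refine sum_congr rfl fun e he => ?_
          rw [h.turn, h.sg, plane_sg]
          rfl
        · intro e he e' he' hee
          exact h.inj hm (bs_mem hb he) (bs_mem hb he') hee
      rw [e1]
      exact fac_plane_zero s_turn (mem_LE.1 hℓ).1
    · intro ℓ hℓ ℓ' hℓ' hh
      exact hinj ℓ hℓ ℓ' hℓ' hh
  unfold cutPr
  rw [hsplit, hPr, Xc_eq ω ha]
  have e1 : ∏ ℓ ∈ (LE ω E).filter (fun ℓ => Disjoint ℓ S),
      2 * Real.cos (cang g (Real.pi / 3) (pbr r E a) ρ (ℓ.image (rE r))) =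
      ∏ ℓ ∈ (LE ω E).filter (fun ℓ => Disjoint ℓ S),
      2 * Real.cos (cang plane (Real.pi / 3) a ω ℓ) := by
    refine prod_congr rfl fun ℓ hℓ => ?_
    rw [mem_filter] at hℓ
    have hb := LE_box hG hℓ.1
    rw [h.cang_image ha hEb hm ρ (fun x hx => bs_mem hb hx)
      (fun x hx => bs_mem hb (loop_nx (mem_LE.1 hℓ.1).1 hx))]
  have e2 : ∏ O ∈ (orbs (g.nxP ρ)).filter (fun O => ¬ ∃ x ∈ E.image (rE r), x ∈ O),
      2 * Real.cos (cang g (Real.pi / 3) (pbr r E a) ρ O) =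
      ∏ O ∈ (orbs (g.nxP ρ)).filter (fun O => ¬ ∃ x ∈ E.image (rE r), x ∈ O),
      fac g 0 ρ O := by
    refine prod_congr rfl fun O hO => ?_
    rw [mem_filter] at hO
    rw [fac_zero, cang_off g (pbr r E a) ρ]
    · intro x hx
      obtain ⟨z, rfl⟩ := mem_orbs.1 hO.1
      rw [mem_orb_g] at hx ⊢
      obtain ⟨n, rfl⟩ := hx
      exact ⟨n + 1, Function.iterate_succ_apply' _ _ _⟩
    · intro x hx b
      apply pbr_off
      intro hxE
      exact hO.2 ⟨x, hxE, hx⟩
  have e3 : ∏ x ∈ S.image (rE r),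
      2 * Real.cos (cang g (Real.pi / 3) (pbr r E a) ρ (strand (g.nx ρ) (S.image (rE r)) x)) =
      ∏ e ∈ S, 2 * Real.cos (cang plane (Real.pi / 3) a ω (strand (P167.nx ω) S e)) := by
    rw [prod_image]
    · refine prod_congr rfl fun e he => ?_
      obtain ⟨ℓ, h1, h2, h3⟩ := hG e (hSE he)
      have hit : ∀ k, (g.nx ρ)^[k] (rE r e) = rE r ((P167.nx ω)^[k] e) :=
        fun k => h.iter ρ e k
      have hr : ret (g.nx ρ) (S.image (rE r)) (rE r e) = ret (P167.nx ω) S e := by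
        apply ret_congr
        intro k
        rw [hit]
        constructor
        · intro hh
          obtain ⟨e', he', hee'⟩ := mem_image.1 hh
          have := h.inj hm (hEb e' (hSE he')) (bs_mem h3 (loop_iter h1 h2 k)) hee'
          exact this ▸ he'
        · intro hh
          exact mem_image_of_mem _ hh
      have hs : strand (g.nx ρ) (S.image (rE r)) (rE r e) =
          (strand (P167.nx ω) S e).image (rE r) := by
        unfold strand
        rw [hr, image_image]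
        exact image_congr fun k _ => hit k
      rw [hs, h.cang_image ha hEb hm ρ
        (fun x hx => bs_mem h3 (strand_sub h1 h2 S hx))
        (fun x hx => bs_mem h3 (loop_nx h1 (strand_sub h1 h2 S hx)))]
    · intro e he e' he' hee
      exact h.inj hm (hEb e (hSE he)) (hEb e' (hSE he')) hee
  rw [e1, e2, e3]
  ring

end Cov

/-- **Transfer**, for a family of maps `u` from the coins of the tori to the coins of the plane. -/
theorem transfer3 {μ : Measure (ℤ × ℤ → Bool)} [IsProbabilityMeasure μ]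
    {W : (M L : ℕ) → [NeZero M] → [NeZero L] → (ZMod M × ZMod L → Bool) → ℝ}
    (u : (M L : ℕ) → [NeZero M] → [NeZero L] → (ZMod M × ZMod L → Bool) → Cfg)
    (hlc : ∀ (K : ℕ) (F : (ℤ × ℤ → Bool) → ℝ), Dep F (bx K : Set (ℤ × ℤ)) → ∀ D : ℝ,
      (∀ R, |F R| ≤ D) → ∀ ε > 0, ∃ N : ℕ, ∀ (M L : ℕ) [NeZero M] [NeZero L], N ≤ M → N ≤ L →
      Even M → Even L → |(∑ R, W M L R * F (u M L R)) / (∑ R, W M L R) - ∫ R, F R ∂μ| ≤ ε)
    (hZ : ∀ (M L : ℕ) [NeZero M] [NeZero L], Even M → Even L → 0 < ∑ R, W M L R)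
    {X : (ℤ × ℤ → Bool) → ℝ} {D : ℝ} (hXD : ∀ R, |X R| ≤ D)
    {G : ℕ → Set (ℤ × ℤ → Bool)}
    (hG : ∀ K, Dep (fun R => R ∈ G K) (bx K : Set (ℤ × ℤ)))
    (hGX : ∀ K, ∀ R ∈ G K, ∀ R' ∈ G K, (∀ v ∈ bx K, R v = R' v) → X R = X R')
    (hGae : ∀ᵐ R ∂μ, ∀ᶠ K in atTop, R ∈ G K)
    {Φ : (M L : ℕ) → [NeZero M] → [NeZero L] → (ZMod M × ZMod L → Bool) → ℝ}
    (hΦD : ∃ N : ℕ, ∀ (M L : ℕ) [NeZero M] [NeZero L], Even M → Even L → N ≤ M → N ≤ L →
      ∀ R, |Φ M L R| ≤ D * W M L R)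
    (hΦ : ∀ K, ∃ N : ℕ, ∀ (M L : ℕ) [NeZero M] [NeZero L], Even M → Even L → N ≤ M → N ≤ L →
      ∀ R : ZMod M × ZMod L → Bool, u M L R ∈ G K → Φ M L R = W M L R * X (u M L R)) :
    ∀ ε > 0, ∃ N : ℕ, ∀ (M L : ℕ) [NeZero M] [NeZero L], Even M → Even L → N ≤ M → N ≤ L →
      |(∑ R, Φ M L R) / (∑ R, W M L R) - ∫ R, X R ∂μ| ≤ ε := by
  classical
  have hD : 0 ≤ D := le_trans (abs_nonneg _) (hXD fun _ => true)
  set FX : ℕ → (ℤ × ℤ → Bool) → ℝ := fun K => (G K).indicator X with hFX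
  set F1 : ℕ → (ℤ × ℤ → Bool) → ℝ := fun K => (G K).indicator 1 with hF1
  have hdepF1 : ∀ K, Dep (F1 K) (bx K : Set (ℤ × ℤ)) := by
    intro K R R' h
    have : (R ∈ G K) = (R' ∈ G K) := hG K R R' h
    by_cases hR : R ∈ G K
    · simp only [hF1]
      rw [Set.indicator_of_mem hR, Set.indicator_of_mem (this ▸ hR)]; rfl
    · simp only [hF1]
      rw [Set.indicator_of_notMem hR, Set.indicator_of_notMem (this ▸ hR)]
  have hdepFX : ∀ K, Dep (FX K) (bx K : Set (ℤ × ℤ)) := by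
    intro K R R' h
    have : (R ∈ G K) = (R' ∈ G K) := hG K R R' h
    by_cases hR : R ∈ G K
    · have hR' : R' ∈ G K := this ▸ hR
      simp only [hFX]
      rw [Set.indicator_of_mem hR, Set.indicator_of_mem hR']
      exact hGX K R hR R' hR' h
    · simp only [hFX]
      rw [Set.indicator_of_notMem hR, Set.indicator_of_notMem (this ▸ hR)]
  have hbX : ∀ K R, |FX K R| ≤ D := by
    intro K R
    by_cases hR : R ∈ G K
    · simp only [hFX]
      rw [Set.indicator_of_mem hR]; exact hXD R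
    · simp only [hFX]
      rw [Set.indicator_of_notMem hR, abs_zero]; exact hD
  have hb1 : ∀ K R, |F1 K R| ≤ 1 := by
    intro K R
    by_cases hR : R ∈ G K
    · simp only [hF1]
      rw [Set.indicator_of_mem hR]; simp
    · simp only [hF1]
      rw [Set.indicator_of_notMem hR]; simp
  have hmX : ∀ K, Measurable (FX K) := fun K => (hdepFX K).measurable
  have hm1 : ∀ K, Measurable (F1 K) := fun K => (hdepF1 K).measurable
  -- limits of the plane expectations
  have limX : Tendsto (fun K => ∫ R, FX K R ∂μ) atTop (𝓝 (∫ R, X R ∂μ)) := by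
    refine tendsto_integral_of_dominated_convergence (fun _ => D)
      (fun K => (hmX K).aestronglyMeasurable) (integrable_const D)
      (fun K => Eventually.of_forall fun R => hbX K R) ?_
    filter_upwards [hGae] with R hR
    refine tendsto_const_nhds.congr' ?_
    filter_upwards [hR] with K hK
    simp only [hFX]
    rw [Set.indicator_of_mem hK]
  have lim1 : Tendsto (fun K => ∫ R, F1 K R ∂μ) atTop (𝓝 1) := by
    have : (1 : ℝ) = ∫ _R : ℤ × ℤ → Bool, (1 : ℝ) ∂μ := by simp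
    rw [this]
    refine tendsto_integral_of_dominated_convergence (fun _ => 1)
      (fun K => (hm1 K).aestronglyMeasurable) (integrable_const 1)
      (fun K => Eventually.of_forall fun R => hb1 K R) ?_
    filter_upwards [hGae] with R hR
    refine tendsto_const_nhds.congr' ?_
    filter_upwards [hR] with K hK
    simp only [hF1]
    rw [Set.indicator_of_mem hK]; rfl
  intro ε hε
  -- choice of the box
  set η : ℝ := ε / (4 * (D + 1)) with hη
  have hη0 : 0 < η := by positivity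
  have hDη : D * η ≤ ε / 4 := by
    rw [hη]
    have : D * (ε / (4 * (D + 1))) = ε / 4 * (D / (D + 1)) := by
      field_simp
    rw [this]
    have h2 : D / (D + 1) ≤ 1 := by
      rw [div_le_one (by linarith)]; linarith
    calc ε / 4 * (D / (D + 1)) ≤ ε / 4 * 1 := by gcongr
      _ = ε / 4 := mul_one _
  have hη1 : η ≤ ε / 4 := by
    rw [hη]
    apply div_le_div_of_nonneg_left hε.le (by norm_num)
    linarith
  obtain ⟨K, hK1, hK2⟩ : ∃ K, |∫ R, FX K R ∂μ - ∫ R, X R ∂μ| ≤ η ∧ 1 - ∫ R, F1 K R ∂μ ≤ η := by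
    have e1 := (Metric.tendsto_atTop.1 limX) η hη0
    have e2 := (Metric.tendsto_atTop.1 lim1) η hη0
    obtain ⟨K1, hK1⟩ := e1
    obtain ⟨K2, hK2⟩ := e2
    refine ⟨max K1 K2, ?_, ?_⟩
    · have := hK1 (max K1 K2) (le_max_left _ _)
      rw [Real.dist_eq] at this
      exact this.le
    · have := hK2 (max K1 K2) (le_max_right _ _)
      rw [Real.dist_eq] at this
      linarith [(abs_lt.1 this).1]
  obtain ⟨N₁, hN₁⟩ := hΦ K
  obtain ⟨N₂, hN₂⟩ := hΦD
  obtain ⟨N₃, hN₃⟩ := hlc K _ (hdepFX K) D (hbX K) η hη0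
  obtain ⟨N₄, hN₄⟩ := hlc K _ (hdepF1 K) 1 (hb1 K) η hη0
  refine ⟨max (max N₁ N₂) (max N₃ N₄), fun M L _ _ heM heL hM hL => ?_⟩
  have m1 : N₁ ≤ M := le_trans (le_trans (le_max_left _ _) (le_max_left _ _)) hM
  have m2 : N₂ ≤ M := le_trans (le_trans (le_max_right _ _) (le_max_left _ _)) hM
  have m3 : N₃ ≤ M := le_trans (le_trans (le_max_left _ _) (le_max_right _ _)) hM
  have m4 : N₄ ≤ M := le_trans (le_trans (le_max_right _ _) (le_max_right _ _)) hM
  have l1 : N₁ ≤ L := le_trans (le_trans (le_max_left _ _) (le_max_left _ _)) hL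
  have l2 : N₂ ≤ L := le_trans (le_trans (le_max_right _ _) (le_max_left _ _)) hL
  have l3 : N₃ ≤ L := le_trans (le_trans (le_max_left _ _) (le_max_right _ _)) hL
  have l4 : N₄ ≤ L := le_trans (le_trans (le_max_right _ _) (le_max_right _ _)) hL
  have a3 := hN₃ M L m3 l3 heM heL
  have a4 := hN₄ M L m4 l4 heM heL
  have hZpos : 0 < ∑ R, W M L R := hZ M L heM heL
  have a1 : |(∑ R, Φ M L R) / (∑ R, W M L R) - (∑ R, W M L R * FX K (u M L R)) / (∑ R, W M L R)|
      ≤ D * (1 - (∑ R, W M L R * F1 K (u M L R)) / (∑ R, W M L R)) := by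
    rw [← sub_div, ← sum_sub_distrib, abs_div, abs_of_pos hZpos]
    have : D * (1 - (∑ R, W M L R * F1 K (u M L R)) / (∑ R, W M L R))
        = (∑ R, D * (W M L R - W M L R * F1 K (u M L R))) / (∑ R, W M L R) := by
      rw [← mul_sum, sum_sub_distrib, mul_div_assoc, sub_div, div_self hZpos.ne']
    rw [this]
    apply div_le_div_of_nonneg_right _ hZpos.le
    refine (abs_sum_le_sum_abs _ _).trans (sum_le_sum fun R _ => ?_)
    by_cases hR : u M L R ∈ G K
    · simp only [hFX, hF1]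
      rw [Set.indicator_of_mem hR, Set.indicator_of_mem hR, hN₁ M L heM heL m1 l1 R hR]
      simp
    · simp only [hFX, hF1]
      rw [Set.indicator_of_notMem hR, Set.indicator_of_notMem hR]
      simpa using hN₂ M L heM heL m2 l2 R
  generalize (∑ R, W M L R * FX K (u M L R)) / (∑ R, W M L R) = x2 at a1 a3
  generalize (∑ R, W M L R * F1 K (u M L R)) / (∑ R, W M L R) = x3 at a1 a4
  generalize (∑ R, Φ M L R) / (∑ R, W M L R) = x1 at a1
  have b3 : D * (1 - x3) ≤ D * (η + η) := by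
    apply mul_le_mul_of_nonneg_left _ hD
    linarith [(abs_le.1 a4).1]
  have b4 : D * (η + η) = D * η + D * η := by ring
  calc |x1 - ∫ R, X R ∂μ| = |(x1 - x2) + (x2 - ∫ R, FX K R ∂μ) +
        (∫ R, FX K R ∂μ - ∫ R, X R ∂μ)| := by ring_nf
    _ ≤ |x1 - x2| + |x2 - ∫ R, FX K R ∂μ| + |∫ R, FX K R ∂μ - ∫ R, X R ∂μ| :=
        abs_add_three _ _ _
    _ ≤ ε := by linarith

/-! ### the relabeling -/

/-- Relabeling of the squares. -/
def kap : (ℤ × ℤ) ≃ (ℤ × ℤ) where
  toFun v := (v.1 - v.2, v.2)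
  invFun v := (v.1 + v.2, v.2)
  left_inv v := by simp
  right_inv v := by simp

theorem map_kap : μ.map (fun ω : Cfg => ω ∘ kap) = μ := by
  have h := Measure.infinitePi_map_piCongrLeft (μ := fun _ : ℤ × ℤ => fair) kap.symm
  have e : ⇑(MeasurableEquiv.piCongrLeft (fun _ => Bool) kap.symm) =
      fun ω : Cfg => ω ∘ kap := by
    funext ω i
    rw [MeasurableEquiv.coe_piCongrLeft]
    have h1 := Equiv.piCongrLeft_apply_apply (fun _ : ℤ × ℤ => Bool) kap.symm ω (kap i)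
    rw [Equiv.symm_apply_apply] at h1
    exact h1
  rw [e] at h
  exact h

/-- Unrolling of the skew torus. -/
def unK (M L : ℕ) (R : ZMod M × ZMod L → Bool) : Cfg := R ∘ rsk M L

theorem unK_eq {M L : ℕ} (R : ZMod M × ZMod L → Bool) : unK M L R = unR R ∘ kap := by
  funext v
  simp [unK, unR, rsk, kap]

theorem local_convK {F : (ℤ × ℤ → Bool) → ℝ} {K : ℕ} (hF : Dep F (bx K : Set (ℤ × ℤ)))
    {D : ℝ} (hFD : ∀ R, |F R| ≤ D) {ε : ℝ} (hε : 0 < ε) :
    ∃ N : ℕ, ∀ (M L : ℕ) [NeZero M] [NeZero L], N ≤ M → N ≤ L → Even M → Even L →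
      |(∑ R, WtK M L R * F (unK M L R)) / (∑ R, WtK M L R) - ∫ R, F R ∂μ| ≤ ε := by
  have hF' : Dep (fun ω : Cfg => F (ω ∘ kap)) (bx (2 * K) : Set (ℤ × ℤ)) := by
    intro ω ω' hh
    apply hF
    intro v hv
    apply hh
    rw [mem_coe, mem_bx] at hv ⊢
    simp only [kap, Equiv.coe_fn_mk]
    push_cast
    omega
  obtain ⟨N, hN⟩ := local_conv isFair_mu (C := 2 * Real.log 2)
    (by have := Real.log_nonneg (show (1 : ℝ) ≤ 2 by norm_num); positivity) goodWeightK hF'
    (D := D) (fun R => hFD _) hε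
  refine ⟨N, fun M L _ _ hM hL heM heL => ?_⟩
  have h1 := hN M L hM hL heM heL
  have h2 : ∫ R : Cfg, F (R ∘ kap) ∂μ = ∫ R, F R ∂μ := by
    have hm : Measurable (fun ω : Cfg => ω ∘ kap) :=
      measurable_pi_lambda _ fun v => measurable_pi_apply (kap v)
    have h3 := integral_map (μ := μ) hm.aemeasurable (f := F)
      (hF.measurable.aestronglyMeasurable)
    rw [map_kap] at h3
    exact h3.symm
  rw [h2] at h1
  have h3 : ∀ R : ZMod M × ZMod L → Bool, F (unR R ∘ kap) = F (unK M L R) := fun R => by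
    rw [unK_eq]
  simp only [h3] at h1
  exact h1

/-- The observable of a cut datum on the skew torus. -/
noncomputable def cutPhK (S E : Finset Ed) (a : Ed → Bool → ℝ) (M L : ℕ) [NeZero M] [NeZero L]
    (ρ : ZMod M × ZMod L → Bool) : ℝ :=
  open Classical in
  if h : Even M then
    cutPr (skew M L h) (Real.pi / 3) (S.image (rE (rsk M L))) (pbr (rsk M L) E a) ρ else 0

/-- **The limit of the cut skew tori**, percolation form. -/
theorem cut_limK {S E : Finset Ed} (hSE : S ⊆ E) {a : Ed → Bool → ℝ}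
    (ha : ∀ e ∉ E, ∀ b, a e b = 0) :
    ∀ ε > 0, ∃ N : ℕ, ∀ (M L : ℕ) [NeZero M] [NeZero L], Even M → Even L → N ≤ M → N ≤ L →
      |(∑ R, cutPhK S E a M L R) / (∑ R, WtK M L R) - ∫ ω, Xc S a ω ∂μ| ≤ ε := by
  classical
  refine transfer3 (G := GK E) (D := 2 ^ (E.card + S.card)) (fun M L _ _ => unK M L)
    (fun K F hF D hD ε hε => local_convK hF hD hε) ?_
    (fun ω => abs_Xc_le ω ha) (GK_dep E) (Xc_dep hSE ha) (ae_GK s_fin E) ?_ ?_
  · intro M L _ _ heM heL
    exact lt_of_lt_of_le (mul_pos (Real.exp_pos _) card_pos') (goodWeightK.mass M L heM heL)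
  · refine ⟨0, fun M L _ _ hM hL _ _ R => ?_⟩
    simp only [cutPhK, WtK]
    rw [dif_pos hM, dif_pos hM]
    have := abs_cutPr_le (skew M L hM) R
      (fun ℓ hℓ => (cov_skew M L hM).one_le_fac R hℓ)
      (a := pbr (rsk M L) E a) (E := E.image (rE (rsk M L))) (fun x hx b => pbr_off hx b)
      (S.image (rE (rsk M L)))
    refine this.trans ?_
    have h1 := (cov_skew M L hM).one_le_Pr R
    apply mul_le_mul_of_nonneg_right _ (by linarith)
    exact pow_le_pow_right₀ (by norm_num) (add_le_add card_image_le card_image_le)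
  · intro K
    refine ⟨2 * (K + 1) + 1, fun M L _ _ hM hL h1 h2 R hR => ?_⟩
    simp only [cutPhK, WtK]
    rw [dif_pos hM, dif_pos hM]
    exact (cov_skew M L hM).cutPr_eq hSE ha (le_min h1 h2) R hR

section sk

variable {M L : ℕ} [NeZero M] [NeZero L] (hM : Even M)

omit [NeZero M] [NeZero L] in
theorem emE_skew : emE ((1, 0) : ZMod M × ZMod L) (-1, 1) = rE (rsk M L) := by
  have h : H592.em ((1, 0) : ZMod M × ZMod L) (-1, 1) = rsk M L := by
    funext v
    ext <;> simp [H592.em, rsk, sub_eq_add_neg]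
  unfold emE rE
  rw [h]

theorem hw_skew (c : ℝ) (ω : HO (ZMod M × ZMod L)) :
    hw c (1, 0) (-1, 1) ω = hwt (skew M L hM) c ω := by
  have h1 : ∀ v : ZMod M × ZMod L, (skew M L hM).e1.symm v = v - (1, 0) := by
    intro v
    rw [Equiv.symm_apply_eq]
    simp [skew]
  have h2 : ∀ v : ZMod M × ZMod L, (skew M L hM).e2.symm v = v - (-1, 1) := by
    intro v
    rw [Equiv.symm_apply_eq]
    simp [skew]
  unfold hw hwt hvw
  refine prod_congr rfl fun v _ => ?_
  rw [h1, h2]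

omit [NeZero M] [NeZero L] in
theorem sum_pbr {V : Type} [Fintype V] [DecidableEq V] (r : ℤ × ℤ → V) (E : Finset Ed)
    (a : Ed → Bool → ℝ) (ω : HO V) :
    ∑ x, ∑ b : Bool, pbr r E a x b * (if ω x b then 1 else -1) =
      ∑ e ∈ E, ∑ b : Bool, a e b * (if ω (rE r e) b then 1 else -1) := by
  classical
  have h1 : ∀ x : Edge V, ∑ b : Bool, pbr r E a x b * (if ω x b then 1 else -1)
      = ∑ e ∈ E with rE r e = x, ∑ b : Bool, a e b *
        (if ω (rE r e) b then 1 else -1) := by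
    intro x
    rw [sum_comm]
    refine sum_congr rfl fun b _ => ?_
    unfold pbr
    rw [sum_mul]
    refine sum_congr rfl fun e he => ?_
    rw [mem_filter] at he
    rw [he.2]
  rw [sum_congr rfl fun x _ => h1 x]
  exact sum_fiberwise_of_maps_to (fun _ _ => mem_univ _) _

include hM in
theorem zvK_phF (S E : Finset Ed) (a : Ed → Bool → ℝ) :
    zv (√3) ((1, 0) : ZMod M × ZMod L) (-1, 1) S (phF E a) =
      ((∑ ρ, cutPhK S E a M L ρ : ℝ) : ℂ) := by
  classical
  have h := cut_bkwC (skew M L hM) (Real.pi / 3) (S.image (rE (rsk M L))) (pbr (rsk M L) E a)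
  rw [sqrt3] at h
  have e1 : ∑ ρ, cutPhK S E a M L ρ =
      ∑ ρ, cutPr (skew M L hM) (Real.pi / 3) (S.image (rE (rsk M L))) (pbr (rsk M L) E a) ρ := by
    refine sum_congr rfl fun ρ _ => ?_
    simp only [cutPhK]
    rw [dif_pos hM]
  rw [e1, ← h]
  unfold zv
  refine sum_congr rfl fun ω _ => ?_
  rw [emE_skew, sum_pbr, hw_skew hM]
  unfold phF unH
  rw [emE_skew]
  by_cases hS : NoDef (S.image (rE (rsk M L))) ω
  · rw [if_pos hS, if_pos (show ∀ e ∉ S.image (rE (rsk M L)), ω e false = ω e true from hS)]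
  · rw [if_neg hS, if_neg (show ¬ ∀ e ∉ S.image (rE (rsk M L)), ω e false = ω e true from hS)]

include hM in
theorem zvK_one : zv (√3) ((1, 0) : ZMod M × ZMod L) (-1, 1) ∅ (fun _ => 1) =
      ((∑ ρ, WtK M L ρ : ℝ) : ℂ) := by
  classical
  have h := zvK_phF (L := L) hM ∅ ∅ (fun _ _ => 0)
  have e0 : phF ∅ (fun _ _ => 0) = fun _ => 1 := by
    funext ω
    simp [phF]
  rw [e0] at h
  rw [h]
  congr 1
  refine sum_congr rfl fun ρ _ => ?_
  simp only [cutPhK, WtK]
  rw [dif_pos hM, dif_pos hM]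
  unfold cutPr Pr
  rw [image_empty, prod_empty, mul_one]
  have e1 : (orbs ((skew M L hM).nxP ρ)).filter (fun ℓ => Disjoint ℓ ∅) =
      orbs ((skew M L hM).nxP ρ) := by
    apply filter_true_of_mem
    intro ℓ _
    exact disjoint_empty_right ℓ
  rw [e1]
  refine prod_congr rfl fun ℓ hℓ => ?_
  rw [fac_zero, cang_off]
  · intro x hx
    rw [eq_orb_of_mem hℓ hx, mem_orb]
    exact ⟨1, rfl⟩
  · intro x _ b
    exact pbr_off (by simp) b

include hM in
/-- The value of a phase insertion on a skew torus. -/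
theorem tvK_phF (S E : Finset Ed) (a : Ed → Bool → ℝ) :
    tv (√3) ((1, 0) : ZMod M × ZMod L) (-1, 1) S (phF E a) =
      (((∑ ρ, cutPhK S E a M L ρ) / ∑ ρ, WtK M L ρ : ℝ) : ℂ) := by
  unfold tv
  rw [zvK_phF hM, zvK_one hM]
  push_cast
  rfl

end sk

end Vale.Agent.P167.H199
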