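import Vale.Agent.P167.H199.Chain

/-!
P167, block START: the enlarged polygon near a point of a side, and its size.
-/

namespace Vale.Agent.P167.H199

open Finset Filter Topology
open Vale.Agent.P167.E6 (IsPolygon Encloses dir face edges)
open Vale.Agent.P167.H825 (Marks pdir dirOf bsite enl)

variable {l : ℕ} {p : ZMod l → ℤ × ℤ} {S : Finset (ℤ × ℤ)}

/-- The square `v` is on the left of the line through the site `b` in the direction `r`. -/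
def OnL (r : Fin 4) (b v : ℤ × ℤ) : Prop :=
  ![b.2 ≤ v.2, v.1 < b.1, v.2 < b.2, b.1 ≤ v.1] r

/-- Squares near a point of a side: in the inner block or in the outer block. -/
theorem near_blk {n : ℕ} {ρ τ : ℤ} (P : ℤ × ℤ) (r : Fin 4) (h1 : ρ + 1 ≤ τ)
    (h2 : τ + ρ + 1 ≤ n) {v : ℤ × ℤ} (hv : nm (v - ((n : ℤ) • P + τ • dir r)) ≤ ρ) :
    (OnL r ((n : ℤ) • P + τ • dir r) v → Blk n (face P r) v) ∧
      (¬ OnL r ((n : ℤ) • P + τ • dir r) v → Blk n (face P (r - 1)) v) := by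
  obtain ⟨q1, q2, q3, q4⟩ := nm_le' hv
  simp only [Prod.fst_add, Prod.snd_add, Prod.smul_fst, Prod.smul_snd, smul_eq_mul] at q1 q2 q3 q4
  fin_cases r
  · have e1 : dir (⟨0, by norm_num⟩ : Fin 4) = (1, 0) := rfl
    have e2 : face P (⟨0, by norm_num⟩ : Fin 4) = (P.1 + 0, P.2 + 0) := rfl
    have e3 : face P ((⟨0, by norm_num⟩ : Fin 4) - 1) = (P.1 + 0, P.2 + -1) := rfl
    have e4 : OnL (⟨0, by norm_num⟩ : Fin 4) ((n : ℤ) • P + τ • dir (⟨0, by norm_num⟩ : Fin 4)) v ↔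
        n * P.2 + τ * 0 ≤ v.2 := Iff.rfl
    rw [e1] at q1 q2 q3 q4
    rw [e4, e2, e3]
    simp only [Blk, mul_add, mul_one, mul_zero, mul_neg, add_zero] at q1 q2 q3 q4 ⊢
    omega
  · have e1 : dir (⟨1, by norm_num⟩ : Fin 4) = (0, 1) := rfl
    have e2 : face P (⟨1, by norm_num⟩ : Fin 4) = (P.1 + -1, P.2 + 0) := rfl
    have e3 : face P ((⟨1, by norm_num⟩ : Fin 4) - 1) = (P.1 + 0, P.2 + 0) := rfl
    have e4 : OnL (⟨1, by norm_num⟩ : Fin 4) ((n : ℤ) • P + τ • dir (⟨1, by norm_num⟩ : Fin 4)) v ↔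
        v.1 < n * P.1 + τ * 0 := Iff.rfl
    rw [e1] at q1 q2 q3 q4
    rw [e4, e2, e3]
    simp only [Blk, mul_add, mul_one, mul_zero, mul_neg, add_zero] at q1 q2 q3 q4 ⊢
    omega
  · have e1 : dir (⟨2, by norm_num⟩ : Fin 4) = (-1, 0) := rfl
    have e2 : face P (⟨2, by norm_num⟩ : Fin 4) = (P.1 + -1, P.2 + -1) := rfl
    have e3 : face P ((⟨2, by norm_num⟩ : Fin 4) - 1) = (P.1 + -1, P.2 + 0) := rfl
    have e4 : OnL (⟨2, by norm_num⟩ : Fin 4) ((n : ℤ) • P + τ • dir (⟨2, by norm_num⟩ : Fin 4)) v ↔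
        v.2 < n * P.2 + τ * 0 := Iff.rfl
    rw [e1] at q1 q2 q3 q4
    rw [e4, e2, e3]
    simp only [Blk, mul_add, mul_one, mul_zero, mul_neg, add_zero] at q1 q2 q3 q4 ⊢
    omega
  · have e1 : dir (⟨3, by norm_num⟩ : Fin 4) = (0, -1) := rfl
    have e2 : face P (⟨3, by norm_num⟩ : Fin 4) = (P.1 + 0, P.2 + -1) := rfl
    have e3 : face P ((⟨3, by norm_num⟩ : Fin 4) - 1) = (P.1 + -1, P.2 + -1) := rfl
    have e4 : OnL (⟨3, by norm_num⟩ : Fin 4) ((n : ℤ) • P + τ • dir (⟨3, by norm_num⟩ : Fin 4)) v ↔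
        n * P.1 + τ * 0 ≤ v.1 := Iff.rfl
    rw [e1] at q1 q2 q3 q4
    rw [e4, e2, e3]
    simp only [Blk, mul_add, mul_one, mul_zero, mul_neg, add_zero] at q1 q2 q3 q4 ⊢
    omega

/-- **The enlarged polygon near a point of the side `i`.** -/
theorem near_side (hp : IsPolygon p) (hS : Encloses p S) (i : ℕ) {tp k : ℝ} (h0 : k < tp)
    (h1 : k < 1 - tp) (hk : 0 ≤ k) : ∀ᶠ n : ℕ in atTop, ∀ v : ℤ × ℤ,
      (nm (v - ((n : ℤ) • p i + (⌊tp * n⌋₊ : ℤ) • dir (pdir p i))) : ℝ) ≤ k * n →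
      (v ∈ enl S n ↔ OnL (pdir p i) ((n : ℤ) • p i + (⌊tp * n⌋₊ : ℤ) • dir (pdir p i)) v) := by
  set c := min (tp - k) (1 - tp - k) with hc
  have hc0 : 0 < c := lt_min (by linarith) (by linarith)
  filter_upwards [(tendsto_natCast_atTop_atTop (R := ℝ)).eventually_ge_atTop (4 / c),
    eventually_gt_atTop 0] with n hn hn0 v hv
  have hn0' : (0 : ℝ) < n := by exact_mod_cast hn0
  rw [div_le_iff₀ hc0] at hn
  have t1 := Nat.lt_floor_add_one (tp * n)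
  have t2 := Nat.floor_le (show 0 ≤ tp * n by
    have : 0 < tp := by linarith
    positivity)
  have c1 : c * n ≤ (tp - k) * n := mul_le_mul_of_nonneg_right (min_le_left _ _) hn0'.le
  have c2 : c * n ≤ (1 - tp - k) * n := mul_le_mul_of_nonneg_right (min_le_right _ _) hn0'.le
  have hv' := Int.le_floor.2 hv
  have f1 := Int.floor_le (k * n)
  have q1 : ⌊k * n⌋ + 1 ≤ (⌊tp * n⌋₊ : ℤ) := by
    have : (⌊k * (n : ℝ)⌋ : ℝ) + 1 ≤ ⌊tp * n⌋₊ := by nlinarith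
    exact_mod_cast this
  have q2 : (⌊tp * n⌋₊ : ℤ) + ⌊k * n⌋ + 1 ≤ n := by
    have : (⌊tp * (n : ℝ)⌋₊ : ℝ) + ⌊k * (n : ℝ)⌋ + 1 ≤ n := by nlinarith
    exact_mod_cast this
  obtain ⟨k1, k2⟩ := near_blk (p i) (pdir p i) q1 q2 hv'
  constructor
  · intro h
    by_contra hn
    exact (k2 hn).notMem (face_out hp hS i) h
  · intro h
    exact (k1 h).mem (face_in hp hS i)

/-- **Size of the enlarged polygon.** -/
theorem enl_box (S : Finset (ℤ × ℤ)) : ∃ R1 : ℝ, 0 < R1 ∧ ∀ n : ℕ, ∀ v ∈ enl S n,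
    (nm v : ℝ) + 1 ≤ R1 * n := by
  have nm0 : ∀ v : ℤ × ℤ, (0 : ℝ) ≤ nm v := fun v => by
    have : (0 : ℤ) ≤ nm v := by
      unfold nm
      positivity
    exact_mod_cast this
  have hsum : (0 : ℝ) ≤ ∑ f ∈ S, (nm f : ℝ) := sum_nonneg fun f _ => nm0 f
  refine ⟨∑ f ∈ S, (nm f : ℝ) + 2, by linarith, fun n v hv => ?_⟩
  obtain ⟨f, hf, h1, h2⟩ := H327.mem_enl.1 hv
  have hfs : (nm f : ℝ) ≤ ∑ f ∈ S, (nm f : ℝ) :=
    single_le_sum (f := fun f : ℤ × ℤ => (nm f : ℝ)) (fun i _ => nm0 _) hf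
  have hn1 : (1 : ℝ) ≤ n := by
    have : 0 < n := by
      rcases Nat.eq_zero_or_pos n with h | h
      · subst h
        norm_num at h1
        omega
      · exact h
    exact_mod_cast this
  have key : ∀ {a b : ℤ}, |b| ≤ nm f → n * b ≤ a → a < n * b + n →
      |(a : ℝ)| + 1 ≤ (∑ f ∈ S, (nm f : ℝ) + 2) * n := by
    intro a b hb u1 u2
    have u1' : (n : ℝ) * b ≤ a := by exact_mod_cast u1
    have u2' : (a : ℝ) < n * b + n := by exact_mod_cast u2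
    have hb' : |(b : ℝ)| ≤ nm f := by exact_mod_cast hb
    rw [abs_le] at hb'
    have h3 : |(a : ℝ)| ≤ (nm f + 1) * n := by
      rw [abs_le]
      constructor
      · nlinarith [hb'.1]
      · nlinarith [hb'.2]
    nlinarith
  have e1 : (nm v : ℝ) = max |(v.1 : ℝ)| |(v.2 : ℝ)| := by
    simp [nm]
  rw [e1]
  have k1 := key (le_max_left _ _ : |f.1| ≤ nm f) h1.1 h1.2
  have k2 := key (le_max_right _ _ : |f.2| ≤ nm f) h2.1 h2.2
  rcases max_choice |(v.1 : ℝ)| |(v.2 : ℝ)| with h | h <;> rw [h]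
  · exact k1
  · exact k2

end Vale.Agent.P167.H199
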