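import Vale.Agent.P167.H199.WC

/-!
P167, block START: measurability and integrability of the functionals of walls and flows.
-/

namespace Vale.Agent.P167.H199

open Finset Filter Topology MeasureTheory
open Vale.Agent.P167.H685
open Vale.Agent.P167.H825 (Wall WC dv epos FlowIn)

theorem meas_Xc {S E : Finset Ed} (hSE : S ⊆ E) {a : Ed → Bool → ℝ}
    (ha : ∀ e ∉ E, ∀ b, a e b = 0) : AEStronglyMeasurable (Xc S a) μ := by
  classical
  set FX : ℕ → (ℤ × ℤ → Bool) → ℝ := fun K => (GK E K).indicator (Xc S a) with hFX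
  have hdep : ∀ K, Dep (FX K) (bx K : Set (ℤ × ℤ)) := by
    intro K R R' h
    have : (R ∈ GK E K) = (R' ∈ GK E K) := GK_dep E K R R' h
    by_cases hR : R ∈ GK E K
    · have hR' : R' ∈ GK E K := this ▸ hR
      simp only [hFX]
      rw [Set.indicator_of_mem hR, Set.indicator_of_mem hR']
      exact Xc_dep hSE ha K R hR R' hR' h
    · simp only [hFX]
      rw [Set.indicator_of_notMem hR, Set.indicator_of_notMem (this ▸ hR)]
  refine aestronglyMeasurable_of_tendsto_ae atTop
    (fun K => ((hdep K).measurable).aestronglyMeasurable) ?_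
  filter_upwards [ae_GK s_fin E] with ω hω
  refine tendsto_const_nhds.congr' ?_
  filter_upwards [hω] with K hK
  simp only [hFX]
  rw [Set.indicator_of_mem hK]

theorem int_Xc {S E : Finset Ed} (hSE : S ⊆ E) {a : Ed → Bool → ℝ}
    (ha : ∀ e ∉ E, ∀ b, a e b = 0) : Integrable (Xc S a) μ := by
  refine Integrable.mono' (integrable_const (2 ^ (E.card + S.card) : ℝ)) (meas_Xc hSE ha) ?_
  exact Eventually.of_forall fun ω => by
    rw [Real.norm_eq_abs]
    exact abs_Xc_le ω ha

variable {ι : Type} [Fintype ι]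

theorem ph_zero {W : WC ι} (hc : Fc W) [DecidableEq Ed] {e : Ed}
    (he : e ∉ W.S ∪ Set.Finite.toFinset hc) (b : Bool) : W.ph e b = 0 := by
  have h1 : ∀ i, (W.w i).ph e = 0 := fun i => ph_off fun h =>
    he (mem_union_left _ (mem_S_iff.2 ⟨i, h⟩))
  have h2 : W.c e = 0 := by
    by_contra hn
    exact he (mem_union_right _ ((Set.Finite.mem_toFinset hc).2 hn))
  show ∑ i, (W.w i).ph e b + W.c e / 2 = 0
  rw [sum_eq_zero fun i _ => by rw [h1 i]; rfl, h2]
  simp

/-- **Measurability.** -/
theorem meas_X {W : WC ι} (hc : Fc W) : AEStronglyMeasurable W.X μ := by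
  classical
  exact (meas_Xc (E := W.S ∪ Set.Finite.toFinset hc) subset_union_left
    fun e he b => ph_zero hc he b).const_mul _

/-- **Integrability.** -/
theorem int_X {W : WC ι} (hc : Fc W) : Integrable W.X μ := by
  classical
  exact (int_Xc (E := W.S ∪ Set.Finite.toFinset hc) subset_union_left
    fun e he b => ph_zero hc he b).const_mul _

/-- Deterministic bound. -/
theorem abs_X_le {W : WC ι} (hc : Fc W) : ∃ C : ℝ, ∀ ω, |W.X ω| ≤ C := by
  classical
  refine ⟨(√3)⁻¹ ^ W.S.card * 2 ^ ((W.S ∪ Set.Finite.toFinset hc).card + W.S.card), fun ω => ?_⟩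
  unfold WC.X
  rw [abs_mul, abs_of_nonneg (by positivity)]
  exact mul_le_mul_of_nonneg_left (abs_Xc_le ω fun e he b => ph_zero hc he b) (by positivity)

/-- A flow in a finite domain has a finite support. -/
theorem fin_of_flowIn {D : Finset (ℤ × ℤ)} {κ B : ℝ} {n : ℕ} {c : Ed → ℝ} (hκ : 0 ≤ κ)
    (h : FlowIn D κ B n c) : (Function.support c).Finite := by
  classical
  refine ((D.image Sum.inl ∪ D.image Sum.inr : Finset Ed).finite_toSet).subset fun e he => ?_
  have h0 : nm (0 : ℤ × ℤ) = 0 := by simp [nm]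
  have h1 : epos e ∈ D := h.sup e he _ (by
    rw [sub_self, h0]
    push_cast
    positivity)
  rw [mem_coe, mem_union]
  rcases e with v | v
  · exact Or.inl (mem_image_of_mem _ h1)
  · exact Or.inr (mem_image_of_mem _ h1)

omit [Fintype ι] in
theorem fc_of_flowIn {w : ι → Wall} {D : Finset (ℤ × ℤ)} {κ B : ℝ} {n : ℕ} {c : Ed → ℝ}
    (hκ : 0 ≤ κ) (h : FlowIn D κ B n c) : Fc (⟨w, c⟩ : WC ι) := fin_of_flowIn hκ h

end Vale.Agent.P167.H199
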