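import Vale.Agent.P167.H825.Defs2A

/-!
P167, block 2A: marks on the boundary of a lattice polygon for a box in general position, and the
margins of the sides between the marks.
-/

namespace Vale.Agent.P167.H199

open Finset Filter Topology
open Vale.Agent.P167.E6 (IsPolygon Encloses dir region face pt)
open Vale.Agent.P167.H825 (Marks Box pdir dirOf)

/-- Position of the crossing of a side in direction `r` with the line of coordinate `c`. -/
noncomputable def fr (r : Fin 4) (c : ℝ) : ℝ :=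
  if r = 0 ∨ r = 1 then Int.fract c else 1 - Int.fract c

/-- Coordinate of the first line crossed by sides in direction `r`. -/
noncomputable def lna (b : Box) (r : Fin 4) : ℝ := if r = 0 ∨ r = 2 then b.xl else b.yb

/-- Coordinate of the second line crossed by sides in direction `r`. -/
noncomputable def lnb (b : Box) (r : Fin 4) : ℝ := if r = 0 ∨ r = 2 then b.xr else b.yt

/-- The marks of a side in direction `r`. -/
noncomputable def mth (b : Box) (r : Fin 4) (j : ℕ) : ℝ :=
  if j = 0 then 0 else if j = 1 then min (fr r (lna b r)) (fr r (lnb b r))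
  else if j = 2 then max (fr r (lna b r)) (fr r (lnb b r)) else 1

theorem mth_zero (b : Box) (r : Fin 4) : mth b r 0 = 0 := rfl
theorem mth_one (b : Box) (r : Fin 4) :
    mth b r 1 = min (fr r (lna b r)) (fr r (lnb b r)) := rfl
theorem mth_two (b : Box) (r : Fin 4) :
    mth b r 2 = max (fr r (lna b r)) (fr r (lnb b r)) := rfl
theorem mth_three (b : Box) (r : Fin 4) : mth b r 3 = 1 := rfl

/-- The marks. -/
noncomputable def mks {l : ℕ} (p : ZMod l → ℤ × ℤ) (b : Box) (tp : ℝ) : Marks :=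
  ⟨2, fun i j => mth b (pdir p i) j, tp⟩

/-- A box with sides off the lattice and with different fractional parts. -/
structure Gen (b : Box) : Prop where
  gx : Int.fract b.xl ≠ 0 ∧ Int.fract b.xr ≠ 0 ∧ Int.fract b.xl ≠ Int.fract b.xr
  gy : Int.fract b.yb ≠ 0 ∧ Int.fract b.yt ≠ 0 ∧ Int.fract b.yb ≠ Int.fract b.yt

variable {b : Box}

theorem fr_mem {c : ℝ} (h : Int.fract c ≠ 0) (r : Fin 4) : 0 < fr r c ∧ fr r c < 1 := by
  have h1 := Int.fract_nonneg c
  have h2 := Int.fract_lt_one c
  have h3 := lt_of_le_of_ne h1 (Ne.symm h)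
  unfold fr
  split_ifs
  · exact ⟨h3, h2⟩
  · exact ⟨by linarith, by linarith⟩

theorem fr_ne {c c' : ℝ} (h : Int.fract c ≠ Int.fract c') (r : Fin 4) : fr r c ≠ fr r c' := by
  unfold fr
  split_ifs
  · exact h
  · intro hh
    apply h
    linarith

theorem Gen.na (h : Gen b) (r : Fin 4) : Int.fract (lna b r) ≠ 0 := by
  unfold lna
  split_ifs
  · exact h.gx.1
  · exact h.gy.1

theorem Gen.nb (h : Gen b) (r : Fin 4) : Int.fract (lnb b r) ≠ 0 := by
  unfold lnb
  split_ifs
  · exact h.gx.2.1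
  · exact h.gy.2.1

theorem Gen.nab (h : Gen b) (r : Fin 4) : Int.fract (lna b r) ≠ Int.fract (lnb b r) := by
  unfold lna lnb
  split_ifs
  · exact h.gx.2.2
  · exact h.gy.2.2

theorem mth_lt (h : Gen b) (r : Fin 4) {j : ℕ} (hj : j ≤ 2) : mth b r j < mth b r (j + 1) := by
  have h1 := fr_mem (h.na r) r
  have h2 := fr_mem (h.nb r) r
  have h3 := fr_ne (h.nab r) r
  interval_cases j
  · rw [mth_zero, mth_one]
    exact lt_min h1.1 h2.1
  · rw [mth_one, mth_two]
    exact min_lt_max.2 h3
  · rw [mth_two, mth_three]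
    exact max_lt h1.2 h2.2

/-- Distinct from the base point. -/
theorem fr_ne_tp {c tp : ℝ} (h : ∀ i : ℤ, c ≠ i + tp ∧ c ≠ i - tp) (r : Fin 4) : fr r c ≠ tp := by
  unfold fr
  split_ifs
  · intro hh
    apply (h ⌊c⌋).1
    rw [← hh]
    exact (Int.floor_add_fract c).symm
  · intro hh
    apply (h (⌊c⌋ + 1)).2
    rw [← hh]
    push_cast
    have := Int.floor_add_fract c
    linarith

theorem mks_ok {l : ℕ} (p : ZMod l → ℤ × ℤ) (h : Gen b) {tp : ℝ} (h0 : 0 < tp) (h1 : tp < 1)
    (ht : ∀ i : ℤ, ∀ y ∈ ({b.xl, b.xr, b.yb, b.yt} : Set ℝ), y ≠ i + tp ∧ y ≠ i - tp) :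
    (mks p b tp).Ok := by
  have ha : ∀ r, fr r (lna b r) ≠ tp := by
    intro r
    refine fr_ne_tp (fun i => ht i _ ?_) r
    unfold lna
    split_ifs <;> simp
  have hb : ∀ r, fr r (lnb b r) ≠ tp := by
    intro r
    refine fr_ne_tp (fun i => ht i _ ?_) r
    unfold lnb
    split_ifs <;> simp
  refine ⟨fun i => rfl, fun i => rfl, fun i j hj => mth_lt h _ hj, h0, h1, fun j => ?_⟩
  show mth b (pdir p 0) j ≠ tp
  unfold mth
  split_ifs
  · exact h0.ne
  · rcases min_choice (fr (pdir p 0) (lna b (pdir p 0))) (fr (pdir p 0) (lnb b (pdir p 0)))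
      with hh | hh
    · rw [hh]; exact ha _
    · rw [hh]; exact hb _
  · rcases max_choice (fr (pdir p 0) (lna b (pdir p 0))) (fr (pdir p 0) (lnb b (pdir p 0)))
      with hh | hh
    · rw [hh]; exact ha _
    · rw [hh]; exact hb _
  · exact h1.ne'

/-! ### margins -/

/-- Distance of the lattice lines from the lines of the box. -/
noncomputable def c0 (b : Box) : ℝ :=
  min (min (min (Int.fract b.xl) (1 - Int.fract b.xl)) (min (Int.fract b.xr) (1 - Int.fract b.xr)))
    (min (min (Int.fract b.yb) (1 - Int.fract b.yb)) (min (Int.fract b.yt) (1 - Int.fract b.yt)))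

theorem c0_pos (h : Gen b) : 0 < c0 b := by
  have f : ∀ c : ℝ, Int.fract c ≠ 0 → 0 < min (Int.fract c) (1 - Int.fract c) := fun c hc =>
    lt_min (lt_of_le_of_ne (Int.fract_nonneg c) (Ne.symm hc)) (by linarith [Int.fract_lt_one c])
  exact lt_min (lt_min (f _ h.gx.1) (f _ h.gx.2.1)) (lt_min (f _ h.gy.1) (f _ h.gy.2.1))

/-- An integer is at distance at least `min (fract c) (1 - fract c)` from `c`. -/
theorem int_far (P : ℤ) (c : ℝ) : min (Int.fract c) (1 - Int.fract c) ≤ |(P : ℝ) - c| := by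
  have h1 := Int.floor_add_fract c
  have h2 := Int.fract_nonneg c
  have h3 := Int.fract_lt_one c
  rcases le_or_gt P ⌊c⌋ with h | h
  · have h4 : (P : ℝ) ≤ ⌊c⌋ := by exact_mod_cast h
    refine (min_le_left _ _).trans ?_
    rw [abs_sub_comm]
    exact le_trans (by linarith) (le_abs_self _)
  · have h4 : ((⌊c⌋ + 1 : ℤ) : ℝ) ≤ P := by exact_mod_cast h
    push_cast at h4
    refine (min_le_right _ _).trans ?_
    exact le_trans (by linarith) (le_abs_self _)

/-- A moving coordinate is far from `c` if the time is far from `0`, `1` and the crossing time. -/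
theorem move_far {δ t c : ℝ} (P : ℤ) (r : Fin 4) (h0 : δ ≤ t) (h1 : t ≤ 1 - δ)
    (hc : δ ≤ |t - fr r c|) :
    δ ≤ |(P : ℝ) + t * (if r = 0 ∨ r = 1 then (1 : ℝ) else -1) - c| := by
  have e1 := Int.floor_add_fract c
  have e2 := Int.fract_nonneg c
  have e3 := Int.fract_lt_one c
  unfold fr at hc
  split_ifs at hc ⊢ with hr
  · rcases lt_trichotomy P ⌊c⌋ with h | h | h
    · have h4 : ((P + 1 : ℤ) : ℝ) ≤ ⌊c⌋ := by exact_mod_cast h
      push_cast at h4
      rw [abs_sub_comm]
      exact le_trans (by linarith) (le_abs_self _)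
    · have : (P : ℝ) + t * 1 - c = t - Int.fract c := by
        rw [h]; linarith
      rw [this]
      exact hc
    · have h4 : ((⌊c⌋ + 1 : ℤ) : ℝ) ≤ P := by exact_mod_cast h
      push_cast at h4
      exact le_trans (by linarith) (le_abs_self _)
  · rcases lt_trichotomy P (⌊c⌋ + 1) with h | h | h
    · have h4 : (P : ℝ) ≤ ⌊c⌋ := by exact_mod_cast (by omega : P ≤ ⌊c⌋)
      rw [abs_sub_comm]
      exact le_trans (by linarith) (le_abs_self _)
    · have : (P : ℝ) + t * -1 - c = -(t - (1 - Int.fract c)) := by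
        rw [h]; push_cast; linarith
      rw [this, abs_neg]
      exact hc
    · have h4 : ((⌊c⌋ + 2 : ℤ) : ℝ) ≤ P := by exact_mod_cast (by omega : ⌊c⌋ + 2 ≤ P)
      push_cast at h4
      exact le_trans (by linarith) (le_abs_self _)

/-- Times between two consecutive marks are far from all the marks. -/
theorem mth_far (h : Gen b) (r : Fin 4) {j : ℕ} (hj : j ≤ 2) {δ t : ℝ}
    (h1 : mth b r j + δ ≤ t) (h2 : t ≤ mth b r (j + 1) - δ) :
    δ ≤ t ∧ t ≤ 1 - δ ∧ δ ≤ |t - fr r (lna b r)| ∧ δ ≤ |t - fr r (lnb b r)| := by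
  have l0 := mth_lt h r (j := 0) (by norm_num)
  have l1 := mth_lt h r (j := 1) (by norm_num)
  have l2 := mth_lt h r (j := 2) (by norm_num)
  rw [mth_zero] at l0
  rw [show (2 : ℕ) + 1 = 3 from rfl, mth_three] at l2
  have low : 0 ≤ mth b r j := by
    interval_cases j
    · exact le_rfl
    · exact l0.le
    · exact (l0.trans l1).le
  have hig : mth b r (j + 1) ≤ 1 := by
    interval_cases j
    · exact (l1.trans l2).le
    · exact l2.le
    · exact le_rfl
  -- distance from the two inner marks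
  have key : δ ≤ |t - mth b r 1| ∧ δ ≤ |t - mth b r 2| := by
    interval_cases j
    · constructor
      · rw [abs_sub_comm]
        exact le_trans (by norm_num at h2; linarith) (le_abs_self _)
      · rw [abs_sub_comm]
        exact le_trans (by norm_num at h2 l1; linarith) (le_abs_self _)
    · constructor
      · exact le_trans (by linarith) (le_abs_self _)
      · rw [abs_sub_comm]
        exact le_trans (by norm_num at h2; linarith) (le_abs_self _)
    · constructor
      · exact le_trans (by norm_num at l1; linarith) (le_abs_self _)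
      · exact le_trans (by linarith) (le_abs_self _)
  refine ⟨by linarith, by linarith, ?_⟩
  rw [mth_one, mth_two] at key
  rcases le_total (fr r (lna b r)) (fr r (lnb b r)) with hh | hh
  · rw [min_eq_left hh, max_eq_right hh] at key
    exact key
  · rw [min_eq_right hh, max_eq_left hh] at key
    exact ⟨key.2, key.1⟩

/-- The point at the position `t` of a side which starts at `P` in direction `r`. -/
noncomputable def sp (P : ℤ × ℤ) (r : Fin 4) (t : ℝ) : ℝ × ℝ :=
  (P.1 + t * (dir r).1, P.2 + t * (dir r).2)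

/-- **Margins.** -/
theorem sp_far (h : Gen b) (P : ℤ × ℤ) (r : Fin 4) {j : ℕ} (hj : j ≤ 2) {δ t : ℝ}
    (h1 : mth b r j + δ ≤ t) (h2 : t ≤ mth b r (j + 1) - δ) :
    min δ (c0 b) ≤ |(sp P r t).1 - b.xl| ∧ min δ (c0 b) ≤ |(sp P r t).1 - b.xr| ∧
      min δ (c0 b) ≤ |(sp P r t).2 - b.yb| ∧ min δ (c0 b) ≤ |(sp P r t).2 - b.yt| := by
  obtain ⟨k1, k2, k3, k4⟩ := mth_far h r hj h1 h2
  have a1 := move_far P.1 r k1 k2 k3
  have a2 := move_far P.1 r k1 k2 k4
  have a3 := move_far P.2 r k1 k2 k3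
  have a4 := move_far P.2 r k1 k2 k4
  have c1 : c0 b ≤ |(P.1 : ℝ) - b.xl| :=
    ((min_le_left _ _).trans (min_le_left _ _)).trans (int_far _ _)
  have c2 : c0 b ≤ |(P.1 : ℝ) - b.xr| :=
    ((min_le_left _ _).trans (min_le_right _ _)).trans (int_far _ _)
  have c3 : c0 b ≤ |(P.2 : ℝ) - b.yb| :=
    ((min_le_right _ _).trans (min_le_left _ _)).trans (int_far _ _)
  have c4 : c0 b ≤ |(P.2 : ℝ) - b.yt| :=
    ((min_le_right _ _).trans (min_le_right _ _)).trans (int_far _ _)
  have ml := min_le_left δ (c0 b)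
  have mr := min_le_right δ (c0 b)
  fin_cases r
  · simp only [sp, dir, lna, lnb] at a1 a2 ⊢
    simp at a1 a2 ⊢
    exact ⟨Or.inl a1, Or.inl a2, Or.inr c3, Or.inr c4⟩
  · simp only [sp, dir, lna, lnb] at a3 a4 ⊢
    simp at a3 a4 ⊢
    exact ⟨Or.inr c1, Or.inr c2, Or.inl a3, Or.inl a4⟩
  · simp only [sp, dir, lna, lnb] at a1 a2 ⊢
    simp at a1 a2 ⊢
    exact ⟨Or.inl a1, Or.inl a2, Or.inr c3, Or.inr c4⟩
  · simp only [sp, dir, lna, lnb] at a3 a4 ⊢
    simp at a3 a4 ⊢
    exact ⟨Or.inr c1, Or.inr c2, Or.inl a3, Or.inl a4⟩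

end Vale.Agent.P167.H199
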