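import Vale.Agent.P167.H199.Mk
import Vale.Agent.P167.H680.Split
import Vale.Agent.P167.CA.Cell

/-!
P167, block 2A: the region of a wall of the polygon.
-/

namespace Vale.Agent.P167.H199

open Finset Filter Topology
open Vale.Agent.P167.E6 (IsPolygon Encloses dir region face pt)
open Vale.Agent.P167.H825 (Marks Box pdir dirOf domP)
open Vale.Agent.P167.H680 (Mg Rg)

variable {b : Box}

/-- Region of a point: left, above, right, below, centre. -/
noncomputable def rg (b : Box) (X : ℝ × ℝ) : Fin 5 :=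
  if X.1 < b.xl then 0 else if b.yt < X.2 then 1 else if b.xr < X.1 then 2
  else if X.2 < b.yb then 3 else 4

/-- The point is in the region `i`, at distance at least `κ` from the lines. -/
def MgR (b : Box) (κ : ℝ) (i : Fin 5) (X : ℝ × ℝ) : Prop :=
  ![X.1 + κ ≤ b.xl,
    b.xl + κ ≤ X.1 ∧ b.yt + κ ≤ X.2,
    b.xr + κ ≤ X.1 ∧ X.2 + κ ≤ b.yt,
    b.xl + κ ≤ X.1 ∧ X.1 + κ ≤ b.xr ∧ X.2 + κ ≤ b.yb,
    b.xl + κ ≤ X.1 ∧ X.1 + κ ≤ b.xr ∧ b.yb + κ ≤ X.2 ∧ X.2 + κ ≤ b.yt] i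

theorem of_abs {κ x c : ℝ} (h : κ ≤ |x - c|) (hx : ¬ x < c) : c + κ ≤ x := by
  rw [abs_of_nonneg (by linarith [not_lt.1 hx])] at h
  linarith

theorem of_abs' {κ x c : ℝ} (h : κ ≤ |x - c|) (hx : ¬ c < x) : x + κ ≤ c := by
  rw [abs_of_nonpos (by linarith [not_lt.1 hx])] at h
  linarith

theorem mgR_rg {κ : ℝ} {X : ℝ × ℝ} (h1 : κ ≤ |X.1 - b.xl|) (h2 : κ ≤ |X.1 - b.xr|)
    (h3 : κ ≤ |X.2 - b.yb|) (h4 : κ ≤ |X.2 - b.yt|) :
    MgR b κ (rg b X) X := by
  unfold rg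
  split_ifs with a1 a2 a3 a4
  · exact of_abs' h1 (not_lt.2 a1.le)
  · exact ⟨of_abs h1 a1, of_abs h4 (not_lt.2 a2.le)⟩
  · exact ⟨of_abs h2 (not_lt.2 a3.le), of_abs' h4 a2⟩
  · exact ⟨of_abs h1 a1, of_abs' h2 a3, of_abs' h3 (not_lt.2 a4.le)⟩
  · exact ⟨of_abs h1 a1, of_abs' h2 a3, of_abs h3 a4, of_abs' h4 a2⟩

theorem MgR.mg {κ : ℝ} {i : Fin 5} {X : ℝ × ℝ} {n : ℕ} {v : ℤ × ℤ} {C : ℝ}
    (h : MgR b κ i X) (h1 : |(v.1 : ℝ) - n * X.1| ≤ C)
    (h2 : |(v.2 : ℝ) - n * X.2| ≤ C) (hn : 2 * C ≤ κ * n) : Mg b (κ / 2) n i v := by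
  have hn0 : (0 : ℝ) ≤ n := Nat.cast_nonneg n
  rw [abs_le] at h1 h2
  have m : ∀ {u w : ℝ}, u ≤ w → u * n ≤ w * n := fun hh => mul_le_mul_of_nonneg_right hh hn0
  fin_cases i
  · have e1 := m (show X.1 + κ ≤ b.xl from h)
    show (v.1 : ℝ) + κ / 2 * n ≤ b.xl * n
    nlinarith [h1.1, h1.2]
  · have e1 := m (show b.xl + κ ≤ X.1 from h.1)
    have e2 := m (show b.yt + κ ≤ X.2 from h.2)
    refine ⟨?_, ?_⟩
    · show b.xl * n + κ / 2 * n ≤ v.1
      nlinarith [h1.1, h1.2]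
    · show b.yt * n + κ / 2 * n ≤ v.2
      nlinarith [h2.1, h2.2]
  · have e1 := m (show b.xr + κ ≤ X.1 from h.1)
    have e2 := m (show X.2 + κ ≤ b.yt from h.2)
    refine ⟨?_, ?_⟩
    · show b.xr * n + κ / 2 * n ≤ v.1
      nlinarith [h1.1, h1.2]
    · show (v.2 : ℝ) + κ / 2 * n ≤ b.yt * n
      nlinarith [h2.1, h2.2]
  · have e1 := m (show b.xl + κ ≤ X.1 from h.1)
    have e2 := m (show X.1 + κ ≤ b.xr from h.2.1)
    have e3 := m (show X.2 + κ ≤ b.yb from h.2.2)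
    refine ⟨?_, ?_, ?_⟩
    · show b.xl * n + κ / 2 * n ≤ v.1
      nlinarith [h1.1, h1.2]
    · show (v.1 : ℝ) + κ / 2 * n ≤ b.xr * n
      nlinarith [h1.1, h1.2]
    · show (v.2 : ℝ) + κ / 2 * n ≤ b.yb * n
      nlinarith [h2.1, h2.2]
  · have e1 := m (show b.xl + κ ≤ X.1 from h.1)
    have e2 := m (show X.1 + κ ≤ b.xr from h.2.1)
    have e3 := m (show b.yb + κ ≤ X.2 from h.2.2.1)
    have e4 := m (show X.2 + κ ≤ b.yt from h.2.2.2)
    refine ⟨?_, ?_, ?_, ?_⟩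
    · show b.xl * n + κ / 2 * n ≤ v.1
      nlinarith [h1.1, h1.2]
    · show (v.1 : ℝ) + κ / 2 * n ≤ b.xr * n
      nlinarith [h1.1, h1.2]
    · show b.yb * n + κ / 2 * n ≤ v.2
      nlinarith [h2.1, h2.2]
    · show (v.2 : ℝ) + κ / 2 * n ≤ b.yt * n
      nlinarith [h2.1, h2.2]

/-! ### the region does not change between two marks -/

theorem same_sign {f : ℝ → ℝ} (hf : Continuous f) {s t : ℝ}
    (h : ∀ u ∈ Set.uIcc s t, f u ≠ 0) : f s < 0 ↔ f t < 0 := by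
  have key : ∀ {s t : ℝ}, (∀ u ∈ Set.uIcc s t, f u ≠ 0) → f s < 0 → f t < 0 := by
    intro s t h hs
    by_contra ht
    have h0 : (0 : ℝ) ∈ Set.uIcc (f s) (f t) := Set.mem_uIcc.2 (Or.inl ⟨hs.le, not_lt.1 ht⟩)
    obtain ⟨u, hu, hu0⟩ := intermediate_value_uIcc hf.continuousOn h0
    exact h u hu hu0
  exact ⟨key h, key fun u hu => h u (by rwa [Set.uIcc_comm])⟩

theorem cont_sp1 (P : ℤ × ℤ) (r : Fin 4) : Continuous fun t => (sp P r t).1 := by
  unfold sp
  fun_prop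

theorem cont_sp2 (P : ℤ × ℤ) (r : Fin 4) : Continuous fun t => (sp P r t).2 := by
  unfold sp
  fun_prop

theorem rg_const (h : Gen b) (P : ℤ × ℤ) (r : Fin 4) {j : ℕ} (hj : j ≤ 2) {s t : ℝ}
    (s1 : mth b r j < s) (s2 : s < mth b r (j + 1)) (t1 : mth b r j < t)
    (t2 : t < mth b r (j + 1)) : rg b (sp P r s) = rg b (sp P r t) := by
  have hne : ∀ u ∈ Set.uIcc s t, (sp P r u).1 ≠ b.xl ∧ (sp P r u).1 ≠ b.xr ∧
      (sp P r u).2 ≠ b.yb ∧ (sp P r u).2 ≠ b.yt := by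
    intro u hu
    have u1 : mth b r j < u := (lt_min s1 t1).trans_le hu.1
    have u2 : u < mth b r (j + 1) := lt_of_le_of_lt hu.2 (max_lt s2 t2)
    set δ := min (u - mth b r j) (mth b r (j + 1) - u) with hδ
    have hδ0 : 0 < δ := lt_min (by linarith) (by linarith)
    have d1 : δ ≤ u - mth b r j := min_le_left _ _
    have d2 : δ ≤ mth b r (j + 1) - u := min_le_right _ _
    have k := sp_far h P r hj (δ := δ) (t := u) (by linarith) (by linarith)
    have k0 : 0 < min δ (c0 b) := lt_min hδ0 (c0_pos h)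
    have e : ∀ {x c : ℝ}, min δ (c0 b) ≤ |x - c| → x ≠ c := by
      intro x c hh he
      rw [he, sub_self, abs_zero] at hh
      linarith
    exact ⟨e k.1, e k.2.1, e k.2.2.1, e k.2.2.2⟩
  have q1 : (sp P r s).1 < b.xl ↔ (sp P r t).1 < b.xl := by
    have := same_sign (f := fun u => (sp P r u).1 - b.xl) ((cont_sp1 P r).sub continuous_const)
      (s := s) (t := t) fun u hu => sub_ne_zero.2 (hne u hu).1
    simpa using this
  have q2 : b.xr < (sp P r s).1 ↔ b.xr < (sp P r t).1 := by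
    have := same_sign (f := fun u => b.xr - (sp P r u).1) (continuous_const.sub (cont_sp1 P r))
      (s := s) (t := t) fun u hu => sub_ne_zero.2 (Ne.symm (hne u hu).2.1)
    simpa using this
  have q3 : (sp P r s).2 < b.yb ↔ (sp P r t).2 < b.yb := by
    have := same_sign (f := fun u => (sp P r u).2 - b.yb) ((cont_sp2 P r).sub continuous_const)
      (s := s) (t := t) fun u hu => sub_ne_zero.2 (hne u hu).2.2.1
    simpa using this
  have q4 : b.yt < (sp P r s).2 ↔ b.yt < (sp P r t).2 := by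
    have := same_sign (f := fun u => b.yt - (sp P r u).2) (continuous_const.sub (cont_sp2 P r))
      (s := s) (t := t) fun u hu => sub_ne_zero.2 (Ne.symm (hne u hu).2.2.2)
    simpa using this
  unfold rg
  simp only [q1, q2, q3, q4]

/-! ### polygons -/

theorem dirOf_dir (r : Fin 4) : dirOf (dir r) = r := by
  fin_cases r <;> rfl

variable {l : ℕ} {p : ZMod l → ℤ × ℤ} {S₀ : Finset (ℤ × ℤ)}

theorem pdir_spec (hp : IsPolygon p) (i : ℕ) : p ((i : ZMod l) + 1) = p i + dir (pdir p i) := by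
  obtain ⟨r, hr⟩ := hp.2.2 i
  rw [hr]
  congr 2
  unfold pdir
  rw [hr, add_sub_cancel_left, dirOf_dir]

theorem face_in (hp : IsPolygon p) (hS : Encloses p S₀) (i : ℕ) :
    face (p i) (pdir p i) ∈ S₀ := ((hS _ _).1 ⟨i, rfl, pdir_spec hp i⟩).1

theorem face_out (hp : IsPolygon p) (hS : Encloses p S₀) (i : ℕ) :
    face (p i) (pdir p i - 1) ∉ S₀ := ((hS _ _).1 ⟨i, rfl, pdir_spec hp i⟩).2

/-- The sides are in the closed right faces. -/
theorem sp_face (P : ℤ × ℤ) (r : Fin 4) {t : ℝ} (h0 : 0 ≤ t) (h1 : t ≤ 1) :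
    ((face P (r - 1)).1 : ℝ) ≤ (sp P r t).1 ∧ (sp P r t).1 ≤ (face P (r - 1)).1 + 1 ∧
      ((face P (r - 1)).2 : ℝ) ≤ (sp P r t).2 ∧ (sp P r t).2 ≤ (face P (r - 1)).2 + 1 := by
  fin_cases r
  · have e : face P ((0 : Fin 4) - 1) = (P.1, P.2 - 1) := by
      simp [face, show (0 : Fin 4) - 1 = 3 from rfl, Prod.ext_iff]; ring
    simp only [Fin.zero_eta, Fin.isValue, e]
    simp only [sp, dir]
    push_cast
    refine ⟨?_, ?_, ?_, ?_⟩ <;> simp <;> linarith
  · have e : face P ((1 : Fin 4) - 1) = (P.1, P.2) := by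
      simp [face, Prod.ext_iff]
    simp only [Fin.mk_one, Fin.isValue, e]
    simp only [sp, dir]
    refine ⟨?_, ?_, ?_, ?_⟩ <;> simp <;> linarith
  · have e : face P ((2 : Fin 4) - 1) = (P.1 - 1, P.2) := by
      simp [face, show (2 : Fin 4) - 1 = 1 from rfl, Prod.ext_iff]; ring
    simp only [Fin.reduceFinMk, Fin.isValue, e]
    simp only [sp, dir]
    push_cast
    refine ⟨?_, ?_, ?_, ?_⟩ <;> simp <;> linarith
  · have e : face P ((3 : Fin 4) - 1) = (P.1 - 1, P.2 - 1) := by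
      simp [face, show (3 : Fin 4) - 1 = 2 from rfl, Prod.ext_iff]; constructor <;> ring
    simp only [Fin.reduceFinMk, Fin.isValue, e]
    simp only [sp, dir]
    push_cast
    refine ⟨?_, ?_, ?_, ?_⟩ <;> simp <;> linarith

/-- The points of the sides are not in the open domain. -/
theorem sp_notMem (hp : IsPolygon p) (hS : Encloses p S₀) (i : ℕ) {t : ℝ} (h0 : 0 ≤ t)
    (h1 : t ≤ 1) : sp (p i) (pdir p i) t ∉ domP S₀ := by
  intro h
  obtain ⟨a, b, c, d⟩ := sp_face (p i) (pdir p i) h0 h1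
  exact face_out hp hS i (CA.mem_of_interior h a b c d)

/-- The region of the wall `j` of the side `i`. -/
noncomputable def reg (p : ZMod l → ℤ × ℤ) (b : Box) (i j : ℕ) : Fin 5 :=
  rg b (sp (p i) (pdir p i) ((mth b (pdir p i) j + mth b (pdir p i) (j + 1)) / 2))

theorem reg_eq (h : Gen b) (i : ℕ) {j : ℕ} (hj : j ≤ 2) {t : ℝ}
    (h1 : mth b (pdir p i) j < t) (h2 : t < mth b (pdir p i) (j + 1)) :
    rg b (sp (p i) (pdir p i) t) = reg p b i j := by
  have := mth_lt h (pdir p i) hj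
  exact rg_const h _ _ hj h1 h2 (by linarith) (by linarith)

theorem mth_mem (h : Gen b) (r : Fin 4) {j : ℕ} (hj : j ≤ 3) :
    0 ≤ mth b r j ∧ mth b r j ≤ 1 := by
  have l0 := mth_lt h r (j := 0) (by norm_num)
  have l1 := mth_lt h r (j := 1) (by norm_num)
  have l2 := mth_lt h r (j := 2) (by norm_num)
  norm_num at l0 l1 l2
  have e0 := mth_zero b r
  have e3 := mth_three b r
  interval_cases j
  · constructor <;> linarith
  · constructor <;> linarith
  · constructor <;> linarith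
  · constructor <;> linarith

/-- The points between the marks are in the region, with margins. -/
theorem mgR_reg (h : Gen b) (i : ℕ) {j : ℕ} (hj : j ≤ 2) {δ t : ℝ}
    (hδ : 0 < δ) (h1 : mth b (pdir p i) j + δ ≤ t) (h2 : t ≤ mth b (pdir p i) (j + 1) - δ) :
    MgR b (min δ (c0 b)) (reg p b i j) (sp (p i) (pdir p i) t) := by
  rw [← reg_eq (p := p) h i hj (t := t) (by linarith) (by linarith)]
  obtain ⟨k1, k2, k3, k4⟩ := sp_far h (p i) (pdir p i) hj h1 h2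
  exact mgR_rg k1 k2 k3 k4

/-- The walls are not in the centre. -/
theorem reg_ne (h : Gen b) (hp : IsPolygon p) (hS : Encloses p S₀)
    (hb : ∀ x : ℝ × ℝ, b.xl ≤ x.1 → x.1 ≤ b.xr → b.yb ≤ x.2 → x.2 ≤ b.yt → x ∈ domP S₀)
    (i : ℕ) {j : ℕ} (hj : j ≤ 2) : reg p b i j ≠ 4 := by
  intro hr
  have hlt := mth_lt h (pdir p i) hj
  have m1 := mth_mem h (pdir p i) (j := j) (by omega)
  have m2 := mth_mem h (pdir p i) (j := j + 1) (by omega)
  refine sp_notMem hp hS i (t := (mth b (pdir p i) j + mth b (pdir p i) (j + 1)) / 2)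
    (by linarith [m1.1, m2.1]) (by linarith [m1.2, m2.2]) ?_
  unfold reg rg at hr
  split_ifs at hr with a1 a2 a3 a4
  all_goals first
    | exact absurd hr (by decide)
    | exact hb _ (not_lt.1 a1) (not_lt.1 a3) (not_lt.1 a4) (not_lt.1 a2)

end Vale.Agent.P167.H199
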