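import Vale.Agent.P167.H199.CovPlane

/-!
P167, block PLID, part 8: `IsOm (√3) om`.
-/

namespace Vale.Agent.P167.H199

open Finset Filter Topology MeasureTheory
open Vale.Agent.P167.A (Grid plane torus red redE)
open Vale.Agent.P167.H685
open Vale.Agent.P167.H592
open Vale.Agent.P152 (Edge Ori vw wt)

/-- Expansion of a local function in phases. -/
theorem expandF {Λ : Finset Ed} {F : HO (ℤ × ℤ) → ℂ}
    (hF : ∀ ω ω' : HO (ℤ × ℤ), (∀ e ∈ Λ, ω e = ω' e) → F ω = F ω') :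
    ∃ (k : (Λ → Bool → Bool) → Finset (Ed × Bool) → ℂ),
      F = fun ω => ∑ η : Λ → Bool → Bool, ∑ T ∈ (Λ ×ˢ (univ : Finset Bool)).powerset,
        k η T * phF Λ (aT T) ω := by
  classical
  let ex : (Λ → Bool → Bool) → HO (ℤ × ℤ) := fun η e => if h : e ∈ Λ then η ⟨e, h⟩ else fun _ => false
  have hex : ∀ ω : HO (ℤ × ℤ), F ω = ∑ η : Λ → Bool → Bool, F (ex η) *
      ∏ x ∈ Λ ×ˢ (univ : Finset Bool), ((sn (ex η x.1 x.2) / 2 : ℝ) * (-Complex.I) *
        Complex.exp (Complex.I * ((Real.pi / 2 * sn (ω x.1 x.2) : ℝ) : ℂ)) + (1 / 2 : ℂ)) := by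
    intro ω
    have h1 : ∀ η : Λ → Bool → Bool, ∏ x ∈ Λ ×ˢ (univ : Finset Bool),
        ((sn (ex η x.1 x.2) / 2 : ℝ) * (-Complex.I) *
        Complex.exp (Complex.I * ((Real.pi / 2 * sn (ω x.1 x.2) : ℝ) : ℂ)) + (1 / 2 : ℂ)) =
        if ∀ x ∈ Λ ×ˢ (univ : Finset Bool), ω x.1 x.2 = ex η x.1 x.2 then 1 else 0 := by
      intro η
      have h2 : ∀ x : Ed × Bool, ((sn (ex η x.1 x.2) / 2 : ℝ) * (-Complex.I) *
        Complex.exp (Complex.I * ((Real.pi / 2 * sn (ω x.1 x.2) : ℝ) : ℂ)) + (1 / 2 : ℂ)) =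
        if ω x.1 x.2 = ex η x.1 x.2 then 1 else 0 := by
        intro x
        rw [add_comm, ind_sn]
      simp only [h2]
      split_ifs with h
      · exact prod_eq_one fun x hx => if_pos (h x hx)
      · push Not at h
        obtain ⟨x, hx, hne⟩ := h
        exact prod_eq_zero hx (if_neg hne)
    simp only [h1]
    rw [sum_eq_single (fun e : Λ => ω e)]
    · have h3 : ∀ e ∈ Λ, ω e = ex (fun e : Λ => ω e) e := by
        intro e he
        simp only [ex, dif_pos he]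
      rw [if_pos, mul_one]
      · exact hF _ _ h3
      · intro x hx
        rw [mem_product] at hx
        rw [← h3 x.1 hx.1]
    · intro η _ hη
      rw [if_neg, mul_zero]
      intro h
      apply hη
      funext e b
      have := h (e, b) (mem_product.2 ⟨e.2, mem_univ _⟩)
      simp only [ex, e.2, dite_true] at this
      exact this.symm
    · intro h
      exact absurd (mem_univ _) h
  refine ⟨fun η T => F (ex η) * ((∏ x ∈ T, ((sn (ex η x.1 x.2) / 2 : ℝ) * (-Complex.I) : ℂ)) *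
        ∏ _x ∈ (Λ ×ˢ (univ : Finset Bool)) \ T, (1 / 2 : ℂ)), ?_⟩
  funext ω
  rw [hex ω]
  refine sum_congr rfl fun η _ => ?_
  rw [prod_add, mul_sum]
  refine sum_congr rfl fun T hT => ?_
  rw [mem_powerset] at hT
  rw [prod_mul_distrib, phF_aT hT]
  ring

/-- `z` is the limit of the insertion on the skew tori. -/
def LimK (c : ℝ) (S : Finset Ed) (F : HO (ℤ × ℤ) → ℂ) (z : ℂ) : Prop :=
  ∀ ε > 0, ∃ N : ℕ, ∀ (M L : ℕ) [NeZero M] [NeZero L], Even M → Even L → N ≤ M → N ≤ L →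
    ‖tv (V := ZMod M × ZMod L) c (1, 0) (-1, 1) S F - z‖ ≤ ε

theorem limK_phF {S E : Finset Ed} (hSE : S ⊆ E) {a : Ed → Bool → ℝ}
    (ha : ∀ e ∉ E, ∀ b, a e b = 0) :
    LimK (√3) S (phF E a) ((∫ ω, Xc S a ω ∂μ : ℝ) : ℂ) := by
  intro ε hε
  obtain ⟨N, hN⟩ := cut_limK hSE ha ε hε
  refine ⟨N, fun M L _ _ hM hL h1 h2 => ?_⟩
  rw [tvK_phF hM, ← Complex.ofReal_sub, Complex.norm_real, Real.norm_eq_abs]
  exact hN M L hM hL h1 h2

theorem LimK.add {c : ℝ} {S : Finset Ed} {F F' : HO (ℤ × ℤ) → ℂ} {z z' : ℂ}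
    (h : LimK c S F z) (h' : LimK c S F' z') : LimK c S (fun ω => F ω + F' ω) (z + z') := by
  intro ε hε
  obtain ⟨N, hN⟩ := h (ε / 2) (by positivity)
  obtain ⟨N', hN'⟩ := h' (ε / 2) (by positivity)
  refine ⟨max N N', fun M L _ _ hM hL h1 h2 => ?_⟩
  have a1 := hN M L hM hL ((le_max_left _ _).trans h1) ((le_max_left _ _).trans h2)
  have a2 := hN' M L hM hL ((le_max_right _ _).trans h1) ((le_max_right _ _).trans h2)
  have e : tv (V := ZMod M × ZMod L) c (1, 0) (-1, 1) S (fun ω => F ω + F' ω) - (z + z') =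
      (tv (V := ZMod M × ZMod L) c (1, 0) (-1, 1) S F - z) +
      (tv (V := ZMod M × ZMod L) c (1, 0) (-1, 1) S F' - z') := by
    unfold tv
    rw [zv_add]
    ring
  rw [e]
  calc _ ≤ _ := norm_add_le _ _
    _ ≤ ε / 2 + ε / 2 := add_le_add a1 a2
    _ = ε := by ring

theorem LimK.mul {c : ℝ} {S : Finset Ed} {F : HO (ℤ × ℤ) → ℂ} {z : ℂ}
    (h : LimK c S F z) (k : ℂ) : LimK c S (fun ω => k * F ω) (k * z) := by
  intro ε hε
  have hk : 0 < ‖k‖ + 1 := by positivity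
  obtain ⟨N, hN⟩ := h (ε / (‖k‖ + 1)) (by positivity)
  refine ⟨N, fun M L _ _ hM hL h1 h2 => ?_⟩
  have a1 := hN M L hM hL h1 h2
  have e : tv (V := ZMod M × ZMod L) c (1, 0) (-1, 1) S (fun ω => k * F ω) - k * z =
      k * (tv (V := ZMod M × ZMod L) c (1, 0) (-1, 1) S F - z) := by
    unfold tv
    rw [zv_mul]
    ring
  rw [e, norm_mul]
  calc ‖k‖ * _ ≤ (‖k‖ + 1) * (ε / (‖k‖ + 1)) :=
        mul_le_mul (by linarith) a1 (norm_nonneg _) hk.le
    _ = ε := by field_simp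

theorem LimK.zero (c : ℝ) (S : Finset Ed) : LimK c S (fun _ => 0) 0 := by
  intro ε hε
  refine ⟨0, fun M L _ _ _ _ _ _ => ?_⟩
  have : tv (V := ZMod M × ZMod L) c (1, 0) (-1, 1) S (fun _ => 0) = 0 := by
    unfold tv zv
    simp
  rw [this, sub_zero, norm_zero]
  exact hε.le

/-- Common limit of both families. -/
def LimB (c : ℝ) (S : Finset Ed) (F : HO (ℤ × ℤ) → ℂ) (z : ℂ) : Prop :=
  LimS c S F z ∧ LimK c S F z

theorem LimB.sum {c : ℝ} {S : Finset Ed} {ι : Type*} (s : Finset ι)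
    {F : ι → HO (ℤ × ℤ) → ℂ} (h : ∀ i ∈ s, ∃ z, LimB c S (F i) z) :
    ∃ z, LimB c S (fun ω => ∑ i ∈ s, F i ω) z := by
  classical
  induction s using Finset.induction_on with
  | empty =>
    refine ⟨0, ?_, ?_⟩
    · simpa using LimS.zero c S
    · simpa using LimK.zero c S
  | insert i s hi ih =>
    obtain ⟨z, hz⟩ := h i (mem_insert_self _ _)
    obtain ⟨z', hz'⟩ := ih fun j hj => h j (mem_insert_of_mem hj)
    refine ⟨z + z', ?_⟩
    have e : (fun ω => ∑ j ∈ insert i s, F j ω) = fun ω => F i ω + ∑ j ∈ s, F j ω := by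
      funext ω
      rw [sum_insert hi]
    rw [e]
    exact ⟨hz.1.add hz'.1, hz.2.add hz'.2⟩

theorem limB_local {S : Finset Ed} {Λ : Finset Ed} (hS : S ⊆ Λ) {F : HO (ℤ × ℤ) → ℂ}
    (hF : ∀ ω ω' : HO (ℤ × ℤ), (∀ e ∈ Λ, ω e = ω' e) → F ω = F ω') :
    ∃ z, LimB (√3) S F z := by
  classical
  obtain ⟨k, hk⟩ := expandF hF
  subst hk
  refine LimB.sum _ fun η _ => LimB.sum _ fun T hT => ?_
  rw [mem_powerset] at hT
  have ha : ∀ e ∉ Λ, ∀ b, aT T e b = 0 := fun e he b => by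
    unfold aT
    rw [if_neg]
    intro h
    exact he (mem_product.1 (hT h)).1
  exact ⟨_, (limS_phF hS ha).mul _, (limK_phF hS ha).mul _⟩

/-- **The functional of the insertions exists**; its values on the phase insertions are percolation
expectations. -/
theorem exists_isOm : ∃ om : Ins → ℂ, IsOm (√3) om ∧
    ∀ (S E : Finset Ed) (a : Ed → Bool → ℝ), S ⊆ E → (∀ e ∉ E, ∀ b, a e b = 0) →
      om ⟨S, phF E a⟩ = ((∫ ω, Xc S a ω ∂μ : ℝ) : ℂ) := by
  classical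
  let om : Ins → ℂ := fun A => if h : ∃ z, LimB (√3) A.S A.F z then h.choose else 0
  have h1 : ∀ A : Ins, LI Set.univ A → LimB (√3) A.S A.F (om A) := by
    rintro A ⟨Λ, _, hS, hF⟩
    have h : ∃ z, LimB (√3) A.S A.F z := limB_local hS hF
    simp only [om]
    rw [dif_pos h]
    exact h.choose_spec
  refine ⟨om, ⟨fun A hA => (h1 A hA).1, fun A hA => (h1 A hA).2⟩, ?_⟩
  intro S E a hSE ha
  have h2 : LimB (√3) S (phF E a) ((∫ ω, Xc S a ω ∂μ : ℝ) : ℂ) :=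
    ⟨limS_phF hSE ha, limK_phF hSE ha⟩
  have h : ∃ z, LimB (√3) S (phF E a) z := ⟨_, h2⟩
  have h3 : LimB (√3) S (phF E a) (om ⟨S, phF E a⟩) := by
    simp only [om]
    rw [dif_pos h]
    exact h.choose_spec
  exact h3.1.unique h2.1

/-- The value of any such functional on the phase insertions. -/
theorem isOm_phF {om : Ins → ℂ} (hom : IsOm (√3) om) {S E : Finset Ed} (hSE : S ⊆ E)
    {a : Ed → Bool → ℝ} (ha : ∀ e ∉ E, ∀ b, a e b = 0) :
    om ⟨S, phF E a⟩ = ((∫ ω, Xc S a ω ∂μ : ℝ) : ℂ) := by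
  have hdep : ∀ ω ω' : HO (ℤ × ℤ), (∀ e ∈ E, ω e = ω' e) → phF E a ω = phF E a ω' := by
    intro ω ω' hh
    have h2 : ∑ e ∈ E, ∑ b : Bool, a e b * (if ω e b then (1 : ℝ) else -1) =
        ∑ e ∈ E, ∑ b : Bool, a e b * (if ω' e b then (1 : ℝ) else -1) :=
      sum_congr rfl fun e he => by rw [hh e he]
    unfold phF
    rw [h2]
  have hE : ∀ e ∈ E, e ∈ EdT Set.univ := by
    rintro (v | v) _
    · intro i j _ _ _ _
      exact Set.mem_univ _
    · intro i j _ _ _ _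
      exact Set.mem_univ _
  have hLI : LI Set.univ ⟨S, phF E a⟩ := ⟨E, hE, hSE, hdep⟩
  have h1 : LimS (√3) S (phF E a) (om ⟨S, phF E a⟩) := fun ε hε => hom.std _ hLI ε hε
  exact h1.unique (limS_phF hSE ha)

end Vale.Agent.P167.H199
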