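import Vale.Agent.P167.H199.Adm

/-!
P167, block 2A: reflection norms of configurations of walls from the upper bound `HOS`.
-/

namespace Vale.Agent.P167.H199

open Finset Filter Topology MeasureTheory
open Vale.Agent.P167.H592
open Vale.Agent.P167.H825 (Wall WC dv epos gX gY gD gA GDir HOS Sys os)
open Vale.Agent.P152 (Edge Ori vw wt)

/-! ### binary sums -/

/-- The union of two configurations. -/
noncomputable def add2 {ι ι' : Type} (W : WC ι) (W' : WC ι') : WC (ι ⊕ ι') :=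
  ⟨Sum.elim W.w W'.w, fun e => W.c e + W'.c e⟩

section add2

variable {ι ι' : Type} [Fintype ι] [Fintype ι']

theorem add2_S (W : WC ι) (W' : WC ι') : (add2 W W').S = W.S ∪ W'.S := by
  ext e
  rw [mem_S_iff, mem_union, mem_S_iff, mem_S_iff]
  constructor
  · rintro ⟨i | i, h⟩
    · exact Or.inl ⟨i, h⟩
    · exact Or.inr ⟨i, h⟩
  · rintro (⟨i, h⟩ | ⟨i, h⟩)
    · exact ⟨Sum.inl i, h⟩
    · exact ⟨Sum.inr i, h⟩

theorem add2_ph (W : WC ι) (W' : WC ι') : (add2 W W').ph = W.ph + W'.ph := by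
  funext e b
  show ∑ i : ι ⊕ ι', (Sum.elim W.w W'.w i).ph e b + (W.c e + W'.c e) / 2 =
    (∑ i, (W.w i).ph e b + W.c e / 2) + (∑ i, (W'.w i).ph e b + W'.c e / 2)
  rw [Fintype.sum_sum_type]
  simp only [Sum.elim_inl, Sum.elim_inr]
  ring

omit [Fintype ι] [Fintype ι'] in
theorem add2_fc {W : WC ι} {W' : WC ι'} (hc : Fc W) (hc' : Fc W') : Fc (add2 W W') := by
  refine (Set.Finite.union hc hc').subset fun e he => ?_
  by_contra hn
  rw [Set.mem_union, not_or] at hn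
  apply he
  have h1 : W.c e = 0 := by simpa [Function.mem_support] using hn.1
  have h2 : W'.c e = 0 := by simpa [Function.mem_support] using hn.2
  show W.c e + W'.c e = 0
  rw [h1, h2, add_zero]

theorem insW_add2 {W : WC ι} {W' : WC ι'} (hc : Fc W) (hc' : Fc W') (hd : Disjoint W.S W'.S) :
    insW (add2 W W') (add2_fc hc hc') = insW W hc * insW W' hc' := by
  unfold insW
  rw [← insP_mul hd]
  exact insP_congr (add2_S W W') (add2_ph W W') _ _

omit [Fintype ι] [Fintype ι'] in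
theorem pts_add2 {W : WC ι} {W' : WC ι'} {v : ℤ × ℤ} (h : v ∈ pts (add2 W W')) :
    v ∈ pts W ∨ v ∈ pts W' := by
  rcases h with ⟨i | i, k, hk, h⟩ | ⟨e, he, h⟩
  · exact Or.inl (Or.inl ⟨i, k, hk, h⟩)
  · exact Or.inr (Or.inl ⟨i, k, hk, h⟩)
  · by_cases h0 : W.c e = 0
    · right
      refine Or.inr ⟨e, ?_, h⟩
      intro h1
      apply he
      show W.c e + W'.c e = 0
      rw [h0, h1, add_zero]
    · exact Or.inl (Or.inr ⟨e, h0, h⟩)

omit [Fintype ι] [Fintype ι'] in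
theorem Adm.add2 {W : WC ι} {W' : WC ι'} {κ R B : ℝ} {n : ℕ} (h : W.Adm κ R B n)
    (h' : W'.Adm κ R B n) (hf : ∀ u ∈ pts W, ∀ v ∈ pts W', κ * n ≤ (nm (u - v) : ℝ)) :
    (add2 W W').Adm κ R (2 * B) n := by
  have hf' : ∀ u ∈ pts W', ∀ v ∈ pts W, κ * n ≤ (nm (u - v) : ℝ) := by
    intro u hu v hv
    have := hf v hv u hu
    rwa [← nm_neg, neg_sub] at this
  constructor
  · rintro (i | i)
    · exact h.len i
    · exact h'.len i
  · rintro (i | i) k hk
    · exact h.box i k hk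
    · exact h'.box i k hk
  · rintro (i | i) (j | j) hne k hk k' hk'
    · exact h.sep i j (fun hh => hne (by rw [hh])) k hk k' hk'
    · exact hf _ (Or.inl ⟨i, k, hk, rfl⟩) _ (Or.inl ⟨j, k', hk', rfl⟩)
    · exact hf' _ (Or.inl ⟨i, k, hk, rfl⟩) _ (Or.inl ⟨j, k', hk', rfl⟩)
    · exact h'.sep i j (fun hh => hne (by rw [hh])) k hk k' hk'
  · rintro (i | i)
    · exact h.jump i
    · exact h'.jump i
  · intro e he
    have h0 : W.c e ≠ 0 ∨ W'.c e ≠ 0 := by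
      by_contra hn
      push Not at hn
      apply he
      show W.c e + W'.c e = 0
      rw [hn.1, hn.2, add_zero]
    rcases h0 with h0 | h0
    · refine ⟨(h.csup e h0).1, ?_⟩
      rintro (i | i) k hk
      · exact (h.csup e h0).2 i k hk
      · exact hf _ (Or.inr ⟨e, h0, rfl⟩) _ (Or.inl ⟨i, k, hk, rfl⟩)
    · refine ⟨(h'.csup e h0).1, ?_⟩
      rintro (i | i) k hk
      · exact hf' _ (Or.inr ⟨e, h0, rfl⟩) _ (Or.inl ⟨i, k, hk, rfl⟩)
      · exact (h'.csup e h0).2 i k hk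
  · intro e
    show |W.c e + W'.c e| ≤ _
    refine (abs_add_le _ _).trans ((add_le_add (h.cle e) (h'.cle e)).trans (le_of_eq ?_))
    ring
  · intro z
    have h1 : dv (H199.add2 W W').c z = dv W.c z + dv W'.c z := by
      unfold dv H199.add2
      ring
    rw [h1]
    refine (abs_add_le _ _).trans ((add_le_add (h.dle z) (h'.dle z)).trans (le_of_eq ?_))
    ring

theorem jumps_add2 (W : WC ι) (W' : WC ι') : (add2 W W').jumps = W.jumps + W'.jumps := by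
  classical
  unfold WC.jumps
  simp only [card_filter]
  rw [Fintype.sum_sum_type]
  rfl

end add2

/-! ### positions and supports -/

theorem epos_mem {K : Set (ℤ × ℤ)} {e : Ed} (h : e ∈ EdT K) : epos e ∈ K := by
  rcases e with v | v
  · have := h 0 0 (by norm_num) (by norm_num) (by norm_num) (by norm_num)
    show v ∈ K
    simpa using this
  · have := h 0 0 (by norm_num) (by norm_num) (by norm_num) (by norm_num)
    show v ∈ K
    simpa using this

theorem epos_e (w : Wall) (k : ℕ) : epos (w.e k) = w.pos k := by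
  unfold Wall.e Wall.pos
  split_ifs <;> rfl

theorem pts_sub {ι : Type} [Fintype ι] {K : Set (ℤ × ℤ)} {W : WC ι} (hS : ∀ e ∈ W.S, e ∈ EdT K)
    (hK : ∀ e, W.c e ≠ 0 → e ∈ EdT K) : pts W ⊆ K := by
  rintro v (⟨i, k, hk, rfl⟩ | ⟨e, he, rfl⟩)
  · rw [← epos_e]
    exact epos_mem (hS _ (mem_S_iff.2 ⟨i, mem_image_of_mem _ (mem_range.2 hk)⟩))
  · exact epos_mem (hK e he)

/-- Far configurations have disjoint cuts. -/
theorem disj_of_far {ι ι' : Type} [Fintype ι] [Fintype ι'] {W : WC ι} {W' : WC ι'} {r : ℝ}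
    (hr : 0 < r) (hf : ∀ u ∈ pts W, ∀ v ∈ pts W', r ≤ (nm (u - v) : ℝ)) :
    Disjoint W.S W'.S := by
  rw [Finset.disjoint_left]
  intro e he he'
  obtain ⟨i, hi⟩ := mem_S_iff.1 he
  obtain ⟨j, hj⟩ := mem_S_iff.1 he'
  obtain ⟨k, hk, h1⟩ := mem_image.1 hi
  obtain ⟨k', hk', h2⟩ := mem_image.1 hj
  have h3 := hf _ (Or.inl ⟨i, k, mem_range.1 hk, rfl⟩) _ (Or.inl ⟨j, k', mem_range.1 hk', rfl⟩)
  rw [← epos_e, ← epos_e, h1, h2, sub_self] at h3
  have h4 : (nm (0 : ℤ × ℤ) : ℝ) = 0 := by simp [nm]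
  linarith

/-! ### the four reflections -/

section four

variable {ι : Type} [Fintype ι] {W : WC ι} {κ κ' R R' B : ℝ} {n : ℕ}

theorem npos_of (hκ : κ' * n + 2 ≤ κ * n) : (0 : ℝ) < n := by
  rcases Nat.eq_zero_or_pos n with h | h
  · subst h
    norm_num at hκ
  · exact_mod_cast h

theorem nm_smul_le (m : ℤ) {s : ℤ × ℤ} (hs : nm s ≤ 2) : nm (m • s) ≤ 2 * |m| := by
  have h1 := (nm_fst s).trans hs
  have h2 := (nm_snd s).trans hs
  rw [nm_le]
  refine ⟨?_, ?_⟩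
  · show |m * s.1| ≤ _
    rw [abs_mul]
    nlinarith [abs_nonneg m]
  · show |m * s.2| ≤ _
    rw [abs_mul]
    nlinarith [abs_nonneg m]

theorem Adm.rfX (h : W.Adm κ R B n) (m : ℤ) (hκ : κ' * n + 2 ≤ κ * n)
    (hR : R * n + 2 + 2 * |m| ≤ R' * n) : (rfX m W).Adm κ' R' B n := by
  have hn := npos_of hκ
  have e1 : (R + 1 / n) * n = R * n + 1 := by field_simp
  have h1 := Adm.mX (κ' := κ') (R' := R + 1 / n) h (by linarith) (by linarith)
  refine Adm.tr h1 ?_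
  have h2 : (nm (m • gX.s) : ℝ) ≤ 2 * |m| := by exact_mod_cast nm_smul_le m (s := (2, 0)) (by decide)
  push_cast at hR h2
  linarith

theorem Adm.rfD (h : W.Adm κ R B n) (m : ℤ) (hκ : κ' * n + 2 ≤ κ * n)
    (hR : R * n + 2 + 2 * |m| ≤ R' * n) : (rfD m W).Adm κ' R' B n := by
  have h1 := Adm.mono (κ' := κ') (R' := R) (B' := B) (Adm.mD h) (by linarith) le_rfl le_rfl
  refine Adm.tr h1 ?_
  have h2 : (nm (m • gD.s) : ℝ) ≤ 2 * |m| := by exact_mod_cast nm_smul_le m (s := (1, -1)) (by decide)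
  push_cast at hR h2
  linarith

theorem Adm.rfY (h : W.Adm κ R B n) (m : ℤ) (hκ : κ' * n + 2 ≤ κ * n)
    (hR : R * n + 2 + 2 * |m| ≤ R' * n) : (rfY m W).Adm κ' R' B n := by
  have hn := npos_of hκ
  have e1 : (R + 1 / n) * n = R * n + 1 := by field_simp
  have h1 := Adm.mX (κ' := κ') (R' := R + 1 / n) (Adm.mD h) (by linarith) (by linarith)
  refine Adm.tr (Adm.mD h1) ?_
  have h2 : (nm (m • gY.s) : ℝ) ≤ 2 * |m| := by exact_mod_cast nm_smul_le m (s := (0, 2)) (by decide)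
  push_cast at hR h2
  linarith

theorem Adm.rfA (h : W.Adm κ R B n) (m : ℤ) (hκ : κ' * n + 2 ≤ κ * n)
    (hR : R * n + 2 + 2 * |m| ≤ R' * n) : (rfA m W).Adm κ' R' B n := by
  have hn := npos_of hκ
  have e1 : (R + 1 / n) * n = R * n + 1 := by field_simp
  have e2 : (R + 2 / n) * n = R * n + 2 := by field_simp
  have e3 : (κ - 1 / n) * n = κ * n - 1 := by field_simp
  have h1 := Adm.mX (κ' := κ - 1 / n) (R' := R + 1 / n) h (by linarith) (by linarith)
  have h2 := Adm.mX (κ' := κ') (R' := R + 2 / n) (Adm.mD h1) (by linarith) (by linarith)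
  refine Adm.tr h2 ?_
  have h3 : (nm (m • gA.s) : ℝ) ≤ 2 * |m| := by exact_mod_cast nm_smul_le m (s := (1, 1)) (by decide)
  push_cast at hR h3
  linarith

theorem pts_rfX {m : ℤ} {v : ℤ × ℤ} (hv : v ∈ pts (H199.rfX m W)) :
    ∃ u ∈ pts W, |gX.l v - (2 * m - gX.l u)| ≤ 2 := by
  obtain ⟨u, hu, s, hs, h⟩ := pts_mX W ((pts_tr _ _).1 hv)
  refine ⟨u, hu, ?_⟩
  have h1 : v.1 - m * 2 = s - u.1 := congrArg Prod.fst h
  show |v.1 - (2 * m - u.1)| ≤ 2
  rw [abs_le]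
  omega

theorem pts_rfD {m : ℤ} {v : ℤ × ℤ} (hv : v ∈ pts (H199.rfD m W)) :
    ∃ u ∈ pts W, |gD.l v - (2 * m - gD.l u)| ≤ 2 := by
  have h1 := pts_mD W ((pts_tr _ _).1 hv)
  refine ⟨_, h1, ?_⟩
  show |v.1 - v.2 - (2 * m - ((v.2 - m * (-1)) - (v.1 - m * 1)))| ≤ 2
  rw [abs_le]
  omega

theorem pts_rfY {m : ℤ} {v : ℤ × ℤ} (hv : v ∈ pts (H199.rfY m W)) :
    ∃ u ∈ pts W, |gY.l v - (2 * m - gY.l u)| ≤ 2 := by
  obtain ⟨u, hu, s, hs, h⟩ := pts_mX _ (pts_mD _ ((pts_tr _ _).1 hv))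
  refine ⟨_, pts_mD W hu, ?_⟩
  have h1 : v.2 - m * 2 = s - u.1 := congrArg Prod.fst h
  show |v.2 - (2 * m - u.1)| ≤ 2
  rw [abs_le]
  omega

theorem pts_rfA {m : ℤ} {v : ℤ × ℤ} (hv : v ∈ pts (H199.rfA m W)) :
    ∃ u ∈ pts W, |gA.l v - (2 * m - gA.l u)| ≤ 2 := by
  obtain ⟨u1, hu1, s, hs, h⟩ := pts_mX _ ((pts_tr _ _).1 hv)
  obtain ⟨u, hu, t, ht, h'⟩ := pts_mX W (pts_mD _ hu1)
  refine ⟨u, hu, ?_⟩
  have h1 : v.1 - m * 1 = s - u1.1 := congrArg Prod.fst h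
  have h2 : v.2 - m * 1 = u1.2 := congrArg Prod.snd h
  have h3 : u1.2 = t - u.1 := congrArg Prod.fst h'
  have h4 : u1.1 = u.2 := congrArg Prod.snd h'
  show |v.1 + v.2 - (2 * m - (u.1 + u.2))| ≤ 2
  rw [abs_le]
  omega

end four

/-! ### the general statement for the four directions -/

/-- A reflection of the configurations of walls for the reflections `θ` of the direction `D`. -/
structure RW (D : GDir) (θ : ℤ → LIns → LIns)
    (rf : ∀ {ι : Type} [Fintype ι], ℤ → WC ι → WC ι) : Prop where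
  fc : ∀ {ι : Type} [Fintype ι] {W : WC ι}, Fc W → ∀ m, Fc (rf m W)
  ins : ∀ {ι : Type} [Fintype ι] {W : WC ι} (hc : Fc W) (m : ℤ),
    insW (rf m W) (fc hc m) = θ m (insW W hc)
  adm : ∀ {ι : Type} [Fintype ι] {W : WC ι} {κ κ' R R' B : ℝ} {n : ℕ}, W.Adm κ R B n →
    ∀ m : ℤ, κ' * n + 2 ≤ κ * n → R * n + 2 + 2 * |m| ≤ R' * n → (rf m W).Adm κ' R' B n
  jumps : ∀ {ι : Type} [Fintype ι] (W : WC ι) (m : ℤ), (rf m W).jumps = W.jumps
  pts : ∀ {ι : Type} [Fintype ι] {W : WC ι} {m : ℤ} {v : ℤ × ℤ}, v ∈ H199.pts (rf m W) →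
    ∃ u ∈ H199.pts W, |D.l v - (2 * m - D.l u)| ≤ 2
  lin : ∀ u v, D.l (u - v) = D.l u - D.l v
  nm : ∀ u, |D.l u| ≤ 2 * P167.nm u

theorem rwX : RW gX (fun m A => LIns.sh (m • gX.s) (LIns.th rX_lin A)) rfX where
  fc hc m := rfX_fc hc m
  ins hc m := insW_rfX _ hc m
  adm h m h1 h2 := by exact_mod_cast Adm.rfX h m h1 (by exact_mod_cast h2)
  jumps W m := jumps_mX W
  pts hv := pts_rfX hv
  lin u v := rfl
  nm u := by
    have := nm_fst u
    show |u.1| ≤ _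
    have h0 : 0 ≤ P167.nm u := (abs_nonneg _).trans this
    linarith

theorem rwY : RW gY (fun m A => LIns.sh (m • gY.s) (thY A)) rfY where
  fc hc m := rfY_fc hc m
  ins hc m := insW_rfY _ hc m
  adm h m h1 h2 := by exact_mod_cast Adm.rfY h m h1 (by exact_mod_cast h2)
  jumps W m := jumps_mX (mD W)
  pts hv := pts_rfY hv
  lin u v := rfl
  nm u := by
    have := nm_snd u
    show |u.2| ≤ _
    have h0 : 0 ≤ P167.nm u := (abs_nonneg _).trans this
    linarith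

theorem rwD : RW gD (fun m A => LIns.sh (m • gD.s) (LIns.th rD_lin A)) rfD where
  fc hc m := rfD_fc hc m
  ins hc m := insW_rfD _ hc m
  adm h m h1 h2 := by exact_mod_cast Adm.rfD h m h1 (by exact_mod_cast h2)
  jumps W m := rfl
  pts hv := pts_rfD hv
  lin u v := by show u.1 - v.1 - (u.2 - v.2) = u.1 - u.2 - (v.1 - v.2); ring
  nm u := by
    have h1 := abs_le.1 (nm_fst u)
    have h2 := abs_le.1 (nm_snd u)
    show |u.1 - u.2| ≤ _
    rw [abs_le]
    constructor <;> linarith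

theorem rwA : RW gA (fun m A => LIns.sh (m • gA.s) (thA A)) rfA where
  fc hc m := rfA_fc hc m
  ins hc m := insW_rfA _ hc m
  adm h m h1 h2 := by exact_mod_cast Adm.rfA h m h1 (by exact_mod_cast h2)
  jumps W m := by
    show (mX (mD (mX W))).jumps = _
    rw [jumps_mX]
    exact jumps_mX W
  pts hv := pts_rfA hv
  lin u v := by show u.1 - v.1 + (u.2 - v.2) = u.1 + u.2 - (v.1 + v.2); ring
  nm u := by
    have h1 := abs_le.1 (nm_fst u)
    have h2 := abs_le.1 (nm_snd u)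
    show |u.1 + u.2| ≤ _
    rw [abs_le]
    constructor <;> linarith

/-- **Reflection norms of configurations of walls.** -/
theorem os_le {zt zf : ℕ → ℝ} (hH : HOS zt zf) {om : Ins → ℂ} (hom : IsOm (√3) om) {D : GDir}
    {θ : ℤ → LIns → LIns} {rf : ∀ {ι : Type} [Fintype ι], ℤ → WC ι → WC ι} (hD : RW D θ rf)
    {κ : ℝ} (hκ : 0 < κ) (R B : ℝ) (M : ℕ) : ∃ C : ℝ, 0 < C ∧ ∀ᶠ n : ℕ in atTop,
    ∀ (ι : Type) [Fintype ι] (W : WC ι) (hc : Fc W), Fintype.card ι ≤ M → W.Adm κ R B n →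
    ∀ m : ℤ, |(m : ℝ)| ≤ R * n →
    ((∀ u ∈ pts W, (m : ℝ) + κ * n ≤ D.l u) ∨ (∀ u ∈ pts W, (D.l u : ℝ) ≤ m - κ * n)) →
    os (sysOm om) θ m (insW W hc) ≤ C * (zt n ^ Fintype.card ι * zf n ^ W.jumps) ^ 2 := by
  obtain ⟨C, hC, h⟩ := hH (κ / 2) (3 * |R| + 2) (2 * B) (2 * M) (by positivity)
  refine ⟨C, hC, ?_⟩
  have hlarge : ∀ᶠ n : ℕ in atTop, 4 ≤ κ * n ∧ (1 : ℝ) ≤ n := by
    have h1 : Tendsto (fun n : ℕ => κ * n) atTop atTop :=
      tendsto_natCast_atTop_atTop.const_mul_atTop hκ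
    filter_upwards [h1.eventually_ge_atTop 4, eventually_ge_atTop 1] with n h1 h2
    exact ⟨h1, by exact_mod_cast h2⟩
  filter_upwards [h, hlarge] with n hn hl ι _ W hc hcard hA m hm hside
  have hRn : R * n ≤ |R| * n := by
    gcongr
    exact le_abs_self R
  have h2n : (2 : ℝ) ≤ 2 * n := by linarith [hl.2]
  have hA1 : W.Adm (κ / 2) (3 * |R| + 2) B n := by
    refine Adm.mono hA (by linarith) ?_ le_rfl
    nlinarith [abs_nonneg R]
  have hA2 : (rf m W).Adm (κ / 2) (3 * |R| + 2) B n := by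
    refine hD.adm hA m (by linarith) ?_
    push_cast
    nlinarith [abs_nonneg R]
  have hfar : ∀ u ∈ pts W, ∀ v ∈ pts (rf m W), κ / 2 * n ≤ (nm (u - v) : ℝ) := by
    intro u hu v hv
    obtain ⟨u', hu', h1⟩ := hD.pts hv
    have h2 := hD.nm (u - v)
    rw [hD.lin] at h2
    rw [abs_le] at h1 h2
    have h1a : (-2 : ℝ) ≤ D.l v - (2 * m - D.l u') := by exact_mod_cast h1.1
    have h1b : (D.l v - (2 * m - D.l u') : ℝ) ≤ 2 := by exact_mod_cast h1.2
    have h2a : (-(2 * nm (u - v)) : ℝ) ≤ D.l u - D.l v := by exact_mod_cast h2.1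
    have h2b : (D.l u - D.l v : ℝ) ≤ 2 * nm (u - v) := by exact_mod_cast h2.2
    rcases hside with hs | hs
    · have h3 := hs u hu
      have h4 := hs u' hu'
      linarith
    · have h3 := hs u hu
      have h4 := hs u' hu'
      linarith
  have hpos : 0 < κ / 2 * (n : ℝ) := by linarith
  have hd := disj_of_far hpos hfar
  have hA3 : (add2 W (rf m W)).Adm (κ / 2) (3 * |R| + 2) (2 * B) n := Adm.add2 hA1 hA2 hfar
  have h1 : os (sysOm om) θ m (insW W hc) = ∫ ω, (add2 W (rf m W)).X ω ∂μ := by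
    show (om (insW W hc * θ m (insW W hc)).1).re = _
    rw [← hD.ins hc m, ← insW_add2 hc (hD.fc hc m) hd, om_insW hom, Complex.ofReal_re]
  rw [h1]
  have h2 := hn (ι ⊕ ι) (add2 W (rf m W)) (by rw [Fintype.card_sum]; omega) hA3
  refine ((le_abs_self _).trans abs_integral_le_integral_abs).trans (h2.trans (le_of_eq ?_))
  rw [jumps_add2, hD.jumps, Fintype.card_sum]
  ring

end Vale.Agent.P167.H199
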