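import Vale.Agent.P167.H592.K1
import Vale.Agent.P167.H199.OmEx

/-!
P167, block 2A, operations on insertions given by phases: products, translations, reflections.
-/

namespace Vale.Agent.P167.H199

open Finset Filter Topology MeasureTheory
open Vale.Agent.P167.H592
open Vale.Agent.P152 (Edge Ori vw wt)

/-- Finitely supported phases. -/
def Fs (a : Ed → Bool → ℝ) : Prop := (Function.support a).Finite

/-- The exponent. -/
noncomputable def exO (a : Ed → Bool → ℝ) (ω : HO (ℤ × ℤ)) : ℝ :=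
  ∑ᶠ e, ∑ b : Bool, a e b * (if ω e b then 1 else -1)

/-- The phase functional for finitely supported phases. -/
noncomputable def phO (a : Ed → Bool → ℝ) (ω : HO (ℤ × ℤ)) : ℂ :=
  Complex.exp (Complex.I * ((exO a ω : ℝ) : ℂ))

theorem exO_eq {E : Finset Ed} {a : Ed → Bool → ℝ} (ha : ∀ e ∉ E, a e = 0) (ω : HO (ℤ × ℤ)) :
    exO a ω = ∑ e ∈ E, ∑ b : Bool, a e b * (if ω e b then 1 else -1) := by
  unfold exO
  apply finsum_eq_sum_of_support_subset
  intro e he
  by_contra hn
  apply he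
  have h0 : a e = 0 := ha e (by exact_mod_cast hn)
  show ∑ b : Bool, a e b * (if ω e b then (1 : ℝ) else -1) = 0
  simp [h0]

theorem phO_eq {E : Finset Ed} {a : Ed → Bool → ℝ} (ha : ∀ e ∉ E, a e = 0) :
    phO a = phF E a := by
  funext ω
  unfold phO phF
  rw [exO_eq ha]

theorem Fs.off {a : Ed → Bool → ℝ} (h : Fs a) : ∀ e ∉ Set.Finite.toFinset h, a e = 0 := by
  intro e he
  by_contra hn
  exact he ((Set.Finite.mem_toFinset h).2 hn)

theorem Fs.of {E : Finset Ed} {a : Ed → Bool → ℝ} (ha : ∀ e ∉ E, a e = 0) : Fs a := by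
  refine E.finite_toSet.subset fun e he => ?_
  by_contra hn
  exact he (ha e (by exact_mod_cast hn))

theorem Fs.add {a a' : Ed → Bool → ℝ} (h : Fs a) (h' : Fs a') : Fs (a + a') :=
  (Set.Finite.union h h').subset (Function.support_add _ _)

theorem exO_add {a a' : Ed → Bool → ℝ} (h : Fs a) (h' : Fs a') (ω : HO (ℤ × ℤ)) :
    exO (a + a') ω = exO a ω + exO a' ω := by
  classical
  have h1 : ∀ e ∉ Set.Finite.toFinset h ∪ Set.Finite.toFinset h', a e = 0 := fun e he =>
    h.off e fun hh => he (mem_union_left _ hh)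
  have h2 : ∀ e ∉ Set.Finite.toFinset h ∪ Set.Finite.toFinset h', a' e = 0 := fun e he =>
    h'.off e fun hh => he (mem_union_right _ hh)
  have h3 : ∀ e ∉ Set.Finite.toFinset h ∪ Set.Finite.toFinset h', (a + a') e = 0 := fun e he => by
    rw [Pi.add_apply, h1 e he, h2 e he, add_zero]
  rw [exO_eq h1, exO_eq h2, exO_eq h3, ← sum_add_distrib]
  refine sum_congr rfl fun e _ => ?_
  rw [← sum_add_distrib]
  refine sum_congr rfl fun b _ => ?_
  rw [Pi.add_apply, Pi.add_apply, add_mul]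

theorem phO_add {a a' : Ed → Bool → ℝ} (h : Fs a) (h' : Fs a') (ω : HO (ℤ × ℤ)) :
    phO (a + a') ω = phO a ω * phO a' ω := by
  unfold phO
  rw [exO_add h h', ← Complex.exp_add, Complex.ofReal_add, mul_add]

theorem Fs.zero : Fs 0 := Fs.of (E := ∅) fun _ _ => rfl

theorem phO_zero (ω : HO (ℤ × ℤ)) : phO 0 ω = 1 := by
  have h0 : phO 0 = phF ∅ 0 := phO_eq (E := ∅) (a := 0) (fun _ _ => rfl)
  rw [h0]
  simp [phF]

/-- The normalised phase insertion. -/
noncomputable def insP (S : Finset Ed) (a : Ed → Bool → ℝ) (ha : Fs a) : LIns :=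
  ⟨⟨S, fun ω => ((((√3)⁻¹ ^ S.card : ℝ)) : ℂ) * phO a ω⟩, by
    classical
    refine ⟨Set.Finite.toFinset ha ∪ S, fun e _ => mem_EdT_univ e, subset_union_right, ?_⟩
    intro ω ω' h
    show _ * phO a ω = _ * phO a ω'
    congr 1
    unfold phO
    rw [exO_eq ha.off, exO_eq ha.off]
    congr 3
    refine sum_congr rfl fun e he => ?_
    rw [h e (mem_union_left _ he)]⟩

theorem insP_S (S : Finset Ed) (a : Ed → Bool → ℝ) (ha : Fs a) : (insP S a ha).1.S = S := rfl

theorem insP_F (S : Finset Ed) (a : Ed → Bool → ℝ) (ha : Fs a) (ω : HO (ℤ × ℤ)) :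
    (insP S a ha).1.F ω = ((((√3)⁻¹ ^ S.card : ℝ)) : ℂ) * phO a ω := rfl

theorem insP_congr {S S' : Finset Ed} {a a' : Ed → Bool → ℝ} (hS : S = S') (ha : a = a')
    (h : Fs a) (h' : Fs a') : insP S a h = insP S' a' h' := by
  subst hS ha
  rfl

theorem insP_mul {S S' : Finset Ed} (hd : Disjoint S S') {a a' : Ed → Bool → ℝ} (h : Fs a)
    (h' : Fs a') : insP (S ∪ S') (a + a') (h.add h') = insP S a h * insP S' a' h' := by
  refine LIns.ext' rfl fun ω => ?_
  rw [LIns.mul_F, insP_F, insP_F, insP_F, phO_add h h', card_union_of_disjoint hd, pow_add]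
  push_cast
  ring

theorem insP_one : insP ∅ 0 Fs.zero = 1 := by
  refine LIns.ext' rfl fun ω => ?_
  rw [insP_F, phO_zero, LIns.one_F]
  simp

theorem insP_prod {I : Type} [DecidableEq I] (A : Finset I) (S : I → Finset Ed)
    (a : I → Ed → Bool → ℝ) (h : ∀ i, Fs (a i))
    (hd : ∀ i ∈ A, ∀ j ∈ A, i ≠ j → Disjoint (S i) (S j)) (h' : Fs (∑ i ∈ A, a i)) :
    insP (A.biUnion S) (∑ i ∈ A, a i) h' = ∏ i ∈ A, insP (S i) (a i) (h i) := by
  induction A using Finset.induction_on with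
  | empty => exact (insP_congr rfl rfl _ _).trans insP_one
  | insert i A hi ih =>
    have hA : Fs (∑ j ∈ A, a j) := by
      clear ih h' hd hi
      induction A using Finset.induction_on with
      | empty => exact Fs.zero
      | insert j A hj ih => rw [sum_insert hj]; exact (h j).add ih
    rw [prod_insert hi, ← ih (fun j hj k hk => hd j (mem_insert_of_mem hj) k (mem_insert_of_mem hk))
      hA, ← insP_mul]
    · exact insP_congr biUnion_insert (sum_insert hi) _ _
    · rw [disjoint_biUnion_right]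
      intro j hj
      exact hd i (mem_insert_self _ _) j (mem_insert_of_mem hj) fun e => hi (e ▸ hj)

/-! ### translations -/

/-- Translated phases. -/
def shA (v : ℤ × ℤ) (a : Ed → Bool → ℝ) : Ed → Bool → ℝ := fun e => a (shE (-v) e)

/-- Translations of the edges as a permutation. -/
def shEq (v : ℤ × ℤ) : Ed ≃ Ed where
  toFun := shE v
  invFun := shE (-v)
  left_inv e := by rw [shE_shE, neg_add_cancel, shE_zero]
  right_inv e := by rw [shE_shE, add_neg_cancel, shE_zero]

theorem Fs.sh {a : Ed → Bool → ℝ} (h : Fs a) (v : ℤ × ℤ) : Fs (shA v a) := by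
  refine (Set.Finite.image (shE v) h).subset fun e he => ⟨shE (-v) e, he, ?_⟩
  rw [shE_shE, add_neg_cancel, shE_zero]

theorem exO_sh (a : Ed → Bool → ℝ) (v : ℤ × ℤ) (ω : HO (ℤ × ℤ)) :
    exO a (shH v ω) = exO (shA v a) ω := by
  unfold exO
  rw [← finsum_comp_equiv (shEq v) (f := fun e => ∑ b : Bool, shA v a e b *
    (if ω e b then (1 : ℝ) else -1))]
  refine finsum_congr fun e => ?_
  refine sum_congr rfl fun b _ => ?_
  show a e b * (if ω (shE v e) b then 1 else -1) =
    a (shE (-v) (shE v e)) b * (if ω (shE v e) b then 1 else -1)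
  rw [shE_shE, neg_add_cancel, shE_zero]

theorem card_shE (S : Finset Ed) (v : ℤ × ℤ) : (S.image (shE v)).card = S.card :=
  card_image_of_injective _ (shEq v).injective

theorem insP_sh (S : Finset Ed) (a : Ed → Bool → ℝ) (ha : Fs a) (v : ℤ × ℤ) :
    insP (S.image (shE v)) (shA v a) (ha.sh v) = LIns.sh v (insP S a ha) := by
  refine LIns.ext' rfl fun ω => ?_
  show _ * phO (shA v a) ω = _ * phO a (shH v ω)
  rw [card_shE]
  unfold phO
  rw [exO_sh]

/-! ### reflections -/

/-- Reflected phases. -/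
def thP (P : Rf (ℤ × ℤ)) (a : Ed → Bool → ℝ) : Ed → Bool → ℝ := fun e b =>
  (if P.s e then 1 else -1) * a (P.ρ e) (xor (P.t e) b)

variable {P : Rf (ℤ × ℤ)} {l : ℤ × ℤ → ℤ × ℤ}

/-- The reflection of the edges as a permutation. -/
def rhoEq (hP : P.Lin l) : Ed ≃ Ed where
  toFun := P.ρ
  invFun := P.ρ
  left_inv := hP.ok.ρρ
  right_inv := hP.ok.ρρ

theorem Fs.th {a : Ed → Bool → ℝ} (h : Fs a) (hP : P.Lin l) : Fs (thP P a) := by
  refine (Set.Finite.image P.ρ h).subset fun e he => ⟨P.ρ e, ?_, hP.ok.ρρ e⟩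
  intro h0
  apply he
  funext b
  show (if P.s e then 1 else -1) * a (P.ρ e) (xor (P.t e) b) = 0
  have h0' : a (P.ρ e) = 0 := h0
  rw [h0', Pi.zero_apply, mul_zero]

theorem exO_th (hP : P.Lin l) (a : Ed → Bool → ℝ) (ω : HO (ℤ × ℤ)) :
    exO a (P.act ω) = - exO (thP P a) ω := by
  unfold exO
  rw [← finsum_comp_equiv (rhoEq hP) (f := fun e => ∑ b : Bool, thP P a e b *
    (if ω e b then (1 : ℝ) else -1)), ← finsum_neg_distrib]
  refine finsum_congr fun e => ?_
  have hR : P.ρ (P.ρ e) = e := hP.ok.ρρ e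
  show ∑ b : Bool, a e b * (if xor (P.s e) (ω (P.ρ e) (xor (P.t e) b)) then 1 else -1) =
    -∑ b : Bool, (if P.s (P.ρ e) then 1 else -1) * a (P.ρ (P.ρ e)) (xor (P.t (P.ρ e)) b) *
      (if ω (P.ρ e) b then 1 else -1)
  rw [hR, hP.ok.tρ, hP.ok.sρ, Fintype.sum_bool, Fintype.sum_bool]
  rcases h1 : ω (P.ρ e) true <;> rcases h2 : ω (P.ρ e) false <;> cases P.s e <;> cases P.t e <;>
    simp [h1, h2] <;> ring

theorem card_rho (hP : P.Lin l) (S : Finset Ed) : (S.image P.ρ).card = S.card :=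
  card_image_of_injective _ (rhoEq hP).injective

theorem insP_th (hP : P.Lin l) (S : Finset Ed) (a : Ed → Bool → ℝ) (ha : Fs a) :
    insP (S.image P.ρ) (thP P a) (ha.th hP) = LIns.th hP (insP S a ha) := by
  refine LIns.ext' rfl fun ω => ?_
  show _ * phO (thP P a) ω = (starRingEnd ℂ) (_ * phO a (P.act ω))
  rw [card_rho hP, map_mul, Complex.conj_ofReal]
  congr 1
  unfold phO
  rw [exO_th hP, ← Complex.exp_conj, map_mul, Complex.conj_I, Complex.conj_ofReal]
  push_cast
  ring_nf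

/-! ### values -/

theorem LI_ph (S : Finset Ed) {E : Finset Ed} (hSE : S ⊆ E) (a : Ed → Bool → ℝ) :
    LI Set.univ ⟨S, phF E a⟩ := by
  refine ⟨E, fun e _ => mem_EdT_univ e, hSE, fun ω ω' h => ?_⟩
  show phF E a ω = phF E a ω'
  unfold phF
  congr 3
  refine sum_congr rfl fun e he => ?_
  rw [h e he]

theorem om_insP {om : Ins → ℂ} (hom : IsOm (√3) om) (S : Finset Ed) (a : Ed → Bool → ℝ)
    (ha : Fs a) : om (insP S a ha).1 = (((√3)⁻¹ ^ S.card * ∫ ω, Xc S a ω ∂μ : ℝ) : ℂ) := by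
  classical
  have hE : ∀ e ∉ Set.Finite.toFinset ha ∪ S, a e = 0 := fun e he =>
    ha.off e fun hh => he (mem_union_left _ hh)
  have h1 : (insP S a ha).1 = ⟨S, fun ω => ((((√3)⁻¹ ^ S.card : ℝ)) : ℂ) *
      phF (Set.Finite.toFinset ha ∪ S) a ω⟩ := by
    apply Ins.ext
    · rfl
    · funext ω
      show _ * phO a ω = _
      rw [phO_eq hE]
  rw [h1, hom.smul (LI_ph S subset_union_right a), isOm_phF hom subset_union_right
    (fun e he b => by rw [hE e he]; rfl), Complex.ofReal_mul]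

end Vale.Agent.P167.H199
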