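import Vale.Agent.P167.H199.PwPos

/-!
P167, block 2A: the walls of a lattice polygon with holes and a flow in the interior form an
admissible configuration.
-/

namespace Vale.Agent.P167.H199

open Finset Filter Topology
open Vale.Agent.P167.E6 (IsPolygon Encloses dir region face pt)
open Vale.Agent.P167.H825 (Wall WC Marks Box pdir dirOf sideWall pwall rnd bsite PW enl epos dv
  FlowIn ptau)

/-! ### sides of a polygon are far from each other -/

/-- The lower left end of a side. -/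
def lo (P : ℤ × ℤ) (r : Fin 4) : ℤ × ℤ := ![P, P, (P.1 - 1, P.2), (P.1, P.2 - 1)] r

/-- Vertical sides. -/
def ov (r : Fin 4) : Bool := ![false, true, false, true] r

/-- The parameter from the lower left end. -/
noncomputable def tu (r : Fin 4) (t : ℝ) : ℝ := ![t, t, 1 - t, 1 - t] r

theorem sp_lo (P : ℤ × ℤ) (r : Fin 4) (t : ℝ) : sp P r t =
    if ov r then (((lo P r).1 : ℝ), ((lo P r).2 : ℝ) + tu r t)
    else (((lo P r).1 : ℝ) + tu r t, ((lo P r).2 : ℝ)) := by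
  fin_cases r
  · simp [sp, ov, lo, tu, dir]
  · simp [sp, ov, lo, tu, dir]
  · simp [sp, ov, lo, tu, dir]; ring
  · simp [sp, ov, lo, tu, dir]; ring

theorem tu_mem {r : Fin 4} {t δ : ℝ} (h0 : δ ≤ t) (h1 : t ≤ 1 - δ) :
    δ ≤ tu r t ∧ tu r t ≤ 1 - δ := by
  fin_cases r
  · exact ⟨h0, h1⟩
  · exact ⟨h0, h1⟩
  · exact ⟨by show δ ≤ 1 - t; linarith, by show 1 - t ≤ 1 - δ; linarith⟩
  · exact ⟨by show δ ≤ 1 - t; linarith, by show 1 - t ≤ 1 - δ; linarith⟩

variable {l : ℕ} {p : ZMod l → ℤ × ℤ} {S₀ : Finset (ℤ × ℤ)}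

theorem two_ne (hl : 2 < l) : (2 : ZMod l) ≠ 0 := by
  intro h
  have h1 : ((2 : ℕ) : ZMod l) = 0 := by exact_mod_cast h
  rw [ZMod.natCast_eq_zero_iff] at h1
  exact absurd (Nat.le_of_dvd (by norm_num) h1) (by omega)

theorem lo_inj (hp : IsPolygon p) {i i' : ℕ}
    (h : lo (p i) (pdir p i) = lo (p i') (pdir p i')) (ho : ov (pdir p i) = ov (pdir p i')) :
    (i : ZMod l) = i' := by
  have s1 := pdir_spec hp i
  have s2 := pdir_spec hp i'
  have opp : ∀ i i' : ZMod l, p i = p (i' + 1) → p (i + 1) = p i' → i = i' := by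
    intro i i' a b
    have a' := hp.2.1 a
    have b' := hp.2.1 b
    exfalso
    apply two_ne hp.1
    have : i' + 1 + 1 = i' := by rw [← a', b']
    have h2 : i' + 2 = i' + 0 := by
      rw [add_zero]
      calc i' + 2 = i' + 1 + 1 := by ring
        _ = i' := this
    exact add_left_cancel h2
  generalize pdir p i = r at *
  generalize pdir p i' = r' at *
  have d0 : dir 0 = (1, 0) := rfl
  have d1 : dir 1 = (0, 1) := rfl
  have d2 : dir 2 = (-1, 0) := rfl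
  have d3 : dir 3 = (0, -1) := rfl
  fin_cases r <;> fin_cases r' <;> simp [ov, lo] at h ho s1 s2
  · exact hp.2.1 h
  · refine opp _ _ ?_ ?_
    · rw [s2, h, d2]
      ext <;> simp <;> ring
    · rw [s1, h, d0]
      ext <;> simp
  · exact hp.2.1 h
  · refine opp _ _ ?_ ?_
    · rw [s2, h, d3]
      ext <;> simp <;> ring
    · rw [s1, h, d1]
      ext <;> simp
  · refine (opp _ _ ?_ ?_).symm
    · rw [s1, ← h, d2]
      ext <;> simp <;> ring
    · rw [s2, ← h, d0]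
      ext <;> simp
  · exact hp.2.1 (Prod.ext (by simpa using h.1) h.2)
  · refine (opp _ _ ?_ ?_).symm
    · rw [s1, ← h, d3]
      ext <;> simp <;> ring
    · rw [s2, ← h, d1]
      ext <;> simp
  · exact hp.2.1 (Prod.ext h.1 (by simpa using h.2))

/-- Points in the interior of two different unit edges are far. -/
theorem edges_far {P P' : ℤ × ℤ} {r r' : Fin 4} {t t' δ : ℝ} (h0 : δ ≤ t) (h1 : t ≤ 1 - δ)
    (h0' : δ ≤ t') (h1' : t' ≤ 1 - δ) (hδ : 0 ≤ δ)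
    (h : ¬ (lo P r = lo P' r' ∧ ov r = ov r')) :
    δ ≤ |(sp P r t).1 - (sp P' r' t').1| ∨ δ ≤ |(sp P r t).2 - (sp P' r' t').2| := by
  obtain ⟨a, b⟩ := tu_mem (r := r) h0 h1
  obtain ⟨a', b'⟩ := tu_mem (r := r') h0' h1'
  rw [sp_lo, sp_lo]
  generalize tu r t = s at *
  generalize tu r' t' = s' at *
  generalize lo P r = Q at *
  generalize lo P' r' = Q' at *
  -- integers
  have key : ∀ (x x' : ℤ) (s : ℝ), δ ≤ s → s ≤ 1 - δ → δ ≤ |(x : ℝ) + s - x'| := by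
    intro x x' s k1 k2
    rcases le_or_gt x' x with hx | hx
    · have : (x' : ℝ) ≤ x := by exact_mod_cast hx
      exact le_trans (by linarith) (le_abs_self _)
    · have : (x : ℝ) + 1 ≤ x' := by exact_mod_cast hx
      rw [abs_sub_comm]
      exact le_trans (by linarith) (le_abs_self _)
  have key2 : ∀ (x x' : ℤ) (s s' : ℝ), x ≠ x' → δ ≤ s → s ≤ 1 - δ → δ ≤ s' → s' ≤ 1 - δ →
      δ ≤ |(x : ℝ) + s - (x' + s')| := by
    intro x x' s s' hx k1 k2 k3 k4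
    rcases lt_or_gt_of_ne hx with hx | hx
    · have : (x : ℝ) + 1 ≤ x' := by exact_mod_cast hx
      rw [abs_sub_comm]
      exact le_trans (by linarith) (le_abs_self _)
    · have : (x' : ℝ) + 1 ≤ x := by exact_mod_cast hx
      exact le_trans (by linarith) (le_abs_self _)
  have key3 : ∀ (x x' : ℤ), x ≠ x' → δ ≤ |(x : ℝ) - x'| := by
    intro x x' hx
    rcases lt_or_gt_of_ne hx with hx | hx
    · have : (x : ℝ) + 1 ≤ x' := by exact_mod_cast hx
      rw [abs_sub_comm]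
      exact le_trans (by linarith) (le_abs_self _)
    · have : (x' : ℝ) + 1 ≤ x := by exact_mod_cast hx
      exact le_trans (by linarith) (le_abs_self _)
  generalize ov r = o at *
  generalize ov r' = o' at *
  cases o <;> cases o'
  · simp only [Bool.false_eq_true, ↓reduceIte]
    by_cases hx : Q.1 = Q'.1
    · have hy : Q.2 ≠ Q'.2 := fun hy => h ⟨Prod.ext hx hy, rfl⟩
      exact Or.inr (key3 _ _ hy)
    · exact Or.inl (key2 _ _ _ _ hx a b a' b')
  · simp only [Bool.false_eq_true, ↓reduceIte]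
    exact Or.inl (key _ _ _ a b)
  · simp only [Bool.false_eq_true, ↓reduceIte]
    exact Or.inr (key _ _ _ a b)
  · simp only [↓reduceIte]
    by_cases hy : Q.2 = Q'.2
    · have hx : Q.1 ≠ Q'.1 := fun hx => h ⟨Prod.ext hx hy, rfl⟩
      exact Or.inl (key3 _ _ hx)
    · exact Or.inr (key2 _ _ _ _ hy a b a' b')

/-! ### marks -/

theorem exists_gap {ι : Type} (s : Finset ι) (f : ι → ℝ) (h : ∀ i ∈ s, 0 < f i) :
    ∃ g > 0, ∀ i ∈ s, g ≤ f i := by
  classical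
  induction s using Finset.induction_on with
  | empty => exact ⟨1, one_pos, by simp⟩
  | insert a s ha ih =>
    obtain ⟨g, hg, h'⟩ := ih fun i hi => h i (mem_insert_of_mem hi)
    refine ⟨min g (f a), lt_min hg (h a (mem_insert_self _ _)), fun i hi => ?_⟩
    rcases mem_insert.1 hi with rfl | hi
    · exact min_le_right _ _
    · exact (min_le_left _ _).trans (h' i hi)

theorem marks_mono {Q : Marks} (hQ : Q.Ok) (i : ℕ) {a b : ℕ} (hab : a ≤ b) (hb : b ≤ Q.m + 1) :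
    Q.θ i a ≤ Q.θ i b := by
  induction b, hab using Nat.le_induction with
  | base => exact le_rfl
  | succ b _ ih => exact (ih (by omega)).trans (hQ.lt i b (by omega)).le

theorem marks_mem {Q : Marks} (hQ : Q.Ok) (i : ℕ) {j : ℕ} (hj : j ≤ Q.m + 1) :
    0 ≤ Q.θ i j ∧ Q.θ i j ≤ 1 := by
  constructor
  · rw [← hQ.zero i]
    exact marks_mono hQ i (Nat.zero_le _) hj
  · rw [← hQ.one i]
    exact marks_mono hQ i hj le_rfl

/-- A lower bound of all the gaps. -/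
def Gap (Q : Marks) (l : ℕ) (g : ℝ) : Prop :=
  (∀ i < l, ∀ j ≤ Q.m, Q.θ i j + g ≤ Q.θ i (j + 1)) ∧ ∀ j ≤ Q.m + 1, g ≤ |Q.θ 0 j - Q.tp|

theorem exists_Gap {Q : Marks} (hQ : Q.Ok) (l : ℕ) : ∃ g > 0, Gap Q l g := by
  obtain ⟨g1, hg1, h1⟩ := exists_gap (range l ×ˢ range (Q.m + 1))
    (fun x => Q.θ x.1 (x.2 + 1) - Q.θ x.1 x.2) fun x hx => by
      rw [mem_product, mem_range, mem_range] at hx
      have := hQ.lt x.1 x.2 (by omega)
      linarith
  obtain ⟨g2, hg2, h2⟩ := exists_gap (range (Q.m + 2)) (fun j => |Q.θ 0 j - Q.tp|) fun j _ =>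
    abs_pos.2 (sub_ne_zero.2 (hQ.tpne j))
  refine ⟨min g1 g2, lt_min hg1 hg2, fun i hi j hj => ?_, fun j hj => ?_⟩
  · have := h1 (i, j) (mem_product.2 ⟨mem_range.2 hi, mem_range.2 (by omega)⟩)
    simp only at this
    have := min_le_left g1 g2
    linarith
  · exact (min_le_right _ _).trans (h2 j (mem_range.2 (by omega)))

theorem Gap.mono {Q : Marks} {l : ℕ} {g g' : ℝ} (h : Gap Q l g) (hg : g' ≤ g) : Gap Q l g' :=
  ⟨fun i hi j hj => by linarith [h.1 i hi j hj], fun j hj => hg.trans (h.2 j hj)⟩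

/-- The base point is far from both ends of its wall. -/
theorem Gap.tp {Q : Marks} {l : ℕ} {g : ℝ} (h : Gap Q l g) {j : ℕ} (hj : j ≤ Q.m)
    (h1 : Q.θ 0 j < Q.tp) (h2 : Q.tp < Q.θ 0 (j + 1)) :
    Q.θ 0 j + g ≤ Q.tp ∧ Q.tp + g ≤ Q.θ 0 (j + 1) := by
  have a := h.2 j (by omega)
  have b := h.2 (j + 1) (by omega)
  rw [abs_of_nonpos (by linarith)] at a
  rw [abs_of_nonneg (by linarith)] at b
  constructor <;> linarith

/-! ### walls of the polygon -/

/-- Positions of the cut edges of a wall of the polygon. -/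
theorem pwall_pos {Q : Marks} (hQ : Q.Ok) {δ : ℝ} {n : ℕ} (hn : 8 ≤ δ * n) {i j : ℕ}
    (hj : j ≤ Q.m) (hg : Q.θ i j + 4 * δ ≤ Q.θ i (j + 1)) {k : ℕ}
    (hk : k < (pwall p Q n ⌊δ * n⌋₊ i j).L) :
    ∃ t : ℝ, Q.θ i j + δ / 2 ≤ t ∧ t ≤ Q.θ i (j + 1) - δ / 2 ∧
      |(((pwall p Q n ⌊δ * n⌋₊ i j).pos k).1 : ℝ) - n * (sp (p i) (pdir p i) t).1| ≤ 1 ∧
      |(((pwall p Q n ⌊δ * n⌋₊ i j).pos k).2 : ℝ) - n * (sp (p i) (pdir p i) t).2| ≤ 1 ∧
      ∃ v, nm (v - (pwall p Q n ⌊δ * n⌋₊ i j).pos k) ≤ 1 ∧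
        Blk n (face (p i) (pdir p i - 1)) v := by
  have m1 := marks_mem hQ i (j := j) (by omega)
  have m2 := marks_mem hQ i (j := j + 1) (by omega)
  obtain ⟨e1, e2, e3, e4, e5⟩ := ends (δ := δ) (θ := Q.θ i j) (θ' := Q.θ i (j + 1)) (n := n)
    ((n : ℤ) • p i) (bsite p Q n) m1.1 m2.2 hg hn
  obtain ⟨t, t1, t2, t3, t4, t5⟩ := sideWall_pos (p i) (pdir p i) _ _ e5 hk
  have hn0 : (0 : ℝ) < n := by
    rcases Nat.eq_zero_or_pos n with h | h
    · subst h
      norm_num at hn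
    · exact_mod_cast h
  have t1' : ((rnd ((n : ℤ) • p i) (bsite p Q n) (⌊Q.θ i j * n⌋₊ + ⌊δ * n⌋₊) : ℕ) : ℝ) ≤ t := by
    exact_mod_cast t1
  have t2' : (t : ℝ) ≤
      (rnd ((n : ℤ) • p i) (bsite p Q n) (⌊Q.θ i (j + 1) * n⌋₊ - ⌊δ * n⌋₊) : ℕ) := by
    exact_mod_cast t2
  refine ⟨t / n, ?_, ?_, ?_, ?_, t5⟩
  · rw [le_div_iff₀ hn0]
    linarith
  · rw [div_le_iff₀ hn0]
    linarith
  · have h3 : (n : ℝ) * (sp (p i) (pdir p i) (t / n)).1 =
        ((n * (p i).1 + t * (dir (pdir p i)).1 : ℤ) : ℝ) := by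
      unfold sp
      push_cast
      field_simp
    rw [h3]
    exact_mod_cast t3
  · have h4 : (n : ℝ) * (sp (p i) (pdir p i) (t / n)).2 =
        ((n * (p i).2 + t * (dir (pdir p i)).2 : ℤ) : ℝ) := by
      unfold sp
      push_cast
      field_simp
    rw [h4]
    exact_mod_cast t4

theorem nm_of_far {v w : ℤ × ℤ} {X Y : ℝ × ℝ} {n : ℕ} {η : ℝ}
    (a1 : |(v.1 : ℝ) - n * X.1| ≤ 1) (a2 : |(v.2 : ℝ) - n * X.2| ≤ 1)
    (b1 : |(w.1 : ℝ) - n * Y.1| ≤ 1) (b2 : |(w.2 : ℝ) - n * Y.2| ≤ 1)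
    (h : η ≤ |X.1 - Y.1| ∨ η ≤ |X.2 - Y.2|) : η * n - 2 ≤ (nm (v - w) : ℝ) := by
  have hn0 : (0 : ℝ) ≤ n := Nat.cast_nonneg n
  have one : ∀ {x y a c : ℝ}, |a - n * x| ≤ 1 → |c - n * y| ≤ 1 → η ≤ |x - y| →
      η * n - 2 ≤ |a - c| := by
    intro x y a c h1 h2 h3
    have e : n * (x - y) = (a - c) - (a - n * x) + (c - n * y) := by ring
    have h4 : |(n : ℝ) * (x - y)| ≤ |a - c| + |a - n * x| + |c - n * y| := by
      rw [e]
      exact (abs_add_le _ _).trans (add_le_add (abs_sub _ _) le_rfl)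
    rw [abs_mul, abs_of_nonneg hn0] at h4
    nlinarith
  have e : (nm (v - w) : ℝ) = max |(v.1 : ℝ) - w.1| |(v.2 : ℝ) - w.2| := by
    simp [nm]
  rw [e]
  rcases h with h | h
  · exact le_max_of_le_left (one a1 b1 h)
  · exact le_max_of_le_right (one a2 b2 h)

theorem sp_bd (P : ℤ × ℤ) (r : Fin 4) {t : ℝ} (h0 : 0 ≤ t) (h1 : t ≤ 1) :
    |(sp P r t).1| ≤ nm P + 1 ∧ |(sp P r t).2| ≤ nm P + 1 := by
  have e : (nm P : ℝ) = max |(P.1 : ℝ)| |(P.2 : ℝ)| := by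
    simp [nm]
  have d1 : |((dir r).1 : ℝ)| ≤ 1 := by fin_cases r <;> simp [dir]
  have d2 : |((dir r).2 : ℝ)| ≤ 1 := by fin_cases r <;> simp [dir]
  have k : ∀ {x y : ℝ}, |y| ≤ 1 → |x + t * y| ≤ |x| + 1 := by
    intro x y hy
    refine (abs_add_le _ _).trans (add_le_add le_rfl ?_)
    rw [abs_mul, abs_of_nonneg h0]
    exact mul_le_one₀ h1 (abs_nonneg _) hy
  rw [e]
  exact ⟨(k d1).trans (add_le_add (le_max_left _ _) le_rfl),
    (k d2).trans (add_le_add (le_max_right _ _) le_rfl)⟩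

end Vale.Agent.P167.H199
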