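import Vale.Agent.P167.H199.PwAdm
import Vale.Agent.P167.H199.OsW

/-!
P167, block 2A: `adm_PW`, the walls of a lattice polygon with holes and a flow in the interior form
an admissible configuration.
-/

namespace Vale.Agent.P167.H199

open Finset Filter Topology
open Vale.Agent.P167.E6 (IsPolygon Encloses dir region face pt)
open Vale.Agent.P167.H825 (Wall WC Marks Box pdir dirOf sideWall pwall rnd bsite PW enl epos dv
  FlowIn ptau)

variable {l : ℕ} {p : ZMod l → ℤ × ℤ} {S₀ : Finset (ℤ × ℤ)}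

theorem nat_inj {i i' : ℕ} (h : i < l) (h' : i' < l) (he : (i : ZMod l) = i') : i = i' := by
  have := (ZMod.natCast_eq_natCast_iff' i i' l).1 he
  rwa [Nat.mod_eq_of_lt h, Nat.mod_eq_of_lt h'] at this

/-- Two different walls of the polygon are far from each other. -/
theorem pwall_sep (hp : IsPolygon p) {Q : Marks} (hQ : Q.Ok) {g δ : ℝ} (hG : Gap Q l g)
    (hδ : 0 < δ) (hδg : 4 * δ ≤ g) {n : ℕ} (hn : 8 ≤ δ * n) {i j i' j' : ℕ} (hi : i < l)
    (hi' : i' < l) (hj : j ≤ Q.m) (hj' : j' ≤ Q.m) (hne : (i, j) ≠ (i', j')) {k k' : ℕ}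
    (hk : k < (pwall p Q n ⌊δ * n⌋₊ i j).L) (hk' : k' < (pwall p Q n ⌊δ * n⌋₊ i' j').L) :
    δ / 4 * n ≤ (nm ((pwall p Q n ⌊δ * n⌋₊ i j).pos k -
      (pwall p Q n ⌊δ * n⌋₊ i' j').pos k') : ℝ) := by
  have g1 := hG.1 i hi j hj
  have g2 := hG.1 i' hi' j' hj'
  obtain ⟨t, t1, t2, t3, t4, -⟩ := pwall_pos (p := p) hQ hn hj (by linarith) hk
  obtain ⟨t', t1', t2', t3', t4', -⟩ := pwall_pos (p := p) hQ hn hj' (by linarith) hk'
  have m1 := marks_mem hQ i (j := j) (by omega)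
  have m2 := marks_mem hQ i (j := j + 1) (by omega)
  have m1' := marks_mem hQ i' (j := j') (by omega)
  have m2' := marks_mem hQ i' (j := j' + 1) (by omega)
  have key : δ / 2 ≤ |(sp (p i) (pdir p i) t).1 - (sp (p i') (pdir p i') t').1| ∨
      δ / 2 ≤ |(sp (p i) (pdir p i) t).2 - (sp (p i') (pdir p i') t').2| := by
    by_cases hii : i = i'
    · subst hii
      have hjj : j ≠ j' := fun h => hne (by rw [h])
      have ht : δ ≤ |t - t'| := by
        rcases lt_or_gt_of_ne hjj with h | h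
        · have := marks_mono hQ i (a := j + 1) (b := j') (by omega) (by omega)
          rw [abs_sub_comm]
          exact le_trans (by linarith) (le_abs_self _)
        · have := marks_mono hQ i (a := j' + 1) (b := j) (by omega) (by omega)
          exact le_trans (by linarith) (le_abs_self _)
      have e1 : ∀ u : ℤ, (sp (p i) (pdir p i) t).1 - (sp (p i) (pdir p i) t').1 =
          (t - t') * (dir (pdir p i)).1 := fun _ => by simp only [sp]; ring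
      have e2 : ∀ u : ℤ, (sp (p i) (pdir p i) t).2 - (sp (p i) (pdir p i) t').2 =
          (t - t') * (dir (pdir p i)).2 := fun _ => by simp only [sp]; ring
      rw [e1 0, e2 0, abs_mul, abs_mul]
      generalize pdir p i = r
      fin_cases r
      · left; simp [dir]; linarith
      · right; simp [dir]; linarith
      · left; simp [dir]; linarith
      · right; simp [dir]; linarith
    · refine edges_far (by linarith) (by linarith) (by linarith) (by linarith) (by linarith) ?_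
      rintro ⟨h1, h2⟩
      exact hii (nat_inj hi hi' (lo_inj hp h1 h2))
  have := nm_of_far t3 t4 t3' t4' key
  linarith

/-- Lengths of the walls, position of the jump. -/
theorem pwall_len {Q : Marks} (hQ : Q.Ok) {g δ : ℝ} (hG : Gap Q l g) (hδg : 4 * δ ≤ g) {n : ℕ}
    (hn : 8 ≤ δ * n) {i j : ℕ} (hi : i < l) (hj : j ≤ Q.m) :
    δ * n ≤ (pwall p Q n ⌊δ * n⌋₊ i j).L ∧
    ((pwall p Q n ⌊δ * n⌋₊ i j).j = 0 ∨ (((pwall p Q n ⌊δ * n⌋₊ i j).j = 1 ∨
      (pwall p Q n ⌊δ * n⌋₊ i j).j = -1) ∧ δ * n ≤ (pwall p Q n ⌊δ * n⌋₊ i j).k0 ∧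
      (pwall p Q n ⌊δ * n⌋₊ i j).k0 + δ * n ≤ (pwall p Q n ⌊δ * n⌋₊ i j).L)) := by
  have g1 := hG.1 i hi j hj
  have m1 := marks_mem hQ i (j := j) (by omega)
  have m2 := marks_mem hQ i (j := j + 1) (by omega)
  obtain ⟨e1, e2, e3, e4, e5⟩ := ends (δ := δ) (θ := Q.θ i j) (θ' := Q.θ i (j + 1)) (n := n)
    ((n : ℤ) • p i) (bsite p Q n) m1.1 m2.2 (by linarith) hn
  have hn0 : (0 : ℝ) < n := by
    rcases Nat.eq_zero_or_pos n with h | h
    · subst h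
      norm_num at hn
    · exact_mod_cast h
  have hθ : (Q.θ i j + 4 * δ) * n ≤ Q.θ i (j + 1) * n :=
    mul_le_mul_of_nonneg_right (by linarith) hn0.le
  have hj' := sideWall_jump ((n : ℤ) • p i) (pdir p i)
    (rnd ((n : ℤ) • p i) (bsite p Q n) (⌊Q.θ i j * n⌋₊ + ⌊δ * n⌋₊))
    (rnd ((n : ℤ) • p i) (bsite p Q n) (⌊Q.θ i (j + 1) * n⌋₊ - ⌊δ * n⌋₊))
    (Real.pi / 12 * ptau p i + if i = 0 ∧ Q.θ 0 j < Q.tp then Real.pi / 3 else 0)
    (if i = 0 ∧ Q.θ 0 j < Q.tp ∧ Q.tp < Q.θ 0 (j + 1) then some ⌊Q.tp * n⌋₊ else none)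
  unfold pwall
  rw [sideWall_L]
  generalize hs : rnd ((n : ℤ) • p i) (bsite p Q n) (⌊Q.θ i j * n⌋₊ + ⌊δ * n⌋₊) = s at *
  generalize he : rnd ((n : ℤ) • p i) (bsite p Q n) (⌊Q.θ i (j + 1) * n⌋₊ - ⌊δ * n⌋₊) = e at *
  have hse : s ≤ e := by
    have : (s : ℝ) ≤ e := by nlinarith
    exact_mod_cast this
  rw [Nat.cast_sub hse]
  refine ⟨by nlinarith, ?_⟩
  by_cases hc : i = 0 ∧ Q.θ 0 j < Q.tp ∧ Q.tp < Q.θ 0 (j + 1)
  · rw [if_pos hc] at hj' ⊢
    obtain ⟨hi0, h1, h2⟩ := hc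
    subst hi0
    obtain ⟨q1, q2⟩ := hG.tp hj h1 h2
    have q1' : (Q.θ 0 j + 4 * δ) * n ≤ Q.tp * n := mul_le_mul_of_nonneg_right (by linarith) hn0.le
    have q2' : (Q.tp + 4 * δ) * n ≤ Q.θ 0 (j + 1) * n :=
      mul_le_mul_of_nonneg_right (by linarith) hn0.le
    have c1 := Nat.lt_floor_add_one (Q.tp * n)
    have c2 := Nat.floor_le (show 0 ≤ Q.tp * n by have := hQ.tp0; positivity)
    obtain ⟨b1, b2⟩ := hj'.2 _ rfl
    have hsT : s ≤ ⌊Q.tp * n⌋₊ := by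
      have : (s : ℝ) ≤ ⌊Q.tp * n⌋₊ := by nlinarith
      exact_mod_cast this
    have hTe : ⌊Q.tp * n⌋₊ ≤ e := by
      have : (⌊Q.tp * n⌋₊ : ℝ) ≤ e := by nlinarith
      exact_mod_cast this
    right
    refine ⟨b1, ?_⟩
    rcases b2 with b2 | b2
    · rw [b2, Nat.cast_sub hsT]
      constructor <;> nlinarith
    · rw [b2, Nat.cast_sub hTe]
      constructor <;> nlinarith
  · rw [if_neg hc] at hj' ⊢
    exact Or.inl (hj'.1 rfl)

/-- **The walls of a polygon with holes and a flow in the interior are admissible.** -/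
theorem adm_PW [NeZero l] (hp : IsPolygon p) (hS : Encloses p S₀) {Q : Marks} (hQ : Q.Ok) :
    ∃ δ₀ : ℝ, 0 < δ₀ ∧ ∀ δ : ℝ, 0 < δ → δ < δ₀ → ∀ κ₀ : ℝ, 0 < κ₀ → ∃ κ : ℝ, 0 < κ ∧ ∃ R : ℝ,
      ∀ B : ℝ, ∀ᶠ n : ℕ in atTop, ∀ c : Ed → ℝ, FlowIn (enl S₀ n) κ₀ B n c →
        (PW p Q n ⌊δ * n⌋₊ c).Adm κ R B n := by
  obtain ⟨g, hg, hG⟩ := exists_Gap hQ l
  refine ⟨g / 4, by positivity, fun δ hδ hδg κ₀ hκ₀ => ?_⟩
  have hδg' : 4 * δ ≤ g := by linarith
  set R0 : ℝ := ∑ i ∈ range l, (nm (p i) : ℝ) + ∑ f ∈ S₀, (nm f : ℝ) with hR0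
  have nm0 : ∀ v : ℤ × ℤ, (0 : ℝ) ≤ nm v := fun v => by
    have : (0 : ℤ) ≤ nm v := by
      unfold nm
      positivity
    exact_mod_cast this
  have R1 : ∀ i < l, (nm (p i) : ℝ) ≤ R0 := fun i hi => by
    have h1 := single_le_sum (f := fun i : ℕ => (nm (p i) : ℝ)) (fun i _ => nm0 _)
      (mem_range.2 hi)
    have h2 : (0 : ℝ) ≤ ∑ f ∈ S₀, (nm f : ℝ) := sum_nonneg fun f _ => nm0 f
    linarith
  have R2 : ∀ f ∈ S₀, (nm f : ℝ) ≤ R0 := fun f hf => by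
    have h1 := single_le_sum (f := fun f : ℤ × ℤ => (nm f : ℝ)) (fun i _ => nm0 _) hf
    have h2 : (0 : ℝ) ≤ ∑ i ∈ range l, (nm (p i) : ℝ) := sum_nonneg fun f _ => nm0 _
    linarith
  refine ⟨min (δ / 4) (κ₀ / 2), by positivity, R0 + 2, fun B => ?_⟩
  filter_upwards [(tendsto_natCast_atTop_atTop (R := ℝ)).eventually_ge_atTop (8 / δ),
    (tendsto_natCast_atTop_atTop (R := ℝ)).eventually_ge_atTop (2 / κ₀),
    eventually_gt_atTop 0] with n hn hn' hn0 c hc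
  have hn0' : (0 : ℝ) < n := by exact_mod_cast hn0
  have hn1 : (1 : ℝ) ≤ n := by exact_mod_cast hn0
  rw [div_le_iff₀ hδ] at hn
  rw [div_le_iff₀ hκ₀] at hn'
  have h8 : 8 ≤ δ * n := by linarith
  have mκ1 : min (δ / 4) (κ₀ / 2) * n ≤ δ / 4 * n :=
    mul_le_mul_of_nonneg_right (min_le_left _ _) hn0'.le
  have mκ2 : min (δ / 4) (κ₀ / 2) * n ≤ κ₀ / 2 * n :=
    mul_le_mul_of_nonneg_right (min_le_right _ _) hn0'.le
  have hm : ∀ j : Fin (Q.m + 1), (j : ℕ) ≤ Q.m := fun j => by omega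
  refine ⟨fun x => ?_, fun x k hk => ?_, fun x x' hne k hk k' hk' => ?_, fun x => ?_,
    fun e he => ⟨?_, fun x k hk => ?_⟩, hc.cle, hc.dle⟩
  · have := (pwall_len (p := p) hQ hG hδg' h8 x.1.2 (hm x.2)).1
    exact le_trans (by nlinarith) this
  · have g1 := hG.1 x.1 x.1.2 x.2 (hm x.2)
    obtain ⟨t, t1, t2, t3, t4, -⟩ := pwall_pos (p := p) hQ h8 (hm x.2) (by linarith) hk
    have m1 := marks_mem hQ x.1 (j := x.2) (by omega)
    have m2 := marks_mem hQ x.1 (j := x.2 + 1) (by omega)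
    obtain ⟨b1, b2⟩ := sp_bd (p (x.1 : ℕ)) (pdir p x.1) (t := t) (by linarith) (by linarith)
    have r1 := R1 x.1 x.1.2
    have key : ∀ {a X : ℝ}, |a - n * X| ≤ 1 → |X| ≤ nm (p (x.1 : ℕ)) + 1 →
        |a| ≤ (R0 + 2) * n := by
      intro a X h1 h2
      have h3 : |a| ≤ |a - n * X| + |n * X| := by
        have := abs_add_le (a - n * X) (n * X)
        rwa [sub_add_cancel] at this
      rw [abs_mul, abs_of_pos hn0'] at h3
      nlinarith
    have e1 : (nm ((pwall p Q n ⌊δ * n⌋₊ x.1 x.2).pos k) : ℝ) =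
        max |(((pwall p Q n ⌊δ * n⌋₊ x.1 x.2).pos k).1 : ℝ)|
          |(((pwall p Q n ⌊δ * n⌋₊ x.1 x.2).pos k).2 : ℝ)| := by
      simp [nm]
    show (nm ((pwall p Q n ⌊δ * n⌋₊ x.1 x.2).pos k) : ℝ) ≤ _
    rw [e1]
    exact max_le (key t3 b1) (key t4 b2)
  · have hne' : ((x.1 : ℕ), (x.2 : ℕ)) ≠ ((x'.1 : ℕ), (x'.2 : ℕ)) := fun h => hne (by
      rw [Prod.mk.injEq] at h
      exact Prod.ext (Fin.ext h.1) (Fin.ext h.2))
    exact mκ1.trans (pwall_sep hp hQ hG hδ hδg' h8 x.1.2 x'.1.2 (hm _) (hm _) hne' hk hk')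
  · rcases (pwall_len (p := p) hQ hG hδg' h8 x.1.2 (hm x.2)).2 with h | ⟨h1, h2, h3⟩
    · exact Or.inl h
    · exact Or.inr ⟨h1, le_trans (by nlinarith) h2, le_trans (by
        show _ ≤ ((pwall p Q n ⌊δ * n⌋₊ x.1 x.2).k0 : ℝ) + δ * n
        have : ((PW p Q n ⌊δ * n⌋₊ c).w x).k0 = (pwall p Q n ⌊δ * n⌋₊ x.1 x.2).k0 := rfl
        rw [this]
        nlinarith) h3⟩
  · have hz : (nm (epos e - epos e) : ℝ) ≤ κ₀ * n := by
      rw [sub_self]
      have : nm (0 : ℤ × ℤ) = 0 := by simp [nm]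
      rw [this]
      push_cast
      positivity
    obtain ⟨f, hf, h1, h2⟩ := H327.mem_enl.1 (hc.sup e he _ hz)
    have r2 := R2 f hf
    have key : ∀ {a b : ℤ}, |b| ≤ nm f → n * b ≤ a → a < n * b + n → |(a : ℝ)| ≤ (R0 + 2) * n := by
      intro a b hb u1 u2
      have u1' : (n : ℝ) * b ≤ a := by exact_mod_cast u1
      have u2' : (a : ℝ) < n * b + n := by exact_mod_cast u2
      have hb' : |(b : ℝ)| ≤ nm f := by exact_mod_cast hb
      rw [abs_le] at hb' ⊢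
      constructor
      · nlinarith [hb'.1]
      · nlinarith [hb'.2]
    have e1 : (nm (epos e) : ℝ) = max |((epos e).1 : ℝ)| |((epos e).2 : ℝ)| := by
      simp [nm]
    rw [e1]
    exact max_le (key (le_max_left _ _) h1.1 h1.2) (key (le_max_right _ _) h2.1 h2.2)
  · have g1 := hG.1 x.1 x.1.2 x.2 (hm x.2)
    obtain ⟨t, t1, t2, t3, t4, v, hv, hb⟩ :=
      pwall_pos (p := p) hQ h8 (hm x.2) (by linarith) hk
    have hout : v ∉ enl S₀ n := hb.notMem (face_out hp hS x.1)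
    by_contra hlt
    push Not at hlt
    apply hout
    refine hc.sup e he v ?_
    have h1 : (nm (v - epos e) : ℝ) ≤
        nm (v - (pwall p Q n ⌊δ * n⌋₊ x.1 x.2).pos k) +
          nm (epos e - (pwall p Q n ⌊δ * n⌋₊ x.1 x.2).pos k) := by
      have := nm_add (v - (pwall p Q n ⌊δ * n⌋₊ x.1 x.2).pos k)
        (-(epos e - (pwall p Q n ⌊δ * n⌋₊ x.1 x.2).pos k))
      rw [nm_neg] at this
      have e2 : v - (pwall p Q n ⌊δ * n⌋₊ x.1 x.2).pos k +
          -(epos e - (pwall p Q n ⌊δ * n⌋₊ x.1 x.2).pos k) = v - epos e := by abel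
      rw [e2] at this
      exact_mod_cast this
    have h2 : (nm (v - (pwall p Q n ⌊δ * n⌋₊ x.1 x.2).pos k) : ℝ) ≤ 1 := by exact_mod_cast hv
    have h3 : (nm (epos e - (pwall p Q n ⌊δ * n⌋₊ x.1 x.2).pos k) : ℝ) <
      min (δ / 4) (κ₀ / 2) * n := hlt
    linarith

end Vale.Agent.P167.H199
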