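import Vale.Agent.P167.H199.MkReg

/-!
P167, block 2A: positions of the cut edges of the walls of a lattice polygon.
-/

namespace Vale.Agent.P167.H199

open Finset Filter Topology
open Vale.Agent.P167.E6 (IsPolygon Encloses dir region face pt)
open Vale.Agent.P167.H825 (Wall WC Marks Box pdir dirOf sideWall pwall rnd bsite PW enl epos dv
  FlowIn)

/-- `v` is in the block of the face `f`. -/
def Blk (n : ℕ) (f v : ℤ × ℤ) : Prop :=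
  (n * f.1 ≤ v.1 ∧ v.1 < n * f.1 + n) ∧ n * f.2 ≤ v.2 ∧ v.2 < n * f.2 + n

theorem Blk.unique {n : ℕ} {f f' v : ℤ × ℤ} (h : Blk n f v) (h' : Blk n f' v) : f = f' := by
  have key : ∀ a b x : ℤ, n * a ≤ x → x < n * a + n → n * b ≤ x → x < n * b + n → a = b := by
    intro a b x h1 h2 h3 h4
    have hn : (0 : ℤ) < n := by omega
    have h5 : (n : ℤ) * a < n * (b + 1) := by rw [mul_add, mul_one]; omega
    have h6 : (n : ℤ) * b < n * (a + 1) := by rw [mul_add, mul_one]; omega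
    have h7 := lt_of_mul_lt_mul_left h5 hn.le
    have h8 := lt_of_mul_lt_mul_left h6 hn.le
    omega
  exact Prod.ext (key _ _ _ h.1.1 h.1.2 h'.1.1 h'.1.2) (key _ _ _ h.2.1 h.2.2 h'.2.1 h'.2.2)

theorem Blk.notMem {n : ℕ} {f v : ℤ × ℤ} {S : Finset (ℤ × ℤ)} (h : Blk n f v) (hf : f ∉ S) :
    v ∉ enl S n := by
  rw [H327.mem_enl]
  rintro ⟨g, hg, hb⟩
  exact hf ((h.unique hb) ▸ hg)

theorem Blk.mem {n : ℕ} {f v : ℤ × ℤ} {S : Finset (ℤ × ℤ)} (h : Blk n f v) (hf : f ∈ S) :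
    v ∈ enl S n := H327.mem_enl.2 ⟨f, hf, h⟩

theorem sideWall_L (z : ℤ × ℤ) (r : Fin 4) (s e : ℕ) (a : ℝ) (t0 : Option ℕ) :
    (sideWall z r s e a t0).L = e - s := by
  fin_cases r <;> rfl

/-- Positions of the cut edges of a wall on a side: near the side, next to a square on the right
side. -/
theorem sideWall_pos {n : ℕ} (P : ℤ × ℤ) (r : Fin 4) {s e : ℕ} (a : ℝ) (t0 : Option ℕ)
    (hen : e ≤ n) {k : ℕ} (hk : k < (sideWall ((n : ℤ) • P) r s e a t0).L) :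
    ∃ t : ℕ, s ≤ t ∧ t ≤ e ∧
      |((sideWall ((n : ℤ) • P) r s e a t0).pos k).1 - (n * P.1 + t * (dir r).1)| ≤ 1 ∧
      |((sideWall ((n : ℤ) • P) r s e a t0).pos k).2 - (n * P.2 + t * (dir r).2)| ≤ 1 ∧
      ∃ v, nm (v - (sideWall ((n : ℤ) • P) r s e a t0).pos k) ≤ 1 ∧ Blk n (face P (r - 1)) v := by
  rw [sideWall_L] at hk
  fin_cases r
  · -- east
    have e0 : (sideWall ((n : ℤ) • P) 0 s e a t0).pos k = (n * P.1 + s + k, n * P.2 - 1) := rfl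
    refine ⟨s + k, by omega, by omega, ?_, ?_, (n * P.1 + s + k, n * P.2 - 1), ?_, ?_⟩
    · show |((sideWall ((n : ℤ) • P) 0 s e a t0).pos k).1 - (n * P.1 + ((s + k : ℕ) : ℤ) * 1)| ≤ 1
      rw [e0]
      push_cast
      rw [show (n * P.1 + s + k : ℤ) - (n * P.1 + (s + k) * 1) = 0 by ring]
      simp
    · show |((sideWall ((n : ℤ) • P) 0 s e a t0).pos k).2 - (n * P.2 + ((s + k : ℕ) : ℤ) * 0)| ≤ 1
      rw [e0]
      rw [show (n * P.2 - 1 : ℤ) - (n * P.2 + ((s + k : ℕ) : ℤ) * 0) = -1 by ring]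
      simp
    · show nm (_ - (sideWall ((n : ℤ) • P) 0 s e a t0).pos k) ≤ 1
      rw [e0, sub_self]
      simp [nm]
    · show Blk n (P.1 + 0, P.2 + -1) _
      have h1 : (n : ℤ) * (P.2 + -1) = n * P.2 - n := by ring
      simp only [Blk, add_zero, h1]
      refine ⟨⟨?_, ?_⟩, ?_, ?_⟩ <;> omega
  · -- north
    have e0 : (sideWall ((n : ℤ) • P) 1 s e a t0).pos k = (n * P.1 - 1, n * P.2 + s + k) := rfl
    refine ⟨s + k, by omega, by omega, ?_, ?_, (n * P.1, n * P.2 + s + k), ?_, ?_⟩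
    · show |((sideWall ((n : ℤ) • P) 1 s e a t0).pos k).1 - (n * P.1 + ((s + k : ℕ) : ℤ) * 0)| ≤ 1
      rw [e0]
      rw [show (n * P.1 - 1 : ℤ) - (n * P.1 + ((s + k : ℕ) : ℤ) * 0) = -1 by ring]
      simp
    · show |((sideWall ((n : ℤ) • P) 1 s e a t0).pos k).2 - (n * P.2 + ((s + k : ℕ) : ℤ) * 1)| ≤ 1
      rw [e0]
      push_cast
      rw [show (n * P.2 + s + k : ℤ) - (n * P.2 + (s + k) * 1) = 0 by ring]
      simp
    · show nm (_ - (sideWall ((n : ℤ) • P) 1 s e a t0).pos k) ≤ 1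
      rw [e0, Prod.mk_sub_mk]
      simp [nm]
    · show Blk n (P.1 + 0, P.2 + 0) _
      simp only [Blk, add_zero]
      refine ⟨⟨?_, ?_⟩, ?_, ?_⟩ <;> omega
  · -- west
    have e0 : (sideWall ((n : ℤ) • P) 2 s e a t0).pos k = (n * P.1 - e + k, n * P.2 - 1) := rfl
    refine ⟨e - k, by omega, by omega, ?_, ?_, (n * P.1 - e + k, n * P.2), ?_, ?_⟩
    · show |((sideWall ((n : ℤ) • P) 2 s e a t0).pos k).1 - (n * P.1 + ((e - k : ℕ) : ℤ) * -1)| ≤ 1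
      rw [e0, Nat.cast_sub (by omega)]
      rw [show (n * P.1 - e + k : ℤ) - (n * P.1 + (e - k) * -1) = 0 by ring]
      simp
    · show |((sideWall ((n : ℤ) • P) 2 s e a t0).pos k).2 - (n * P.2 + ((e - k : ℕ) : ℤ) * 0)| ≤ 1
      rw [e0]
      rw [show (n * P.2 - 1 : ℤ) - (n * P.2 + ((e - k : ℕ) : ℤ) * 0) = -1 by ring]
      simp
    · show nm (_ - (sideWall ((n : ℤ) • P) 2 s e a t0).pos k) ≤ 1
      rw [e0, Prod.mk_sub_mk]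
      simp [nm]
    · show Blk n (P.1 + -1, P.2 + 0) _
      have h1 : (n : ℤ) * (P.1 + -1) = n * P.1 - n := by ring
      simp only [Blk, add_zero, h1]
      refine ⟨⟨?_, ?_⟩, ?_, ?_⟩ <;> omega
  · -- south
    have e0 : (sideWall ((n : ℤ) • P) 3 s e a t0).pos k = (n * P.1 - 1, n * P.2 - e + k) := rfl
    refine ⟨e - k, by omega, by omega, ?_, ?_, (n * P.1 - 1, n * P.2 - e + k), ?_, ?_⟩
    · show |((sideWall ((n : ℤ) • P) 3 s e a t0).pos k).1 - (n * P.1 + ((e - k : ℕ) : ℤ) * 0)| ≤ 1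
      rw [e0]
      rw [show (n * P.1 - 1 : ℤ) - (n * P.1 + ((e - k : ℕ) : ℤ) * 0) = -1 by ring]
      simp
    · show |((sideWall ((n : ℤ) • P) 3 s e a t0).pos k).2 - (n * P.2 + ((e - k : ℕ) : ℤ) * -1)| ≤ 1
      rw [e0, Nat.cast_sub (by omega)]
      rw [show (n * P.2 - e + k : ℤ) - (n * P.2 + (e - k) * -1) = 0 by ring]
      simp
    · show nm (_ - (sideWall ((n : ℤ) • P) 3 s e a t0).pos k) ≤ 1
      rw [e0, sub_self]
      simp [nm]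
    · show Blk n (P.1 + -1, P.2 + -1) _
      have h1 : (n : ℤ) * (P.1 + -1) = n * P.1 - n := by ring
      have h2 : (n : ℤ) * (P.2 + -1) = n * P.2 - n := by ring
      simp only [Blk, h1, h2]
      refine ⟨⟨?_, ?_⟩, ?_, ?_⟩ <;> omega

/-- Jumps of the walls of a side. -/
theorem sideWall_jump (z : ℤ × ℤ) (r : Fin 4) (s e : ℕ) (a : ℝ) (t0 : Option ℕ) :
    (t0 = none → (sideWall z r s e a t0).j = 0) ∧
    ∀ t, t0 = some t → ((sideWall z r s e a t0).j = 1 ∨ (sideWall z r s e a t0).j = -1) ∧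
      ((sideWall z r s e a t0).k0 = t - s ∨ (sideWall z r s e a t0).k0 = e - t) := by
  constructor
  · rintro rfl
    fin_cases r <;> rfl
  · rintro t rfl
    fin_cases r
    · exact ⟨Or.inr rfl, Or.inl rfl⟩
    · exact ⟨Or.inr rfl, Or.inl rfl⟩
    · exact ⟨Or.inl rfl, Or.inr rfl⟩
    · exact ⟨Or.inl rfl, Or.inr rfl⟩

theorem rnd_mem (z b : ℤ × ℤ) (t : ℕ) : t ≤ rnd z b t ∧ rnd z b t ≤ t + 1 := by
  unfold rnd
  omega

/-! ### the times of a wall -/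

/-- Bounds for the ends of a wall. -/
theorem ends {δ θ θ' : ℝ} {n : ℕ} (z b : ℤ × ℤ) (h0 : 0 ≤ θ) (h1 : θ' ≤ 1)
    (hg : θ + 4 * δ ≤ θ') (hn : 8 ≤ δ * n) :
    (θ + δ / 2) * n ≤ (rnd z b (⌊θ * n⌋₊ + ⌊δ * n⌋₊) : ℕ) ∧
    ((rnd z b (⌊θ * n⌋₊ + ⌊δ * n⌋₊) : ℕ) : ℝ) ≤ (θ + δ) * n + 1 ∧
    ((rnd z b (⌊θ' * n⌋₊ - ⌊δ * n⌋₊) : ℕ) : ℝ) ≤ (θ' - δ / 2) * n ∧
    (θ' - δ) * n - 1 ≤ (rnd z b (⌊θ' * n⌋₊ - ⌊δ * n⌋₊) : ℕ) ∧
    rnd z b (⌊θ' * n⌋₊ - ⌊δ * n⌋₊) ≤ n := by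
  have hn0 : (0 : ℝ) ≤ n := Nat.cast_nonneg n
  have hδ : 0 ≤ δ := by
    by_contra h
    nlinarith
  have a1 := Nat.lt_floor_add_one (θ * n)
  have a2 := Nat.floor_le (show 0 ≤ θ * n by positivity)
  have b1 := Nat.lt_floor_add_one (δ * n)
  have b2 := Nat.floor_le (show 0 ≤ δ * n by positivity)
  have hθ' : 0 ≤ θ' := by linarith
  have c1 := Nat.lt_floor_add_one (θ' * n)
  have c2 := Nat.floor_le (show 0 ≤ θ' * n by positivity)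
  have r1 := rnd_mem z b (⌊θ * n⌋₊ + ⌊δ * n⌋₊)
  have r2 := rnd_mem z b (⌊θ' * n⌋₊ - ⌊δ * n⌋₊)
  have hg' : (θ + 4 * δ) * n ≤ θ' * n := mul_le_mul_of_nonneg_right hg hn0
  have hθn : 0 ≤ θ * n := by positivity
  have hle : ⌊δ * n⌋₊ ≤ ⌊θ' * n⌋₊ := by
    apply Nat.floor_mono
    nlinarith
  have k1 : ((⌊θ * n⌋₊ + ⌊δ * n⌋₊ : ℕ) : ℝ) ≤ rnd z b (⌊θ * n⌋₊ + ⌊δ * n⌋₊) := by
    exact_mod_cast r1.1
  have k2 : (rnd z b (⌊θ * n⌋₊ + ⌊δ * n⌋₊) : ℝ) ≤ ((⌊θ * n⌋₊ + ⌊δ * n⌋₊ + 1 : ℕ) : ℝ) := by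
    exact_mod_cast r1.2
  have k3 : ((⌊θ' * n⌋₊ - ⌊δ * n⌋₊ : ℕ) : ℝ) ≤ rnd z b (⌊θ' * n⌋₊ - ⌊δ * n⌋₊) := by
    exact_mod_cast r2.1
  have k4 : (rnd z b (⌊θ' * n⌋₊ - ⌊δ * n⌋₊) : ℝ) ≤ ((⌊θ' * n⌋₊ - ⌊δ * n⌋₊ + 1 : ℕ) : ℝ) := by
    exact_mod_cast r2.2
  push_cast [Nat.cast_sub hle] at k1 k2 k3 k4
  have g3 : ((rnd z b (⌊θ' * n⌋₊ - ⌊δ * n⌋₊) : ℕ) : ℝ) ≤ (θ' - δ / 2) * n := by nlinarith
  refine ⟨by nlinarith, by nlinarith, g3, by nlinarith, ?_⟩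
  have g4 : ((rnd z b (⌊θ' * n⌋₊ - ⌊δ * n⌋₊) : ℕ) : ℝ) ≤ n := by nlinarith
  exact_mod_cast g4

end Vale.Agent.P167.H199
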