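import Vale.Agent.P167.H199.PwAdm2
import Vale.Agent.P167.H199.MeasX
import Vale.Agent.P167.H825.Six

/-!
P167, block 2A: the walls of a lattice polygon, split over the regions of a box.
-/

namespace Vale.Agent.P167.H199

open Finset Filter Topology
open Vale.Agent.P167.H592 (LIns EdT)
open Vale.Agent.P167.E6 (IsPolygon Encloses dir region face pt)
open Vale.Agent.P167.H825 (Wall WC Marks Box pdir dirOf sideWall pwall rnd bsite PW enl epos dv
  FlowIn ptau KK domP)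
open Vale.Agent.P167.H680 (Mg)

variable {l : ℕ} {p : ZMod l → ℤ × ℤ} {S₀ : Finset (ℤ × ℤ)} {b : Box}

/-! ### regions on the lattice -/

/-- Width of the corridors. -/
noncomputable def bN (η : ℝ) (n : ℕ) : ℕ := max 1 ⌊η * n⌋₊

/-- The regions of the box `b` on the lattice. -/
noncomputable def KB (b : Box) (ρ : ℕ) (η : ℝ) (i : Fin 5) (n : ℕ) : Set (ℤ × ℤ) :=
  KK ρ (bN η) (fun n => ⌊b.xl * n⌋) (fun n => ⌊b.xr * n⌋) (fun n => ⌊b.yb * n⌋)
    (fun n => ⌊b.yt * n⌋) i n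

theorem near_of_EdT {K : Set (ℤ × ℤ)} {e : Ed}
    (h : ∀ q : ℤ × ℤ, |(q.1 : ℤ) - (epos e).1| ≤ 1 → |q.2 - (epos e).2| ≤ 1 → q ∈ K) :
    e ∈ EdT K := by
  rcases e with v | v
  · intro i j h1 h2 h3 h4
    exact h _ (by show |v.1 + i - v.1| ≤ 1; rw [add_sub_cancel_left, abs_le]; omega)
      (by show |v.2 + j - v.2| ≤ 1; rw [add_sub_cancel_left, abs_le]; omega)
  · intro i j h1 h2 h3 h4
    exact h _ (by show |v.1 + i - v.1| ≤ 1; rw [add_sub_cancel_left, abs_le]; omega)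
      (by show |v.2 + j - v.2| ≤ 1; rw [add_sub_cancel_left, abs_le]; omega)

/-- **Edges with margins are in the regions.** -/
theorem edT_of_mg (b : Box) {κ η : ℝ} (R : ℝ) (hη : 0 < η) (hκ : 8 * η ≤ κ) : ∃ ρ0 : ℕ,
    ∀ ρ : ℕ, ρ0 ≤ ρ → ∀ᶠ n : ℕ in atTop, ∀ (i : Fin 5) (e : Ed), Mg b κ n i (epos e) →
      (nm (epos e) : ℝ) ≤ R * n → e ∈ EdT (KB b ρ η i n) := by
  obtain ⟨ρ0, hρ0⟩ := exists_nat_ge (2 * (|R| + 1) / η)
  refine ⟨ρ0, fun ρ hρ => ?_⟩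
  filter_upwards [(tendsto_natCast_atTop_atTop (R := ℝ)).eventually_ge_atTop (2 / η),
    eventually_gt_atTop 0] with n hn hn0 i e hM hR
  have hn0' : (0 : ℝ) < n := by exact_mod_cast hn0
  have hn1 : (1 : ℝ) ≤ n := by exact_mod_cast hn0
  rw [div_le_iff₀ hη] at hn
  have f1 := Nat.lt_floor_add_one (η * n)
  have f2 := Nat.floor_le (show 0 ≤ η * n by positivity)
  have N1 : (bN η n : ℝ) ≤ η * n := by
    unfold bN
    push_cast
    exact max_le (by linarith) f2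
  have N2 : η * n / 2 ≤ (bN η n : ℝ) := by
    have : (⌊η * n⌋₊ : ℝ) ≤ bN η n := by
      unfold bN
      exact_mod_cast le_max_right _ _
    linarith
  have hκn : 8 * η * n ≤ κ * n := mul_le_mul_of_nonneg_right hκ hn0'.le
  have hρ' : 2 * (|R| + 1) ≤ ρ * η := by
    rw [div_le_iff₀ hη] at hρ0
    have : (ρ0 : ℝ) ≤ ρ := by exact_mod_cast hρ
    nlinarith
  have hρn : (|R| + 1) * n ≤ ρ * bN η n := by
    have h1 : (ρ : ℝ) * (η * n / 2) ≤ ρ * bN η n :=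
      mul_le_mul_of_nonneg_left N2 (Nat.cast_nonneg _)
    nlinarith
  have e1 : (nm (epos e) : ℝ) = max |((epos e).1 : ℝ)| |((epos e).2 : ℝ)| := by
    simp [nm]
  rw [e1, max_le_iff] at hR
  have hRR : R * n ≤ |R| * n := mul_le_mul_of_nonneg_right (le_abs_self R) hn0'.le
  refine near_of_EdT fun q q1 q2 => ?_
  have q1' : |(q.1 : ℝ) - (epos e).1| ≤ 1 := by exact_mod_cast q1
  have q2' : |(q.2 : ℝ) - (epos e).2| ≤ 1 := by exact_mod_cast q2
  rw [abs_le] at q1' q2'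
  have b1 : |q.1| ≤ ρ * bN η n := by
    have h1 : |(q.1 : ℝ)| ≤ ρ * bN η n := by
      rw [abs_le]
      have := abs_le.1 hR.1
      constructor <;> nlinarith [this.1, this.2]
    exact_mod_cast h1
  have b2 : |q.2| ≤ ρ * bN η n := by
    have h1 : |(q.2 : ℝ)| ≤ ρ * bN η n := by
      rw [abs_le]
      have := abs_le.1 hR.2
      constructor <;> nlinarith [this.1, this.2]
    exact_mod_cast h1
  refine ⟨b1, b2, ?_⟩
  -- comparison with the floors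
  have lo : ∀ {a : ℤ} {c : ℝ}, (a : ℝ) + 1 ≤ c → a ≤ ⌊c⌋ := fun h => Int.le_floor.2 (by linarith)
  have up : ∀ {a : ℤ} {c : ℝ}, c ≤ (a : ℝ) → ⌊c⌋ ≤ a := fun h => by
    have := Int.floor_le_floor h
    rwa [Int.floor_intCast] at this
  have loN : ∀ {a : ℤ} {c : ℝ}, (a : ℝ) + 4 * η * n + 1 ≤ c → a ≤ ⌊c⌋ - 4 * bN η n := by
    intro a c h
    have h1 := lo (a := a + 4 * (bN η n : ℤ)) (c := c) (by push_cast; linarith)
    linarith
  have upN : ∀ {a : ℤ} {c : ℝ}, c + 4 * η * n ≤ (a : ℝ) → ⌊c⌋ + 4 * bN η n ≤ a := by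
    intro a c h
    have h1 := up (a := a - 4 * (bN η n : ℤ)) (c := c) (by push_cast; linarith)
    linarith
  fin_cases i
  · have h1 : ((epos e).1 : ℝ) + κ * n ≤ b.xl * n := hM
    exact loN (by linarith)
  · have h1 : b.xl * n + κ * n ≤ (epos e).1 ∧ b.yt * n + κ * n ≤ (epos e).2 := hM
    exact ⟨upN (by linarith [h1.2]), up (by linarith [h1.1])⟩
  · have h1 : b.xr * n + κ * n ≤ (epos e).1 ∧ ((epos e).2 : ℝ) + κ * n ≤ b.yt * n := hM
    exact ⟨upN (by linarith [h1.1]), lo (by linarith [h1.2])⟩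
  · have h1 : b.xl * n + κ * n ≤ (epos e).1 ∧ ((epos e).1 : ℝ) + κ * n ≤ b.xr * n ∧
      ((epos e).2 : ℝ) + κ * n ≤ b.yb * n := hM
    exact ⟨loN (by linarith [h1.2.2]), up (by linarith [h1.1]), lo (by linarith [h1.2.1])⟩
  · have h1 : b.xl * n + κ * n ≤ (epos e).1 ∧ ((epos e).1 : ℝ) + κ * n ≤ b.xr * n ∧
      b.yb * n + κ * n ≤ (epos e).2 ∧ ((epos e).2 : ℝ) + κ * n ≤ b.yt * n := hM
    exact ⟨up (by linarith [h1.2.2.1]), lo (by linarith [h1.2.2.2]), up (by linarith [h1.1]),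
      lo (by linarith [h1.2.1])⟩

/-! ### reindexing -/

section reindex

variable {ι ι' : Type} [Fintype ι] [Fintype ι']

/-- Insertions depend on the cut edges and on the phases only. -/
theorem insW_eq {W : WC ι} {W' : WC ι'} (hc : Fc W) (hc' : Fc W') (h1 : W.S = W'.S)
    (h2 : W.ph = W'.ph) : insW W hc = insW W' hc' := insP_congr h1 h2 _ _

theorem insW_equiv (f : ι ≃ ι') {W : WC ι} {W' : WC ι'} (hc : Fc W) (hc' : Fc W')
    (hw : ∀ i, W.w i = W'.w (f i)) (hcc : W.c = W'.c) : insW W hc = insW W' hc' := by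
  refine insW_eq hc hc' ?_ ?_
  · ext e
    rw [mem_S_iff, mem_S_iff]
    constructor
    · rintro ⟨i, hi⟩
      exact ⟨f i, by rw [← hw]; exact hi⟩
    · rintro ⟨i, hi⟩
      exact ⟨f.symm i, by rw [hw, f.apply_symm_apply]; exact hi⟩
  · funext e b
    show ∑ i, (W.w i).ph e b + W.c e / 2 = ∑ i, (W'.w i).ph e b + W'.c e / 2
    rw [hcc]
    congr 1
    exact Fintype.sum_equiv f _ _ fun i => by rw [hw]

/-- No walls: only the flow. -/
theorem insW_empty [IsEmpty ι] [IsEmpty ι'] {w : ι → Wall} {w' : ι' → Wall} {c : Ed → ℝ}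
    (hc : Fc (⟨w, c⟩ : WC ι)) (hc' : Fc (⟨w', c⟩ : WC ι')) :
    insW ⟨w, c⟩ hc = insW ⟨w', c⟩ hc' :=
  insW_equiv (Equiv.equivOfIsEmpty ι ι') hc hc' (fun i => isEmptyElim i) rfl

theorem jumps_equiv (f : ι ≃ ι') {W : WC ι} {W' : WC ι'} (hw : ∀ i, W.w i = W'.w (f i)) :
    W.jumps = W'.jumps := by
  classical
  unfold WC.jumps
  simp only [card_filter]
  exact Fintype.sum_equiv f _ _ fun i => by rw [hw]

omit [Fintype ι] [Fintype ι'] in
/-- A part of the walls, the same flow. -/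
theorem Adm.restrict {W : WC ι} {κ R B : ℝ} {n : ℕ} (h : W.Adm κ R B n) {f : ι' → ι}
    (hf : Function.Injective f) : (⟨fun i => W.w (f i), W.c⟩ : WC ι').Adm κ R B n where
  len i := h.len (f i)
  box i := h.box (f i)
  sep i j hne := h.sep (f i) (f j) fun hh => hne (hf hh)
  jump i := h.jump (f i)
  csup e he := ⟨(h.csup e he).1, fun i => (h.csup e he).2 (f i)⟩
  cle := h.cle
  dle := h.dle

end reindex

/-! ### the groups -/

/-- Indices of the walls in the region `r`. -/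
abbrev GI (p : ZMod l → ℤ × ℤ) (b : Box) (tp : ℝ) (r : Fin 5) : Type :=
  {x : Fin l × Fin ((mks p b tp).m + 1) // reg p b x.1 x.2 = r}

/-- The walls in the region `r`, with the flow `c`. -/
noncomputable def grp (p : ZMod l → ℤ × ℤ) (b : Box) (tp : ℝ) (n d : ℕ) (r : Fin 5)
    (c : Ed → ℝ) : WC (GI p b tp r) :=
  ⟨fun x => pwall p (mks p b tp) n d x.1.1 x.1.2, c⟩

/-- The centre has no walls. -/
theorem isEmpty_GI (h : Gen b) (hp : IsPolygon p) (hS : Encloses p S₀)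
    (hb : ∀ x : ℝ × ℝ, b.xl ≤ x.1 → x.1 ≤ b.xr → b.yb ≤ x.2 → x.2 ≤ b.yt → x ∈ domP S₀)
    (tp : ℝ) : IsEmpty (GI p b tp 4) :=
  ⟨fun x => reg_ne h hp hS hb x.1.1 (j := x.1.2) (by
    have := x.1.2.2
    have h2 : (mks p b tp).m = 2 := rfl
    omega) x.2⟩

theorem card_GI (p : ZMod l → ℤ × ℤ) (b : Box) (tp : ℝ) :
    ∑ r, Fintype.card (GI p b tp r) = l * 3 := by
  rw [← Fintype.card_sigma]
  rw [Fintype.card_congr (Equiv.sigmaFiberEquiv
    (fun x : Fin l × Fin ((mks p b tp).m + 1) => reg p b x.1 x.2))]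
  rw [Fintype.card_prod, Fintype.card_fin, Fintype.card_fin]
  rfl

/-- The union of the groups is the polygon. -/
theorem sig_grp (p : ZMod l → ℤ × ℤ) (b : Box) (tp : ℝ) (n d : ℕ) (c : Fin 5 → Ed → ℝ)
    (hc : ∀ r, (Function.support (c r)).Finite)
    (hd : ∀ r r', r ≠ r' → Disjoint (grp p b tp n d r (c r)).S (grp p b tp n d r' (c r')).S)
    (hc' : Fc (PW p (mks p b tp) n d (fun e => ∑ r, c r e))) :
    insW (PW p (mks p b tp) n d (fun e => ∑ r, c r e)) hc' =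
      ∏ r, insW (grp p b tp n d r (c r)) (hc r) := by
  have hc2 : ∀ r, Fc (grp p b tp n d r (c r)) := hc
  rw [← insW_sig (fun r => grp p b tp n d r (c r)) hc2 hd]
  exact (insW_equiv (Equiv.sigmaFiberEquiv
    (fun x : Fin l × Fin ((mks p b tp).m + 1) => reg p b x.1 x.2)) (sig_fc hc2) hc'
    (fun i => by rcases i with ⟨r, x, hx⟩; rfl) rfl).symm

theorem sum_jumps (p : ZMod l → ℤ × ℤ) (b : Box) (tp : ℝ) (n d : ℕ) (c : Fin 5 → Ed → ℝ)
    (c' : Ed → ℝ) : ∑ r, (grp p b tp n d r (c r)).jumps = (PW p (mks p b tp) n d c').jumps := by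
  rw [← jumps_sig (fun r => grp p b tp n d r (c r))]
  exact jumps_equiv (Equiv.sigmaFiberEquiv
    (fun x : Fin l × Fin ((mks p b tp).m + 1) => reg p b x.1 x.2))
    fun i => by rcases i with ⟨r, x, hx⟩; rfl

/-- There is exactly one jump. -/
theorem jumps_PW [NeZero l] {Q : Marks} (hQ : Q.Ok) (n d : ℕ) (c : Ed → ℝ) :
    (PW p Q n d c).jumps = 1 := by
  classical
  -- the wall of the base point
  obtain ⟨j, hj, h1, h2⟩ : ∃ j ≤ Q.m, Q.θ 0 j < Q.tp ∧ Q.tp < Q.θ 0 (j + 1) := by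
    by_contra hcon
    push Not at hcon
    have key : ∀ j ≤ Q.m + 1, Q.θ 0 j < Q.tp := by
      intro j
      induction j with
      | zero => intro _; rw [hQ.zero]; exact hQ.tp0
      | succ j ih =>
        intro hj
        have h1 := ih (by omega)
        have h2 := hcon j (by omega) h1
        exact lt_of_le_of_ne h2 (hQ.tpne _)
    have := key (Q.m + 1) le_rfl
    rw [hQ.one] at this
    linarith [hQ.tp1]
  have huniq : ∀ j' ≤ Q.m, Q.θ 0 j' < Q.tp → Q.tp < Q.θ 0 (j' + 1) → j' = j := by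
    intro j' hj' h1' h2'
    by_contra hne
    rcases lt_or_gt_of_ne hne with h | h
    · have := marks_mono hQ 0 (a := j' + 1) (b := j) (by omega) (by omega)
      linarith
    · have := marks_mono hQ 0 (a := j + 1) (b := j') (by omega) (by omega)
      linarith
  have hjw : ∀ x : Fin l × Fin (Q.m + 1), ((PW p Q n d c).w x).j ≠ 0 ↔
      ((x.1 : ℕ) = 0 ∧ Q.θ 0 x.2 < Q.tp ∧ Q.tp < Q.θ 0 (x.2 + 1)) := by
    intro x
    have hs := sideWall_jump ((n : ℤ) • p (x.1 : ℕ)) (pdir p x.1)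
      (rnd ((n : ℤ) • p (x.1 : ℕ)) (bsite p Q n) (⌊Q.θ x.1 x.2 * n⌋₊ + d))
      (rnd ((n : ℤ) • p (x.1 : ℕ)) (bsite p Q n) (⌊Q.θ x.1 (x.2 + 1) * n⌋₊ - d))
      (Real.pi / 12 * ptau p x.1 + if (x.1 : ℕ) = 0 ∧ Q.θ 0 x.2 < Q.tp then Real.pi / 3 else 0)
      (if (x.1 : ℕ) = 0 ∧ Q.θ 0 x.2 < Q.tp ∧ Q.tp < Q.θ 0 (x.2 + 1) then some ⌊Q.tp * n⌋₊
        else none)
    show (pwall p Q n d x.1 x.2).j ≠ 0 ↔ _
    unfold pwall
    by_cases hc : (x.1 : ℕ) = 0 ∧ Q.θ 0 x.2 < Q.tp ∧ Q.tp < Q.θ 0 (x.2 + 1)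
    · rw [if_pos hc] at hs ⊢
      refine ⟨fun _ => hc, fun _ => ?_⟩
      rcases (hs.2 _ rfl).1 with h | h <;> rw [h] <;> norm_num
    · rw [if_neg hc] at hs ⊢
      exact ⟨fun h => absurd (hs.1 rfl) h, fun h => absurd h hc⟩
  unfold WC.jumps
  rw [card_eq_one]
  refine ⟨(⟨0, Nat.pos_of_ne_zero (NeZero.ne l)⟩, ⟨j, by omega⟩), ?_⟩
  ext x
  rw [mem_filter, mem_singleton, hjw]
  constructor
  · rintro ⟨-, q1, q2, q3⟩
    exact Prod.ext (Fin.ext q1) (Fin.ext (huniq _ (by omega) q2 q3))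
  · rintro rfl
    exact ⟨mem_univ _, rfl, h1, h2⟩

/-- **All the properties of the groups.** -/
theorem grp_all [NeZero l] (hp : IsPolygon p) (hS : Encloses p S₀) (hb : b.Ok S₀) {tp : ℝ}
    (h0 : 0 < tp) (h1 : tp < 1)
    (ht : ∀ i : ℤ, ∀ y ∈ ({b.xl, b.xr, b.yb, b.yt} : Set ℝ), y ≠ i + tp ∧ y ≠ i - tp) :
    ∃ δ₀ : ℝ, 0 < δ₀ ∧ ∀ δ : ℝ, 0 < δ → δ < δ₀ → ∀ κ₀ : ℝ, 0 < κ₀ → ∃ κ : ℝ, 0 < κ ∧ ∃ R : ℝ,
      ∀ B : ℝ, ∀ᶠ n : ℕ in atTop,
        (∀ (r : Fin 5) (c : Ed → ℝ), FlowIn (enl S₀ n) κ₀ B n c →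
          (grp p b tp n ⌊δ * n⌋₊ r c).Adm κ R B n) ∧
        (∀ (r : Fin 5) (c : Ed → ℝ), ∀ e ∈ (grp p b tp n ⌊δ * n⌋₊ r c).S,
          Mg b κ n r (epos e) ∧ (nm (epos e) : ℝ) ≤ R * n) ∧
        (∀ (r r' : Fin 5) (c c' : Ed → ℝ), r ≠ r' →
          Disjoint (grp p b tp n ⌊δ * n⌋₊ r c).S (grp p b tp n ⌊δ * n⌋₊ r' c').S) := by
  have hgen : Gen b := ⟨hb.gx, hb.gy⟩
  have hQ : (mks p b tp).Ok := mks_ok p hgen h0 h1 ht
  obtain ⟨δ₀, hδ₀, H⟩ := adm_PW hp hS hQ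
  obtain ⟨g, hg, hG⟩ := exists_Gap hQ l
  refine ⟨min δ₀ (g / 4), lt_min hδ₀ (by positivity), fun δ hδ hδ' κ₀ hκ₀ => ?_⟩
  obtain ⟨κ, hκ, R, H2⟩ := H δ hδ (hδ'.trans_le (min_le_left _ _)) κ₀ hκ₀
  have hδg : 4 * δ ≤ g := by
    have := hδ'.trans_le (min_le_right _ _)
    linarith
  have hc0 := c0_pos hgen
  set κ' : ℝ := min κ (min (δ / 2) (c0 b) / 2) with hκ'
  have hκ'0 : 0 < κ' := by positivity
  refine ⟨κ', hκ'0, R, fun B => ?_⟩
  filter_upwards [H2 B, H2 0, (tendsto_natCast_atTop_atTop (R := ℝ)).eventually_ge_atTop (8 / δ),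
    (tendsto_natCast_atTop_atTop (R := ℝ)).eventually_ge_atTop (2 / min (δ / 2) (c0 b)),
    eventually_gt_atTop 0] with n hn1 hn2 hn3 hn4 hn0
  have hn0' : (0 : ℝ) < n := by exact_mod_cast hn0
  rw [div_le_iff₀ hδ] at hn3
  rw [div_le_iff₀ (by positivity)] at hn4
  have h8 : 8 ≤ δ * n := by linarith
  have hz : FlowIn (enl S₀ n) κ₀ 0 n 0 := by
    refine ⟨fun e he => absurd rfl he, fun e => by simp, fun z => ?_⟩
    simp [dv]
  have hAz := hn2 0 hz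
  refine ⟨fun r c hc => ?_, fun r c e he => ?_, fun r r' c c' hrr => ?_⟩
  · have h2 := Adm.mono (κ' := κ') (hn1 c hc) (mul_le_mul_of_nonneg_right
      (min_le_left κ (min (δ / 2) (c0 b) / 2)) hn0'.le) le_rfl le_rfl
    exact Adm.restrict h2 (f := fun x : GI p b tp r => x.1) Subtype.val_injective
  · obtain ⟨x, hx⟩ := mem_S_iff.1 he
    obtain ⟨k, hk, rfl⟩ := mem_image.1 hx
    rw [mem_range] at hk
    have hj : (x.1.2 : ℕ) ≤ (mks p b tp).m := by omega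
    have g1 := hG.1 x.1.1 x.1.1.2 x.1.2 hj
    rw [epos_e]
    obtain ⟨t, t1, t2, t3, t4, -⟩ := pwall_pos (p := p) hQ h8 hj (by linarith) hk
    refine ⟨?_, ?_⟩
    · have m1 := mgR_reg (p := p) hgen x.1.1 (j := x.1.2) hj (δ := δ / 2) (t := t)
        (by positivity) t1 t2
      rw [x.2] at m1
      have m2 := m1.mg (n := n) (C := 1) t3 t4 (by linarith)
      have hle : κ' * n ≤ min (δ / 2) (c0 b) / 2 * n :=
        mul_le_mul_of_nonneg_right (min_le_right _ _) hn0'.le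
      revert m2
      generalize min (δ / 2) (c0 b) / 2 = κ'' at hle ⊢
      intro m2
      have hmono : ∀ (r : Fin 5) (v : ℤ × ℤ), Mg b κ'' n r v → Mg b κ' n r v := by
        intro r v h
        fin_cases r
        · have h1 : (v.1 : ℝ) + κ'' * n ≤ b.xl * n := h
          show (v.1 : ℝ) + κ' * n ≤ b.xl * n
          linarith
        · have h1 : b.xl * n + κ'' * n ≤ v.1 ∧ b.yt * n + κ'' * n ≤ v.2 := h
          show b.xl * n + κ' * n ≤ v.1 ∧ b.yt * n + κ' * n ≤ v.2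
          exact ⟨by linarith [h1.1], by linarith [h1.2]⟩
        · have h1 : b.xr * n + κ'' * n ≤ v.1 ∧ (v.2 : ℝ) + κ'' * n ≤ b.yt * n := h
          show b.xr * n + κ' * n ≤ v.1 ∧ (v.2 : ℝ) + κ' * n ≤ b.yt * n
          exact ⟨by linarith [h1.1], by linarith [h1.2]⟩
        · have h1 : b.xl * n + κ'' * n ≤ v.1 ∧ (v.1 : ℝ) + κ'' * n ≤ b.xr * n ∧
            (v.2 : ℝ) + κ'' * n ≤ b.yb * n := h
          show b.xl * n + κ' * n ≤ v.1 ∧ (v.1 : ℝ) + κ' * n ≤ b.xr * n ∧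
            (v.2 : ℝ) + κ' * n ≤ b.yb * n
          exact ⟨by linarith [h1.1], by linarith [h1.2.1], by linarith [h1.2.2]⟩
        · have h1 : b.xl * n + κ'' * n ≤ v.1 ∧ (v.1 : ℝ) + κ'' * n ≤ b.xr * n ∧
            b.yb * n + κ'' * n ≤ v.2 ∧ (v.2 : ℝ) + κ'' * n ≤ b.yt * n := h
          show b.xl * n + κ' * n ≤ v.1 ∧ (v.1 : ℝ) + κ' * n ≤ b.xr * n ∧
            b.yb * n + κ' * n ≤ v.2 ∧ (v.2 : ℝ) + κ' * n ≤ b.yt * n
          exact ⟨by linarith [h1.1], by linarith [h1.2.1], by linarith [h1.2.2.1],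
            by linarith [h1.2.2.2]⟩
      exact hmono _ _ m2
    · exact hAz.box x.1 k hk
  · rw [Finset.disjoint_left]
    intro e he he'
    obtain ⟨x, hx⟩ := mem_S_iff.1 he
    obtain ⟨k, hk, hke⟩ := mem_image.1 hx
    obtain ⟨x', hx'⟩ := mem_S_iff.1 he'
    obtain ⟨k', hk', hke'⟩ := mem_image.1 hx'
    rw [mem_range] at hk hk'
    have hne : x.1 ≠ x'.1 := fun h => hrr (by rw [← x.2, ← x'.2, h])
    have h3 := hAz.sep x.1 x'.1 hne k hk k' hk'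
    have h4 : ((PW p (mks p b tp) n ⌊δ * n⌋₊ 0).w x.1).pos k =
        ((PW p (mks p b tp) n ⌊δ * n⌋₊ 0).w x'.1).pos k' := by
      rw [← epos_e, ← epos_e]
      exact congrArg epos (hke.trans hke'.symm)
    rw [h4, sub_self] at h3
    have h5 : (nm (0 : ℤ × ℤ) : ℝ) = 0 := by simp [nm]
    rw [h5] at h3
    have : 0 < κ * n := by positivity
    linarith

end Vale.Agent.P167.H199
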