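import Vale.Agent.P167.H199.QGrid
import Vale.Agent.P167.H685.GLoc
import Vale.Agent.P167.H519.GLim

/-!
P167, general `q`, block Q-PLID, part 2: a closed frame around a planar box of a finite quotient
decouples the box; the box has the free random-cluster measure.
-/

set_option linter.unusedSimpArgs false
set_option linter.unusedSectionVars false

namespace Vale.Agent.P167.H199

open Finset Filter Topology MeasureTheory
open Vale.Agent.P167.A (Grid plane torus red redE plane_nx plane_hd plane_sg in1 in2 in_hd hd_in1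
  hd_in2)
open Vale.Agent.P167.H685
open Vale.Agent.P167.K8 (fc fc_zero cos4 cosm4 fc_le_two nx_congr_grid turn_congr_grid
  fc_congr exists_two_heads)
open Vale.Agent.P167.FK (cf eta0 LD Good Ex Bq Zq)
open Vale.Agent.P152 (Edge Ori vw wt)

theorem ls_bs (e : Ed) : ((bs e).1 ≤ (ls e).1 ∧ (ls e).1 ≤ (bs e).1 + 1) ∧
    ((bs e).2 ≤ (ls e).2 ∧ (ls e).2 ≤ (bs e).2 + 1) := by
  rcases e with v | v <;> simp only [bs, ls] <;> split_ifs <;> simp

theorem InB_bs {M : ℕ} {e : Ed} (h : InB M M e) : bs e ∈ bx (M + 1) := by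
  have h1 := ls_bs e
  rw [mem_bx]
  unfold InB at h
  push_cast
  omega

theorem in1_plane_hd (v : ℤ × ℤ) : hdv (in1 plane v) = v := by
  rw [← plane_hd]
  exact hd_in1 plane v

theorem in2_plane_hd (v : ℤ × ℤ) : hdv (in2 plane v) = v := by
  rw [← plane_hd]
  exact hd_in2 plane v

namespace Cov

variable {V : Type} {g : Grid V} {r : ℤ × ℤ → V} {m : ℕ} (h : Cov g r m)

include h

theorem in_lift {e : Edge V} {v : ℤ × ℤ} (he : g.hd e = r v) : ∃ e0 : Ed, rE r e0 = e ∧ hdv e0 = v := by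
  rcases in_hd g e with h1 | h1
  · refine ⟨in1 plane v, ?_, in1_plane_hd v⟩
    rw [h1, he]
    unfold in1
    rw [h.par, h.e1s, h.e2s]
    split_ifs <;> rfl
  · refine ⟨in2 plane v, ?_, in2_plane_hd v⟩
    rw [h1, he]
    unfold in2
    rw [h.par]
    split_ifs <;> rfl

theorem injB {M : ℕ} (hm : 2 * (M + 1) + 1 ≤ m) {e e' : Ed} (he : InB M M e) (he' : InB M M e')
    (hee : rE r e = rE r e') : e = e' := h.inj hm (InB_bs he) (InB_bs he') hee

theorem injV {M : ℕ} (hm : 2 * (M + 1) + 1 ≤ m) {v w : ℤ × ℤ}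
    (hv : (-1 ≤ v.1 ∧ v.1 < M) ∧ (-1 ≤ v.2 ∧ v.2 < M))
    (hw : (-1 ≤ w.1 ∧ w.1 < M) ∧ (-1 ≤ w.2 ∧ w.2 < M)) (hvw : r v = r w) : v = w := by
  have hmz : (2 * (M + 1) + 1 : ℤ) ≤ m := by exact_mod_cast hm
  rcases h.sep v w hvw with h1 | h1 | h1
  · exact h1
  · exfalso
    rcases abs_cases (w.1 - v.1) with h5 | h5 <;> omega
  · exfalso
    rcases abs_cases (w.2 - v.2) with h5 | h5 <;> omega

variable [Fintype V] [DecidableEq V]

/-- The orbits which visit the box. -/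
theorem vis_eq {M : ℕ} [NeZero M] {ρ : V → Bool} (hT : ∀ v ∈ Tr M, ρ (r v) = false) :
    ((orbs (g.nxP ρ)).filter (fun O => ¬ ∀ e ∈ O, g.hd e ∉ (Dd M M).image r) :
      Set (Finset (Edge V))) = (fun ℓ : Finset Ed => ℓ.image (rE r)) ''
      {ℓ | IsLoop (pc M (So r M ρ)) ℓ ∧ ∃ v ∈ vs ℓ, v ∈ Dd M M} := by
  ext O
  rw [mem_coe, mem_filter, Set.mem_image]
  constructor
  · rintro ⟨hO, hv⟩
    push Not at hv
    obtain ⟨e, he, hev⟩ := hv
    obtain ⟨v, hv, hve⟩ := mem_image.1 hev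
    obtain ⟨e0, rfl, he0⟩ := h.in_lift hve.symm
    obtain ⟨ℓ, hℓ, heℓ⟩ := good_cf0 (M := M) (L := M) (So r M ρ) e0
    have hB : InB M M e0 := InB_of_Dd (he0 ▸ hv)
    refine ⟨ℓ, ⟨hℓ, v, ?_, hv⟩, ?_⟩
    · rw [← he0]
      exact mem_image_of_mem _ heℓ
    · show ℓ.image (rE r) = O
      rw [← h.orb_image (loop_pc hT hℓ heℓ hB) heℓ]
      exact (eq_orb_of_mem hO he).symm
  · rintro ⟨ℓ, ⟨hℓ, v, hv, hvD⟩, rfl⟩
    obtain ⟨e, he, rfl⟩ := mem_image.1 hv
    have hB := InB_of_Dd hvD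
    show ℓ.image (rE r) ∈ _ ∧ ¬ ∀ e ∈ ℓ.image (rE r), g.hd e ∉ (Dd M M).image r
    constructor
    · rw [← h.orb_image (loop_pc hT hℓ he hB) he]
      exact orb_mem_orbs _
    · intro hall
      refine hall _ (mem_image_of_mem _ he) ?_
      rw [h.hd, plane_hd]
      exact mem_image_of_mem _ hvD

/-- **A closed frame.** The product over the orbits which visit the box. -/
theorem frame {M : ℕ} [NeZero M] (hm : 2 * (M + 1) + 1 ≤ m) (θ : ℝ) {ρ : V → Bool}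
    (hT : ∀ v ∈ Tr M, ρ (r v) = false) :
    ∏ O ∈ (orbs (g.nxP ρ)).filter (fun O => ¬ ∀ e ∈ O, g.hd e ∉ (Dd M M).image r), fc θ g 0 ρ O =
      (2 * Real.cos θ) ^ LD (Dd M M) (pc M (So r M ρ)) := by
  classical
  set ω := pc M (So r M ρ) with hω
  have hB : ∀ ℓ ∈ {ℓ | IsLoop ω ℓ ∧ ∃ v ∈ vs ℓ, v ∈ Dd M M}, ∀ e ∈ ℓ, InB M M e := by
    rintro ℓ ⟨hℓ, v, hv, hvD⟩
    obtain ⟨e, he, rfl⟩ := mem_image.1 hv
    exact InB_loop (So_sub r M ρ) hℓ he (InB_of_Dd hvD)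
  have hinj : Set.InjOn (fun ℓ : Finset Ed => ℓ.image (rE r))
      {ℓ | IsLoop ω ℓ ∧ ∃ v ∈ vs ℓ, v ∈ Dd M M} := by
    intro ℓ hℓ ℓ' hℓ' hh
    simp only at hh
    obtain ⟨e, he⟩ := loop_nonempty hℓ.1
    have : rE r e ∈ ℓ'.image (rE r) := hh ▸ mem_image_of_mem _ he
    obtain ⟨e', he', hee'⟩ := mem_image.1 this
    have := h.injB hm (hB _ hℓ' _ he') (hB _ hℓ _ he) hee'
    rw [this] at he'
    exact loop_unique hℓ.1 hℓ'.1 he he'
  set 𝓕 := (orbs (g.nxP ρ)).filter (fun O => ¬ ∀ e ∈ O, g.hd e ∉ (Dd M M).image r) with h𝓕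
  have hcoe : (𝓕 : Set (Finset (Edge V))) = (fun ℓ : Finset Ed => ℓ.image (rE r)) ''
      {ℓ | IsLoop ω ℓ ∧ ∃ v ∈ vs ℓ, v ∈ Dd M M} := h.vis_eq hT
  have hcard : 𝓕.card = LD (Dd M M) ω := by
    have h1 : (𝓕 : Set (Finset (Edge V))).ncard = 𝓕.card := Set.ncard_coe_finset _
    rw [← h1, hcoe, hinj.ncard_image]
    rfl
  rw [← hcard, ← prod_const]
  refine prod_congr rfl fun O hO => ?_
  have hO' : O ∈ (fun ℓ : Finset Ed => ℓ.image (rE r)) ''
      {ℓ | IsLoop ω ℓ ∧ ∃ v ∈ vs ℓ, v ∈ Dd M M} := by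
    rw [← hcoe]
    exact hO
  obtain ⟨ℓ, hℓ, rfl⟩ := hO'
  have hT2 : ∑ x ∈ ℓ.image (rE r), g.turn ρ x = ∑ e ∈ ℓ, plane.turn ω e := by
    rw [sum_image fun e he e' he' hh => h.injB hm (hB _ hℓ _ he) (hB _ hℓ _ he') hh]
    refine sum_congr rfl fun e he => ?_
    rw [h.turn]
    unfold Grid.turn
    rw [plane_hd, hω, pc_So hT (InB_hdv (hB _ hℓ _ he))]
  rw [fc_zero, hT2]
  rcases s_turn ω ℓ hℓ.1 with ⟨h, _⟩ | ⟨h, _⟩
  · rw [h, cos4]
  · rw [h, cosm4]

end Cov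

/-! ### sums over the configurations -/

section sums

variable {V : Type} [Fintype V] [DecidableEq V] {r : ℤ × ℤ → V} {M : ℕ}

/-- Closing the ring. -/
noncomputable def clr (r : ℤ × ℤ → V) (M : ℕ) (ρ : V → Bool) : V → Bool :=
  fun x => if x ∈ (Tr M).image r then false else ρ x

/-- Replacing the configuration in the box. -/
noncomputable def gl (r : ℤ × ℤ → V) (M : ℕ) (β : V → Bool) (S : Finset (ℤ × ℤ)) : V → Bool :=
  fun x => if x ∈ (Dd M M).image r then decide (x ∈ S.image r) else β x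

/-- The configurations which are closed in the box. -/
noncomputable def Bz (r : ℤ × ℤ → V) (M : ℕ) : Finset (V → Bool) :=
  univ.filter fun β => ∀ v ∈ Dd M M, β (r v) = false

omit [Fintype V] in
theorem clr_Tr (ρ : V → Bool) : ∀ v ∈ Tr M, clr r M ρ (r v) = false := by
  intro v hv
  unfold clr
  rw [if_pos (mem_image_of_mem _ hv)]

omit [Fintype V] in
theorem So_gl (hinj : ∀ v ∈ Dd M M, ∀ w ∈ Dd M M, r v = r w → v = w) (β : V → Bool)
    {S : Finset (ℤ × ℤ)} (hS : S ⊆ Dd M M) : So r M (gl r M β S) = S := by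
  ext v
  unfold So
  rw [mem_filter]
  constructor
  · rintro ⟨hv, h1⟩
    unfold gl at h1
    rw [if_pos (mem_image_of_mem _ hv), decide_eq_true_eq] at h1
    obtain ⟨w, hw, hwv⟩ := mem_image.1 h1
    rwa [← hinj w (hS hw) v hv hwv]
  · intro hv
    refine ⟨hS hv, ?_⟩
    unfold gl
    rw [if_pos (mem_image_of_mem _ (hS hv)), decide_eq_true_eq]
    exact mem_image_of_mem _ hv

omit [Fintype V] in
theorem gl_So (ρ : V → Bool) :
    gl r M (gl r M ρ ∅) (So r M ρ) = ρ := by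
  funext x
  unfold gl
  by_cases hx : x ∈ (Dd M M).image r
  · rw [if_pos hx]
    obtain ⟨v, hv, rfl⟩ := mem_image.1 hx
    by_cases h1 : ρ (r v) = true
    · rw [h1, decide_eq_true_eq]
      exact mem_image_of_mem _ (mem_filter.2 ⟨hv, h1⟩)
    · rw [Bool.not_eq_true] at h1
      rw [h1, decide_eq_false_iff_not]
      intro h2
      obtain ⟨w, hw, hwv⟩ := mem_image.1 h2
      obtain ⟨hw1, hw2⟩ := mem_filter.1 hw
      rw [hwv, h1] at hw2
      exact Bool.false_ne_true hw2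
  · rw [if_neg hx, if_neg hx]

omit [Fintype V] in
theorem gl_gl (β : V → Bool) (S : Finset (ℤ × ℤ)) :
    gl r M (gl r M β S) ∅ = gl r M β ∅ := by
  funext x
  unfold gl
  by_cases hx : x ∈ (Dd M M).image r
  · rw [if_pos hx, if_pos hx]
  · rw [if_neg hx, if_neg hx, if_neg hx]

omit [Fintype V] in
theorem gl_Bz {β : V → Bool} (hβ : ∀ v ∈ Dd M M, β (r v) = false) : gl r M β ∅ = β := by
  funext x
  unfold gl
  by_cases hx : x ∈ (Dd M M).image r
  · rw [if_pos hx]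
    obtain ⟨v, hv, rfl⟩ := mem_image.1 hx
    rw [hβ v hv]
    simp
  · rw [if_neg hx]

theorem mem_Bz_gl (ρ : V → Bool) : gl r M ρ ∅ ∈ Bz r M := by
  unfold Bz
  rw [mem_filter]
  refine ⟨mem_univ _, fun v hv => ?_⟩
  unfold gl
  rw [if_pos (mem_image_of_mem _ hv)]
  simp

/-- Sum over all configurations as a sum over the outside and over the open squares of the box. -/
theorem sum_split (hinj : ∀ v ∈ Dd M M, ∀ w ∈ Dd M M, r v = r w → v = w)
    (Φ : (V → Bool) → ℝ) :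
    ∑ ρ, Φ ρ = ∑ β ∈ Bz r M, ∑ S ∈ (Dd M M).powerset, Φ (gl r M β S) := by
  rw [← sum_product' (Bz r M) (Dd M M).powerset (fun β S => Φ (gl r M β S))]
  refine (sum_bij' (fun x _ => gl r M x.1 x.2) (fun ρ _ => (gl r M ρ ∅, So r M ρ)) ?_ ?_ ?_ ?_
    ?_).symm
  · intro x _
    exact mem_univ _
  · intro ρ _
    rw [mem_product, mem_powerset]
    exact ⟨mem_Bz_gl ρ, So_sub r M ρ⟩
  · rintro ⟨β, S⟩ hx
    rw [mem_product, mem_powerset] at hx
    refine Prod.ext ?_ ?_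
    · show gl r M (gl r M β S) ∅ = β
      rw [gl_gl]
      exact gl_Bz (mem_filter.1 hx.1).2
    · exact So_gl hinj β hx.2
  · intro ρ _
    exact gl_So ρ
  · intro x _
    rfl

end sums

namespace Cov

variable {V : Type} {g : Grid V} {r : ℤ × ℤ → V} {m : ℕ} (h : Cov g r m)
  [Fintype V] [DecidableEq V]

include h

theorem injD {M : ℕ} (hm : 2 * (M + 1) + 1 ≤ m) :
    ∀ v ∈ Dd M M, ∀ w ∈ Dd M M, r v = r w → v = w := by
  intro v hv w hw hvw
  rw [mem_Dd] at hv hw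
  exact h.injV hm (by omega) (by omega) hvw

theorem not_Tr {M : ℕ} (hm : 2 * (M + 1) + 1 ≤ m) {v : ℤ × ℤ} (hv : v ∈ Dd M M) :
    r v ∉ (Tr M).image r := by
  intro hx
  obtain ⟨w, hw, hwv⟩ := mem_image.1 hx
  rw [mem_Tr] at hw
  have h1 := mem_Dd.1 hv
  have h2 := h.injV hm hw.1 (by omega) hwv
  exact hw.2 (h2 ▸ hv)

/-- Splitting of the weight. -/
theorem wG_split {M : ℕ} [NeZero M] (hm : 2 * (M + 1) + 1 ≤ m) (θ : ℝ) {ρ ρ' : V → Bool}
    (hT : ∀ v ∈ Tr M, ρ (r v) = false) (hag : ∀ x, x ∉ (Dd M M).image r → ρ x = ρ' x) :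
    wG θ g ρ = (2 * Real.cos θ) ^ LD (Dd M M) (pc M (So r M ρ)) *
      ∏ O ∈ (orbs (g.nxP ρ')).filter (fun O => ∀ e ∈ O, g.hd e ∉ (Dd M M).image r),
        fc θ g 0 ρ' O := by
  classical
  have h1 := h.frame hm θ hT
  unfold wG
  rw [← prod_filter_mul_prod_filter_not (orbs (g.nxP ρ))
    (fun O => ∀ e ∈ O, g.hd e ∉ (Dd M M).image r), h1, mul_comm, orbs_congrG g hag]
  congr 1
  refine prod_congr rfl fun O hO => fc_congr θ _ fun e he => ?_
  exact hag _ ((mem_filter.1 hO).2 e he)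

theorem So_clr {M : ℕ} (hm : 2 * (M + 1) + 1 ≤ m) (β : V → Bool)
    {S : Finset (ℤ × ℤ)} (hS : S ⊆ Dd M M) : So r M (clr r M (gl r M β S)) = S := by
  have h2 : So r M (clr r M (gl r M β S)) = So r M (gl r M β S) := by
    ext v
    unfold So
    rw [mem_filter, mem_filter]
    refine and_congr_right fun hv => ?_
    unfold clr
    rw [if_neg (h.not_Tr hm hv)]
  rw [h2, So_gl (h.injD hm) β hS]

/-- The weight of a glued configuration with a closed ring. -/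
theorem wG_gl {M : ℕ} [NeZero M] (hm : 2 * (M + 1) + 1 ≤ m) (θ : ℝ) (β : V → Bool)
    {S : Finset (ℤ × ℤ)} (hS : S ⊆ Dd M M) :
    wG θ g (clr r M (gl r M β S)) =
      (2 * Real.cos θ) ^ LD (Dd M M) (pc M S) *
      ∏ O ∈ (orbs (g.nxP (clr r M β))).filter (fun O => ∀ e ∈ O, g.hd e ∉ (Dd M M).image r),
        fc θ g 0 (clr r M β) O := by
  have hag : ∀ x, x ∉ (Dd M M).image r → clr r M (gl r M β S) x = clr r M β x := by
    intro x hx
    unfold clr gl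
    rw [if_neg hx]
  have h1 := h.wG_split hm θ (clr_Tr (r := r) (M := M) (gl r M β S)) hag
  rw [h.So_clr hm β hS] at h1
  exact h1

/-- **The box is free.** -/
theorem sum_clr {M : ℕ} [NeZero M] (hm : 2 * (M + 1) + 1 ≤ m) {θ : ℝ} (h0 : 0 ≤ θ)
    (h1 : θ ≤ Real.pi / 3) (H : Cfg → ℝ) :
    ∑ ρ : V → Bool, wG θ g (clr r M ρ) * H (pc M (So r M ρ)) =
      (∑ ρ : V → Bool, wG θ g (clr r M ρ)) * Ex (2 * Real.cos θ) (Dd M M) eta0 H := by
  classical
  have hQ : 0 < 2 * Real.cos θ := by have := one_le_Q h0 h1; linarith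
  have hZ := FKA.Zq_pos hQ (Dd M M) eta0
  rw [sum_split (M := M) (h.injD hm) (fun ρ => wG θ g (clr r M ρ) * H (pc M (So r M ρ))),
    sum_split (M := M) (h.injD hm) (fun ρ => wG θ g (clr r M ρ)), sum_mul]
  refine sum_congr rfl fun β _ => ?_
  have e1 : ∀ S ∈ (Dd M M).powerset, wG θ g (clr r M (gl r M β S)) *
      H (pc M (So r M (gl r M β S))) =
      (∏ O ∈ (orbs (g.nxP (clr r M β))).filter (fun O => ∀ e ∈ O, g.hd e ∉ (Dd M M).image r),
        fc θ g 0 (clr r M β) O) * ((2 * Real.cos θ) ^ LD (Dd M M) (pc M S) * H (pc M S)) := by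
    intro S hS
    rw [mem_powerset] at hS
    rw [h.wG_gl hm θ β hS, So_gl (h.injD hm) β hS]
    ring
  have e2 : ∀ S ∈ (Dd M M).powerset, wG θ g (clr r M (gl r M β S)) =
      (∏ O ∈ (orbs (g.nxP (clr r M β))).filter (fun O => ∀ e ∈ O, g.hd e ∉ (Dd M M).image r),
        fc θ g 0 (clr r M β) O) * (2 * Real.cos θ) ^ LD (Dd M M) (pc M S) := by
    intro S hS
    rw [mem_powerset] at hS
    rw [h.wG_gl hm θ β hS]
    ring
  rw [sum_congr rfl e1, sum_congr rfl e2, ← mul_sum, ← mul_sum]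
  have e3 : Ex (2 * Real.cos θ) (Dd M M) eta0 H =
      (∑ S ∈ (Dd M M).powerset, (2 * Real.cos θ) ^ LD (Dd M M) (pc M S) * H (pc M S)) /
        Zq (2 * Real.cos θ) (Dd M M) eta0 := rfl
  have e4 : ∑ S ∈ (Dd M M).powerset, (2 * Real.cos θ) ^ LD (Dd M M) (pc M S) =
      Zq (2 * Real.cos θ) (Dd M M) eta0 := rfl
  rw [e3, e4]
  field_simp

end Cov

end Vale.Agent.P167.H199
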