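import Vale.Agent.P167.H662.L.LDefs2
import Vale.Agent.P167.H542.Dat

/-!
# P167, general `q`, block Q-LAYER, sub-block L-CUT: the effect of the cut-off along the lines of the
pinwheel, from the layer theorem
-/

namespace Vale.Agent.P167.H199

open Finset Filter Topology MeasureTheory
open Vale.Agent.P167 Vale.Agent.P167.BR
open Vale.Agent.P167.H542.Q (Phs)
open Vale.Agent.P167.H562.GL (Nu)
open Vale.Agent.P167.H825 (dv dvg domP enl epos Box)
open Vale.Agent.P167.H327 (fl dv_fl fl_ne cm_abs_le exists_bd cont_dvg hcs_dvg dvg_eq_zero)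
open Vale.Agent.P167.H638.L (ChiP dvf cel Cnt CelB deepK enl_box deep_cm Deep fl_mem ne_supp
  tsupport_mul_sub cm_add dvg_add dvf_neg dv_eq_dvf dvg_split integrable_dvg hcs_mul tot_dvf)
open Vale.Agent.P167.H436 (ero mem_ero)
open Vale.Agent.P167.H662.L (XR LawV LayQ S_lay CutV S_cut)
open scoped ContDiff

theorem loc_XR (th : Finset Ed → ℝ) (D : Finset (ℤ × ℤ)) (p : ℤ × ℤ) (f : ℤ × ℤ → ℝ) :
    FKA.Loc D (XR th D p f) := fun x y h => by
  unfold XR
  rw [BR.pcs_congr h]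

theorem abs_int_XR_le {P ν : Measure Cfg} {D : Finset (ℤ × ℤ)} (hν : Nu P ν D)
    (th : Finset Ed → ℝ) (p : ℤ × ℤ) (f f' : ℤ × ℤ → ℝ) :
    |∫ x, XR th D p f x ∂ν - ∫ x, XR th D p f' x ∂ν| ≤
      ∫ x, |XR th D p f x - XR th D p f' x| ∂ν := by
  have := hν.prob
  rw [← integral_sub (H562.GL.loc_integrable (loc_XR th D p f))
    (H562.GL.loc_integrable (loc_XR th D p f'))]
  exact abs_integral_le_integral_abs

theorem card_cel_mono {T T' : Finset (ℤ × ℤ)} (h : T' ⊆ T) (L : ℤ) :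
    (cel T' L).card ≤ (cel T L).card :=
  Finset.card_le_card (Finset.image_subset_image h)

theorem nm_hdv_epos (e : Ed) : nm (hdv e - epos e) ≤ 1 := by
  rw [H45.nm_le]
  rcases e with v | v <;> by_cases h : Even (v.1 + v.2) <;>
    simp [hdv, epos, h]

/-- The edges of a flow with the support in a compact set are deep. -/
theorem fl_deep {S₀ : Finset (ℤ × ℤ)} {C : Set (ℝ × ℝ)} {κ : ℝ} {n : ℕ} (hn : 0 < n)
    (h : ∀ z : ℤ × ℤ, (∃ x ∈ C, |n * x.1 - z.1| ≤ 1 ∧ |n * x.2 - z.2| ≤ 1) →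
      ∀ v : ℤ × ℤ, (nm (v - z) : ℝ) ≤ κ * n → v ∈ enl S₀ n) {φ₁ φ₂ : ℝ × ℝ → ℝ}
    (h1 : ∀ x, φ₁ x ≠ 0 → x ∈ C) (h2 : ∀ x, φ₂ x ≠ 0 → x ∈ C) {c0 : ℝ} (hc : c0 * n + 1 ≤ κ * n)
    {e : Ed} (he : fl φ₁ φ₂ (1 / n) e ≠ 0) :
    ∀ v : ℤ × ℤ, (nm (v - hdv e) : ℝ) ≤ c0 * n → v ∈ enl S₀ n := by
  have hn' : (0 : ℝ) < n := by exact_mod_cast hn
  obtain ⟨x, hx, a1, a2, a3, a4⟩ := fl_ne (by positivity) he
  have hxC : x ∈ C := hx.elim (h1 x) (h2 x)
  have aux : ∀ a : ℝ, ∀ b : ℝ, 1 / (n : ℝ) * b ≤ a → a ≤ 1 / (n : ℝ) * (b + 1) →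
      |n * a - b| ≤ 1 := by
    intro a b g1 g2
    have e1 : n * (1 / (n : ℝ) * b) = b := by field_simp
    have e2 : n * (1 / (n : ℝ) * (b + 1)) = b + 1 := by field_simp
    have g3 := mul_le_mul_of_nonneg_left g1 hn'.le
    have g4 := mul_le_mul_of_nonneg_left g2 hn'.le
    rw [abs_le]
    constructor <;> linarith
  intro v hv
  refine h (epos e) ⟨x, hxC, aux _ _ a1 a2, aux _ _ a3 a4⟩ v ?_
  have h3 : nm (v - epos e) ≤ nm (v - hdv e) + nm (hdv e - epos e) := by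
    have := H45.nm_add_le (v - hdv e) (hdv e - epos e)
    simpa using this
  have h4 := nm_hdv_epos e
  have h5 : (nm (v - epos e) : ℝ) ≤ nm (v - hdv e) + 1 := by exact_mod_cast h3.trans (by omega)
  linarith

/-- **L-CUT.** -/
theorem l_cut : S_cut := by
  classical
  intro S P L V hL hlay hV b φ₁ φ₂ θ₁ θ₂ h1 h2 g1 g2 s1 s2 u1 u2 t1 t2 v1 v2 B Q hB hQ ε hε
  obtain ⟨m, cc, hm0, hm1, hcc, hV⟩ := hV
  set C : Set (ℝ × ℝ) := (tsupport φ₁ ∪ tsupport φ₂) ∪ (tsupport θ₁ ∪ tsupport θ₂) with hC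
  have hCc : IsCompact C := (s1.isCompact.union s2.isCompact).union (u1.isCompact.union u2.isCompact)
  have hCd : C ⊆ domP S.Q := Set.union_subset (Set.union_subset t1 t2) (Set.union_subset v1 v2)
  obtain ⟨κ, hκ, hdeep⟩ := deepK hCc hCd
  obtain ⟨R, hR, hbox⟩ := enl_box S.Q
  have hF1 : Continuous fun x => dvg φ₁ φ₂ x + dvg θ₁ θ₂ x := (cont_dvg h1 h2).add (cont_dvg g1 g2)
  have hF2 : HasCompactSupport fun x => dvg φ₁ φ₂ x + dvg θ₁ θ₂ x :=
    (hcs_dvg s1 s2).add (hcs_dvg u1 u2)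
  obtain ⟨M, hM, hMb⟩ := exists_bd hF1 hF2
  set c0 : ℝ := min (κ / 4) (1 / 32) with hc0
  have hc0p : 0 < c0 := lt_min (by positivity) (by norm_num)
  have hc0κ : 4 * c0 ≤ κ := by have := min_le_left (κ / 4) (1 / 32); rw [← hc0] at this; linarith
  have hc032 : c0 ≤ 1 / 32 := min_le_right _ _
  obtain ⟨w0, hw0, hlay⟩ := hlay m cc c0 R (B + M) Q hm0 hm1 hcc hc0p hR (by positivity) hQ ε hε
  refine ⟨w0, hw0, fun w hw hww χ hχ => ?_⟩
  obtain ⟨n0, hn0⟩ := hlay w hw hww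
  obtain ⟨hχs, hχ1, hχl, hχd, hχn⟩ := hχ
  have e1 : ∀ᶠ n : ℕ in L, n0 ≤ (n : ℝ) :=
    hL (tendsto_natCast_atTop_atTop.eventually_ge_atTop _)
  have e2 : ∀ᶠ n : ℕ in L, 1 / w ≤ (n : ℝ) :=
    hL (tendsto_natCast_atTop_atTop.eventually_ge_atTop _)
  have e3 : ∀ᶠ n : ℕ in L, 2 / c0 ≤ (n : ℝ) :=
    hL (tendsto_natCast_atTop_atTop.eventually_ge_atTop _)
  filter_upwards [hL hdeep, e1, e2, e3, hL (eventually_ge_atTop 32), hV] with n hd hn1 hn2 hn4 hn3
    hVn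
  obtain ⟨th, ν, hth, hν, hVf⟩ := hVn
  have hn : 0 < n := by omega
  have hn' : (0 : ℝ) < n := by exact_mod_cast hn
  have hn32 : (32 : ℝ) ≤ n := by exact_mod_cast hn3
  have hwn : 1 ≤ w * n := by rw [div_le_iff₀ hw] at hn2; linarith
  have hcn : 2 ≤ c0 * n := by rw [div_le_iff₀ hc0p] at hn4; linarith
  obtain ⟨T, T1, T2, T3, T4, T5, T6⟩ := hχn n hwn
  have hs1 : ContDiff ℝ ∞ fun x => (1 - χ x) * φ₁ x := (contDiff_const.sub hχs).mul h1
  have hs2 : ContDiff ℝ ∞ fun x => (1 - χ x) * φ₂ x := (contDiff_const.sub hχs).mul h2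
  set c : Ed → ℝ := fun e =>
    - fl (fun x => (1 - χ x) * φ₁ x) (fun x => (1 - χ x) * φ₂ x) (1 / n) e with hc
  set g : ℤ × ℤ → ℝ := H638.cm (fun x => dvg φ₁ φ₂ x + dvg θ₁ θ₂ x) (1 / n) with hg
  have hdc : ∀ z, dvf c z = - H638.cm (dvg (fun x => (1 - χ x) * φ₁ x) fun x => (1 - χ x) * φ₂ x)
      (1 / n) z := by
    intro z
    rw [hc, dvf_neg, ← dv_fl hs1 hs2 (by positivity), dv_eq_dvf]
  have hsum : (fun x => dvg φ₁ φ₂ x + dvg θ₁ θ₂ x) =
      dvg (fun x => φ₁ x + θ₁ x) (fun x => φ₂ x + θ₂ x) := by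
    funext x
    rw [dvg_add h1 h2 g1 g2]
  have mC : ∀ {φ : ℝ × ℝ → ℝ}, tsupport φ ⊆ C → ∀ x, φ x ≠ 0 → x ∈ C := fun h x hx =>
    ne_supp h x hx
  have c1 : tsupport φ₁ ⊆ C := fun x hx => Or.inl (Or.inl hx)
  have c2 : tsupport φ₂ ⊆ C := fun x hx => Or.inl (Or.inr hx)
  have c3 : tsupport θ₁ ⊆ C := fun x hx => Or.inr (Or.inl hx)
  have c4 : tsupport θ₂ ⊆ C := fun x hx => Or.inr (Or.inr hx)
  have k1 : ∀ x, (1 - χ x) * φ₁ x ≠ 0 → x ∈ C := fun x hx => mC c1 x (right_ne_zero_of_mul hx)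
  have k2 : ∀ x, (1 - χ x) * φ₂ x ≠ 0 → x ∈ C := fun x hx => mC c2 x (right_ne_zero_of_mul hx)
  -- the radius of erosion
  set k : ℤ := ⌊2 * c0 * n⌋ with hk
  have hk1 : (k : ℝ) ≤ 2 * c0 * n := Int.floor_le _
  have hk2 : 2 * c0 * n < k + 1 := Int.lt_floor_add_one _
  have hk0 : 0 ≤ k := Int.floor_nonneg.2 (by positivity)
  have hkn : 2 * k < n := by
    have : (2 * k : ℝ) < n := by nlinarith
    exact_mod_cast this
  set K : Set (ℤ × ℤ) := {z | z ∈ sites (ero S.Q n k)} with hK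
  have hdK : ∀ z : ℤ × ℤ, (∀ v : ℤ × ℤ, (nm (v - z) : ℝ) ≤ 2 * c0 * n → v ∈ enl S.Q n) →
      z ∈ K := by
    intro z hz
    refine mem_sites.2 ⟨z, (mem_ero hk0).2 fun i j i1 i2 i3 i4 => hz _ ?_, Or.inl rfl, Or.inl rfl⟩
    have : nm ((i, j) - z) ≤ k := by
      rw [H45.nm_le]
      simp only [Prod.fst_sub, Prod.snd_sub, abs_le]
      omega
    have h3 : (nm ((i, j) - z) : ℝ) ≤ k := by exact_mod_cast this
    linarith
  -- the deep part of the strip
  set T' : Finset (ℤ × ℤ) := T.filter fun u => ∀ v : ℤ × ℤ, (nm (v - u) : ℝ) ≤ c0 * n → v ∈ S.D n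
    with hT'
  have hTT : T' ⊆ T := Finset.filter_subset _ _
  have hgD : Deep (2 * c0 * n) (enl S.Q n) g := by
    refine deep_cm hn hd (F := fun x => dvg φ₁ φ₂ x + dvg θ₁ θ₂ x) ?_ (by linarith)
    intro x hx
    by_contra hxC
    refine hx ?_
    rw [dvg_eq_zero (fun h => hxC (c1 h)) (fun h => hxC (c2 h)),
      dvg_eq_zero (fun h => hxC (c3 h)) (fun h => hxC (c4 h)), add_zero]
  have hηD : Deep (2 * c0 * n) (enl S.Q n) (dvf c) := by
    have hD : Deep (2 * c0 * n) (enl S.Q n)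
        (H638.cm (dvg (fun x => (1 - χ x) * φ₁ x) fun x => (1 - χ x) * φ₂ x) (1 / n)) := by
      refine deep_cm hn hd ?_ (by linarith)
      intro x hx
      by_contra hxC
      refine hx (dvg_eq_zero (fun h => hxC (c1 ?_)) fun h => hxC (c2 ?_))
      · exact tsupport_mul_sub _ _ h
      · exact tsupport_mul_sub _ _ h
    intro z hz
    rw [hdc] at hz
    exact hD z (neg_ne_zero.1 hz)
  have hL : LayQ c0 R (B + M) Q w n (S.D n) T' (S.b n) K g c := by
    refine ⟨?_, hbox n hn, ?_, ?_, ?_, ?_, ?_, ?_, ?_, ?_, ?_, ?_, ?_, ?_, ?_⟩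
    · exact H542.geo_ero S hn hk0 hkn (by linarith)
    · obtain ⟨z, hz, z', hz', h⟩ := H542.wide_ero S hk0 hkn
      refine ⟨z, hz, z', hz', ?_⟩
      have h3 : ((n : ℝ) - 1 - 2 * k) ≤ nm (z - z') := by exact_mod_cast h
      nlinarith
    · intro z hz
      by_contra hne
      exact hz (hdK z (hgD z hne))
    · intro z hz
      by_contra hne
      exact hz (hdK z (hηD z hne))
    · have : g = dvf (fl (fun x => φ₁ x + θ₁ x) (fun x => φ₂ x + θ₂ x) (1 / n)) := by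
        funext z
        rw [hg, hsum, ← dv_fl (h1.add g1) (h2.add g2) (by positivity), dv_eq_dvf]
      rw [this]
      refine tot_dvf fun e he => fl_mem hn hκ hd (φ₁ := fun x => φ₁ x + θ₁ x)
        (φ₂ := fun x => φ₂ x + θ₂ x) ?_ ?_ he
      · intro x hx
        by_cases h : φ₁ x = 0
        · exact mC c3 x fun h' => hx (by simp [h, h'])
        · exact mC c1 x h
      · intro x hx
        by_cases h : φ₂ x = 0
        · exact mC c4 x fun h' => hx (by simp [h, h'])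
        · exact mC c2 x h
    · intro z
      have h := cm_abs_le hMb (δ := 1 / (n : ℝ)) (by positivity) z
      refine h.trans ?_
      rw [one_div, inv_pow, ← div_eq_mul_inv]
      exact div_le_div_of_nonneg_right (by linarith) (by positivity)
    · intro e he
      exact fl_mem hn hκ hd k1 k2 (neg_ne_zero.1 he)
    · intro e he
      rw [hT', Finset.mem_filter]
      refine ⟨T1 e (neg_ne_zero.1 he), ?_⟩
      exact fl_deep hn hd k1 k2 (by nlinarith) (neg_ne_zero.1 he)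
    · intro z hz
      rw [hT', Finset.mem_filter]
      refine ⟨?_, fun v hv => hηD z hz v (by linarith)⟩
      rw [hc, dvf_neg] at hz
      exact T2 z (neg_ne_zero.1 hz)
    · intro u hu
      exact (Finset.mem_filter.1 hu).2
    · intro e
      rw [hc]
      simp only [abs_neg]
      exact (T3 e).trans (div_le_div_of_nonneg_right (by linarith) hn'.le)
    · intro z
      rw [hc, dvf_neg, abs_neg]
      exact (T4 z).trans (div_le_div_of_nonneg_right (by linarith) (by positivity))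
    · intro x r hr
      refine le_trans ?_ (T6 x r hr)
      exact_mod_cast Finset.card_le_card (Finset.filter_subset_filter _ hTT)
    · intro l hl hln
      refine le_trans ?_ (T5 l hl hln)
      have : ((cel T' l).card : ℝ) ≤ (cel T l).card := by exact_mod_cast card_cel_mono hTT l
      exact mul_le_mul_of_nonneg_right this (by positivity)
  have h := hn0 n hn1 (S.D n) T' (S.b n) K g c th ν hth hL hν
  have hkey : (fun z => g z + dvf c z) =
      H638.cm (fun x => dvg (fun y => χ y * φ₁ y) (fun y => χ y * φ₂ y) x + dvg θ₁ θ₂ x)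
        (1 / n) := by
    funext z
    have i1 := integrable_dvg h1 h2 s1 s2
    have i2 := integrable_dvg g1 g2 u1 u2
    have i3 := integrable_dvg (hχs.mul h1) (hχs.mul h2) (hcs_mul (χ := χ) s1) (hcs_mul (χ := χ) s2)
    have i4 := integrable_dvg hs1 hs2 (hcs_mul (χ := fun x => 1 - χ x) s1)
      (hcs_mul (χ := fun x => 1 - χ x) s2)
    rw [hg, hdc, cm_add i1 i2, cm_add i3 i2]
    have : dvg φ₁ φ₂ = fun x => dvg (fun y => (1 - χ y) * φ₁ y) (fun y => (1 - χ y) * φ₂ y) x +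
        dvg (fun y => χ y * φ₁ y) (fun y => χ y * φ₂ y) x := by
      funext x
      exact dvg_split hχs h1 h2 x
    rw [this, cm_add i4 i3]
    ring
  rw [hkey] at h
  rw [hVf, hVf]
  exact (abs_int_XR_le hν _ _ _ _).trans h

end Vale.Agent.P167.H199
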