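import Vale.Agent.P167.H199.QRatS
import Vale.Agent.P167.H519.GLim

/-!
# P167, general `q`: quasi-independence of macroscopic walls
-/

namespace Vale.Agent.P167.H199

open Finset Filter Topology MeasureTheory Vale.Agent.P167.FK Vale.Agent.P167.FKA Relation
open Vale.Agent.P145.FB (PStep PConn)
open Vale.Agent.P167.H259 (f_markov f_fkg f_comp f_comp2)

/-- The squares at distance at most `s` from a set of squares. -/
noncomputable def nbh (W : Finset (ℤ × ℤ)) (s : ℤ) : Finset (ℤ × ℤ) :=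
  W.biUnion fun w => Finset.Icc (w.1 - s) (w.1 + s) ×ˢ Finset.Icc (w.2 - s) (w.2 + s)

variable {Q c : ℝ} {Λ r s κ : ℤ} {W W' D : Finset (ℤ × ℤ)} {η : Cfg}

theorem mem_nbh {v : ℤ × ℤ} : v ∈ nbh W s ↔ ∃ w ∈ W, nm (v - w) ≤ s := by
  simp only [nbh, Finset.mem_biUnion, Finset.mem_product, Finset.mem_Icc, nm_le_iff,
    Prod.fst_sub, Prod.snd_sub]
  refine exists_congr fun w => and_congr_right fun _ => ?_
  omega

theorem subset_nbh (hs : 0 ≤ s) : W ⊆ nbh W s := fun v hv =>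
  mem_nbh.2 ⟨v, hv, by rw [sub_self]; simpa [nm] using hs⟩

theorem nbh_mono {s s' : ℤ} (h : s ≤ s') : nbh W s ⊆ nbh W s' := fun v hv => by
  obtain ⟨w, hw, h1⟩ := mem_nbh.1 hv
  exact mem_nbh.2 ⟨w, hw, h1.trans h⟩

theorem nbh_mono' (h : W ⊆ W') : nbh W s ⊆ nbh W' s := fun v hv => by
  obtain ⟨w, hw, h1⟩ := mem_nbh.1 hv
  exact mem_nbh.2 ⟨w, h hw, h1⟩

theorem nm_tri (a b d : ℤ × ℤ) : nm (a - d) ≤ nm (a - b) + nm (b - d) := by
  have h1 := nm_le_iff.1 (le_refl (nm (a - b)))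
  have h2 := nm_le_iff.1 (le_refl (nm (b - d)))
  rw [nm_le_iff]
  simp only [Prod.fst_sub, Prod.snd_sub] at *
  omega

theorem nm_comm' (a b : ℤ × ℤ) : nm (a - b) = nm (b - a) := by
  unfold nm
  simp only [Prod.fst_sub, Prod.snd_sub]
  rw [abs_sub_comm, abs_sub_comm a.2]

theorem nm_cor {v u w : ℤ × ℤ} (h : Cor v u) : nm (u - w) ≤ nm (v - w) + 1 := by
  have h1 := nm_le_iff.1 (le_refl (nm (v - w)))
  rw [nm_le_iff]
  simp only [Prod.fst_sub, Prod.snd_sub, Cor] at *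
  omega

theorem nm_cor' {v u w : ℤ × ℤ} (h : Cor v u) : nm (v - w) ≤ nm (u - w) + 1 := by
  have h1 := nm_le_iff.1 (le_refl (nm (u - w)))
  rw [nm_le_iff]
  simp only [Prod.fst_sub, Prod.snd_sub, Cor] at *
  omega

/-- A path from a set to far away passes at distance `m`. -/
theorem mid_set {F : Set (ℤ × ℤ)} {m : ℤ} {u v : ℤ × ℤ} (h : ReflTransGen (PStep F) u v)
    (hu : ∃ w ∈ W, nm (u - w) ≤ m) (hv : ∀ w ∈ W, m ≤ nm (v - w)) :
    ∃ p, (∃ w ∈ W, nm (p - w) ≤ m) ∧ (∀ w ∈ W, m ≤ nm (p - w)) ∧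
      ReflTransGen (PStep F) u p ∧ ReflTransGen (PStep F) p v := by
  induction h using ReflTransGen.head_induction_on with
  | refl => exact ⟨v, hu, hv, ReflTransGen.refl, ReflTransGen.refl⟩
  | @head a b hab hbv ih =>
    by_cases h1 : ∀ w ∈ W, m ≤ nm (a - w)
    · exact ⟨a, hu, h1, ReflTransGen.refl, ReflTransGen.head hab hbv⟩
    · push Not at h1
      obtain ⟨w, hw, h2⟩ := h1
      obtain ⟨p, h3, h4, h5, h6⟩ := ih ⟨w, hw, by have := nm_step (x := w) hab; omega⟩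
      exact ⟨p, h3, h4, ReflTransGen.head hab h5, h6⟩

/-- The number of grid points on each side. -/
def Kw (Λ κ : ℤ) : ℤ := 2 * Λ * (κ + 3) + 1

/-- The number of boxes. -/
def Mw (Λ κ : ℤ) : ℕ := (2 * Kw Λ κ + 1).toNat * (2 * Kw Λ κ + 1).toNat

/-- **Covering.** The shell between the distances `s` and `5 s` from a set of size `κ s`. -/
theorem wall_qblk (hΛ : 2 ≤ Λ) (hκ : 0 ≤ κ) {x : ℤ × ℤ} (hs : Λ ≤ s)
    (hW : ∀ w ∈ W, nm (w - x) ≤ κ * s) :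
    ∃ I : Finset (ℤ × ℤ), I.card ≤ Mw Λ κ ∧ QBlk Λ (nbh W s) (nbh W (5 * s)) I (s / Λ) := by
  classical
  set r := s / Λ with hr
  have hr1 : 1 ≤ r := by rw [hr, Int.le_ediv_iff_mul_le (by omega)]; omega
  have hrs : Λ * r ≤ s := Int.mul_ediv_self_le (by omega)
  have hsr : s < Λ * (r + 1) := by
    have h1 := Int.emod_add_mul_ediv s Λ
    have h2 := Int.emod_lt_of_pos s (by omega : 0 < Λ)
    rw [← hr] at h1
    nlinarith
  have hsr' : s ≤ 2 * Λ * r := by nlinarith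
  set K := Kw Λ κ with hK
  refine ⟨((Finset.Icc (-K) K ×ˢ Finset.Icc (-K) K).image (gp x r)).filter
    (fun p => (∃ w ∈ W, nm (p - w) ≤ 3 * s + r) ∧ ∀ w ∈ W, 3 * s - r ≤ nm (p - w)), ?_, ?_⟩
  · refine (Finset.card_filter_le _ _).trans (Finset.card_image_le.trans ?_)
    rw [Finset.card_product, Int.card_Icc]
    unfold Mw
    rw [← hK]
    have e : K + 1 - -K = 2 * K + 1 := by ring
    rw [e]
  · refine ⟨hr1, nbh_mono (by nlinarith), ?_, ?_⟩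
    · intro p hp v hv
      obtain ⟨-, ⟨w, hw, h1⟩, h2⟩ := Finset.mem_filter.1 hp
      have h3 : nm (v - p) ≤ Λ * r := by
        simp only [Bq, Finset.mem_product, Finset.mem_Ico] at hv
        rw [nm_le_iff]
        simp only [Prod.fst_sub, Prod.snd_sub]
        omega
      have h4 : Λ * r + r < 2 * s := by nlinarith
      rw [Finset.mem_sdiff, mem_nbh, mem_nbh]
      refine ⟨⟨w, hw, ?_⟩, ?_⟩
      · have := nm_tri v p w
        linarith
      · rintro ⟨w', hw', h5⟩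
        have h6 := nm_tri p v w'
        rw [nm_comm' p v] at h6
        have := h2 w' hw'
        linarith
    · rintro F u v ⟨b, hb, hbu⟩ ⟨a, ha, hav⟩ h
      obtain ⟨w0, hw0, hb0⟩ := mem_nbh.1 hb
      have hu : ∃ w ∈ W, nm (u - w) ≤ 3 * s :=
        ⟨w0, hw0, by have := nm_cor (w := w0) hbu; omega⟩
      have hv : ∀ w ∈ W, 3 * s ≤ nm (v - w) := by
        intro w hw
        have h1 := nm_cor' (w := w) hav
        by_contra h2
        exact ha (mem_nbh.2 ⟨w, hw, by omega⟩)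
      obtain ⟨p, ⟨w, hw, h1⟩, h2, h3, h4⟩ := mid_set h hu hv
      -- rounding
      set i : ℤ × ℤ := ((p.1 - x.1) / r, (p.2 - x.2) / r) with hi
      have hdiv : ∀ a : ℤ, -(κ * s + 3 * s) ≤ a → a ≤ κ * s + 3 * s →
          -K ≤ a / r ∧ a / r ≤ K ∧ 0 ≤ a - r * (a / r) ∧ a - r * (a / r) ≤ r := by
        intro a h5 h6
        have h7 := Int.emod_add_mul_ediv a r
        have h8 := Int.emod_nonneg a (by omega : r ≠ 0)
        have h9 := Int.emod_lt_of_pos a (by omega : 0 < r)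
        have h10 : κ * s + 3 * s ≤ 2 * Λ * (κ + 3) * r := by nlinarith
        refine ⟨?_, ?_, by linarith, by linarith⟩
        · rw [Int.le_ediv_iff_mul_le (by omega), hK, Kw]; nlinarith
        · exact Int.ediv_le_of_le_mul (by omega) (by rw [hK, Kw]; nlinarith)
      have hpx : nm (p - x) ≤ κ * s + 3 * s := by
        have h5 := nm_tri p w x
        have h6 := hW w hw
        linarith
      have h5 := nm_le_iff.1 hpx
      simp only [Prod.fst_sub, Prod.snd_sub] at h5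
      obtain ⟨a1, a2, a3, a4⟩ := hdiv (p.1 - x.1) h5.1 h5.2.1
      obtain ⟨b1, b2, b3, b4⟩ := hdiv (p.2 - x.2) h5.2.2.1 h5.2.2.2
      have h6 : nm (p - gp x r i) ≤ r := by
        rw [nm_le_iff]
        simp only [gp, hi, Prod.fst_sub, Prod.snd_sub]
        omega
      refine ⟨gp x r i, ?_, p, h6, h3, h4⟩
      rw [Finset.mem_filter]
      refine ⟨Finset.mem_image.2 ⟨i, ?_, rfl⟩, ⟨w, hw, ?_⟩, fun w' hw' => ?_⟩
      · rw [Finset.mem_product, Finset.mem_Icc, Finset.mem_Icc]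
        exact ⟨⟨a1, a2⟩, b1, b2⟩
      · have := nm_tri (gp x r i) p w
        rw [nm_comm' (gp x r i) p] at this
        linarith
      · have := nm_tri p (gp x r i) w'
        have := h2 w' hw'
        linarith

/-- The constant. -/
noncomputable def Cw (Λ κ : ℤ) (c : ℝ) (N : ℕ) : ℝ := ((c ^ (2 * Mw Λ κ)) ^ N)⁻¹

theorem Cw_pos (hc : 0 < c) (N : ℕ) : 0 < Cw Λ κ c N := by unfold Cw; positivity

theorem one_le_Cw (hc : 0 < c) (hc1 : c ≤ 1) (N : ℕ) : 1 ≤ Cw Λ κ c N := by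
  unfold Cw
  exact (one_le_inv₀ (by positivity)).2 (pow_le_one₀ (by positivity) (pow_le_one₀ hc.le hc1))

theorem Cw_mono (hc : 0 < c) (hc1 : c ≤ 1) {N N' : ℕ} (h : N ≤ N') :
    Cw Λ κ c N ≤ Cw Λ κ c N' := by
  unfold Cw
  exact inv_anti₀ (by positivity)
    (pow_le_pow_of_le_one (by positivity) (pow_le_one₀ hc.le hc1) h)

theorem disj_nbh {s t : ℤ} (h : ∀ v ∈ W, ∀ w ∈ W', s + t < nm (v - w)) :
    Disjoint (nbh W s) (nbh W' t) := by
  rw [Finset.disjoint_left]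
  intro v hv hv'
  obtain ⟨w, hw, h1⟩ := mem_nbh.1 hv
  obtain ⟨w', hw', h2⟩ := mem_nbh.1 hv'
  have h3 := h w hw w' hw'
  have h4 := nm_tri w v w'
  rw [nm_comm' w v] at h4
  omega

/-- **Quasi-independence of macroscopic walls**, finite volume. -/
theorem walls_prod (hQ : 1 ≤ Q) (hR : Rsc Q Λ c) (hκ : 0 ≤ κ) (hs : Λ ≤ s) {ι : Type*}
    (J : Finset ι) {W : ι → Finset (ℤ × ℤ)} {x : ι → ℤ × ℤ}
    (hW : ∀ i ∈ J, ∀ w ∈ W i, nm (w - x i) ≤ κ * s)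
    (hsep : ∀ i ∈ J, ∀ j ∈ J, i ≠ j → ∀ v ∈ W i, ∀ w ∈ W j, 6 * s < nm (v - w))
    {F : ι → Cfg → ℝ} (hF0 : ∀ i ∈ J, ∀ ω, 0 ≤ F i ω)
    (hF : ∀ i ∈ J, Loc (nbh (W i) s) (F i)) (hD : ∀ i ∈ J, nbh (W i) (5 * s) ⊆ D) (hη : Good η)
    {D' : ι → Finset (ℤ × ℤ)} {η' : ι → Cfg} (hD' : ∀ i ∈ J, nbh (W i) (5 * s) ⊆ D' i)
    (hη' : ∀ i ∈ J, Good (η' i)) :
    ∏ i ∈ J, Ex Q (D' i) (η' i) (F i) ≤
      Cw Λ κ c J.card * Ex Q D η (fun ω => ∏ i ∈ J, F i ω) ∧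
    Ex Q D η (fun ω => ∏ i ∈ J, F i ω) ≤
      Cw Λ κ c J.card * ∏ i ∈ J, Ex Q (D' i) (η' i) (F i) := by
  classical
  have hc0 := hR.2.1
  have hex : ∀ i : ι, ∃ I : Finset (ℤ × ℤ), i ∈ J → I.card ≤ Mw Λ κ ∧
      QBlk Λ (nbh (W i) s) (nbh (W i) (5 * s)) I (s / Λ) := by
    intro i
    by_cases hi : i ∈ J
    · obtain ⟨I, h1, h2⟩ := wall_qblk hR.1 hκ hs (hW i hi)
      exact ⟨I, fun _ => ⟨h1, h2⟩⟩
    · exact ⟨∅, fun h => absurd h hi⟩
  choose I hI using hex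
  obtain ⟨h1, h2⟩ := qblk_prod (D := D) (η := η) hQ hR J (A := fun i => nbh (W i) (5 * s))
    (B := fun i => nbh (W i) s) (I := I) (r := fun _ => s / Λ) (M := Mw Λ κ)
    (fun i hi => (hI i hi).2) (fun i hi => (hI i hi).1)
    (fun i hi j hj hij => disj_nbh fun v hv w hw => by
      have := hsep i hi j hj hij v hv w hw; linarith) hF0 hF hD hη hD' hη'
  have ha : 0 < (c ^ (2 * Mw Λ κ)) ^ J.card := by positivity
  unfold Cw
  constructor
  · rw [inv_mul_eq_div, le_div_iff₀ ha, mul_comm]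
    exact h1
  · rw [inv_mul_eq_div, le_div_iff₀ ha, mul_comm]
    exact h2

/-- **Quasi-independence of macroscopic walls**, infinite volume. -/
theorem walls_lim {P : Measure Cfg} (hP : H519.IsLim Q P) (hQ : 1 ≤ Q) (hR : Rsc Q Λ c)
    (hκ : 0 ≤ κ) (hs : Λ ≤ s) {ι : Type*} (J : Finset ι) {W : ι → Finset (ℤ × ℤ)}
    {x : ι → ℤ × ℤ} (hW : ∀ i ∈ J, ∀ w ∈ W i, nm (w - x i) ≤ κ * s)
    (hsep : ∀ i ∈ J, ∀ j ∈ J, i ≠ j → ∀ v ∈ W i, ∀ w ∈ W j, 6 * s < nm (v - w))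
    {F : ι → Cfg → ℝ} (hF0 : ∀ i ∈ J, ∀ ω, 0 ≤ F i ω)
    (hF : ∀ i ∈ J, Loc (nbh (W i) s) (F i)) :
    ∏ i ∈ J, ∫ ω, F i ω ∂P ≤ Cw Λ κ c J.card * ∫ ω, ∏ i ∈ J, F i ω ∂P ∧
    ∫ ω, ∏ i ∈ J, F i ω ∂P ≤ Cw Λ κ c J.card * ∏ i ∈ J, ∫ ω, F i ω ∂P := by
  classical
  have t1 : ∀ i ∈ J, Tendsto (fun n : ℕ => Ex Q (Bq 0 n) eta0 (F i)) atTop
      (𝓝 (∫ ω, F i ω ∂P)) := fun i hi => H519.lim_tendsto hP (hF i hi)
  have t2 : Tendsto (fun n : ℕ => Ex Q (Bq 0 n) eta0 (fun ω => ∏ i ∈ J, F i ω)) atTop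
      (𝓝 (∫ ω, ∏ i ∈ J, F i ω ∂P)) := H519.lim_tendsto hP (loc_prod J hF)
  have t3 := tendsto_finsetProd J t1
  obtain ⟨R, -, hR'⟩ := H519.exists_Bq (J.biUnion fun i => nbh (W i) (5 * s))
  have hev : ∀ᶠ n : ℕ in atTop, ∀ i ∈ J, nbh (W i) (5 * s) ⊆ Bq 0 n := by
    filter_upwards [eventually_ge_atTop R.toNat] with n hn
    intro i hi v hv
    exact H519.Bq_mono (by omega) (hR' (Finset.mem_biUnion.2 ⟨i, hi, hv⟩))
  constructor
  · refine le_of_tendsto_of_tendsto t3 (t2.const_mul _) ?_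
    filter_upwards [hev] with n hn
    exact (walls_prod hQ hR hκ hs J hW hsep hF0 hF hn f_good.2.1 hn fun _ _ => f_good.2.1).1
  · refine le_of_tendsto_of_tendsto t2 (t3.const_mul _) ?_
    filter_upwards [hev] with n hn
    exact (walls_prod hQ hR hκ hs J hW hsep hF0 hF hn f_good.2.1 hn fun _ _ => f_good.2.1).2

end Vale.Agent.P167.H199
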