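import Vale.Agent.P167.QM.Defs
import Vale.Agent.P167.H192.Q.RatB
import Vale.Agent.P167.H199.QRatW

/-!
# P167, general `q`: paths through the squares of a set, flat sides
-/

namespace Vale.Agent.P167.H199

open Finset Vale.Agent.P167.FK Vale.Agent.P167.FKA Relation
open Vale.Agent.P145.FB (PStep PConn)
open Vale.Agent.P167.H259 (f_markov f_fkg f_comp f_comp2)
open Vale.Agent.P167.QM (HB ow)
open Vale.Agent.P167.H192.Q (Fr)

variable {Q c : ℝ} {V V' D D' : Finset (ℤ × ℤ)} {η η' ω ω' : Cfg} {x z : ℤ × ℤ} {r R : ℤ}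

/-- Paths through the open squares of `V`. -/
def CP (V : Finset (ℤ × ℤ)) (ω : Cfg) : ℤ × ℤ → ℤ × ℤ → Prop :=
  ReflTransGen (PStep (op ω ∩ {x | x ∈ V}))

theorem CP.mono (hV : V ⊆ V') (h : ∀ v, ω v = true → ω' v = true) {u v : ℤ × ℤ}
    (hc : CP V ω u v) : CP V' ω' u v :=
  ReflTransGen.mono (fun _ _ hs => ⟨hs.1, hs.2.1, h _ hs.2.2.1, hV hs.2.2.2⟩) _ _ hc

theorem CP.congr (h : ∀ v ∈ V, ω v = ω' v) {u v : ℤ × ℤ} (hc : CP V ω u v) : CP V ω' u v :=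
  ReflTransGen.mono (fun _ _ hs => ⟨hs.1, hs.2.1,
    ((h _ hs.2.2.2).symm.trans hs.2.2.1 : ω' _ = true), hs.2.2.2⟩) _ _ hc

theorem CP.pc {u v : ℤ × ℤ} (hc : CP V ω u v) : ReflTransGen (PStep (op ω)) u v :=
  ReflTransGen.mono (fun _ _ hs => ⟨hs.1, hs.2.1, hs.2.2.1⟩) _ _ hc

/-- A path from `u` to `v` with property `P`. -/
def Ev (V : Finset (ℤ × ℤ)) (P : ℤ × ℤ → ℤ × ℤ → Prop) : Set Cfg :=
  {ω | ∃ u v, P u v ∧ CP V ω u v}

theorem inc_ev (V : Finset (ℤ × ℤ)) (P : ℤ × ℤ → ℤ × ℤ → Prop) : IncS (Ev V P) := by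
  rintro ω ω' h ⟨u, v, hP, hc⟩
  exact ⟨u, v, hP, hc.mono subset_rfl h⟩

theorem loc_ev (V : Finset (ℤ × ℤ)) (P : ℤ × ℤ → ℤ × ℤ → Prop) :
    Loc V ((Ev V P).indicator 1) := by
  intro ω ω' h
  have key : ∀ ω ω' : Cfg, (∀ v ∈ V, ω v = ω' v) → ω ∈ Ev V P → ω' ∈ Ev V P := by
    rintro ω ω' h ⟨u, v, hP, hc⟩
    exact ⟨u, v, hP, hc.congr h⟩
  by_cases h1 : ω ∈ Ev V P
  · rw [Set.indicator_of_mem h1, Set.indicator_of_mem (key ω ω' h h1)]
    rfl
  · have h2 : ω' ∉ Ev V P := fun h2 => h1 (key ω' ω (fun v hv => (h v hv).symm) h2)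
    rw [Set.indicator_of_notMem h1, Set.indicator_of_notMem h2]

theorem ev_mono (hV : V ⊆ V') {P P' : ℤ × ℤ → ℤ × ℤ → Prop} (h : ∀ u v, P u v → P' u v) :
    Ev V P ⊆ Ev V' P' := by
  rintro ω ⟨u, v, hP, hc⟩
  exact ⟨u, v, h u v hP, hc.mono hV fun _ h => h⟩

/-! ### Flat sides -/

/-- Flat free side in the box `(x, R)`. -/
structure QFlat (x : ℤ × ℤ) (R : ℤ) (D : Finset (ℤ × ℤ)) (η : Cfg) : Prop where
  good : Good η
  dom : ∀ v ∈ Bq x R, v ∈ D ↔ x.2 ≤ v.2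
  cl : ∀ v ∈ Bq x R, v.2 < x.2 → η v = false

theorem mem_HB {v : ℤ × ℤ} : v ∈ HB x R ↔ v ∈ Bq x R ∧ x.2 ≤ v.2 := by
  unfold HB
  rw [Finset.mem_filter]

theorem QFlat.inter (h : QFlat x R D η) : D ∩ Bq x R = HB x R := by
  ext v
  rw [Finset.mem_inter, mem_HB]
  constructor
  · rintro ⟨h1, h2⟩
    exact ⟨h2, (h.dom v h2).1 h1⟩
  · rintro ⟨h1, h2⟩
    exact ⟨(h.dom v h1).2 h2, h1⟩

theorem QFlat.fr (h : QFlat x R D η) : Fr x R D η := fun v hv hvD => by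
  refine h.cl v hv ?_
  by_contra h1
  exact hvD ((h.dom v hv).2 (by omega))

theorem QFlat.HB_sub (h : QFlat x R D η) : HB x R ⊆ D := by
  rw [← h.inter]
  exact Finset.inter_subset_left

theorem bq_sub {x x' : ℤ × ℤ} {R R' : ℤ} (h : nm (x' - x) + R' ≤ R) : Bq x' R' ⊆ Bq x R := by
  intro v hv
  have h1 := nm_le_iff.1 (le_refl (nm (x' - x)))
  simp only [Prod.fst_sub, Prod.snd_sub] at h1
  simp only [Bq, Finset.mem_product, Finset.mem_Ico] at hv ⊢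
  omega

theorem QFlat.sub (h : QFlat x R D η) {x' : ℤ × ℤ} {R' : ℤ} (hx : x'.2 = x.2)
    (hR : nm (x' - x) + R' ≤ R) : QFlat x' R' D η where
  good := h.good
  dom := fun v hv => by rw [h.dom v (bq_sub hR hv), hx]
  cl := fun v hv hlt => h.cl v (bq_sub hR hv) (by omega)

theorem ow_good (z : ℤ × ℤ) (R : ℤ) : Good (ow z R) := f_good.1 _ _ _ f_good.2.2

theorem ow_out {z : ℤ × ℤ} {R : ℤ} {v : ℤ × ℤ} (h : ow z R v = true) : v ∉ Bq z R := by
  intro h'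
  unfold ow at h
  rw [H519.cf_in h'] at h
  simp at h

theorem qflat_ow (z : ℤ × ℤ) (R : ℤ) : QFlat z R (HB z R) (ow z R) where
  good := ow_good z R
  dom := fun v hv => by rw [mem_HB]; exact ⟨fun h => h.2, fun h => ⟨hv, h⟩⟩
  cl := fun v hv _ => by
    cases h : ow z R v with
    | false => rfl
    | true => exact absurd hv (ow_out h)

theorem nm_zero : nm ((0 : ℤ × ℤ)) = 0 := by simp [nm]

theorem nm_self (x : ℤ × ℤ) : nm (x - x) = 0 := by rw [sub_self, nm_zero]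

/-- The same probability up to the factor `8` in two flat environments. -/
theorem QFlat.pr_le (hQ : 1 ≤ Q) {L : ℤ} (hL : H519.Rat Q L) (hr : 1 ≤ r)
    (hR : L * (L * r) ≤ R) (h : QFlat x R D η) (h' : QFlat x R D' η') (hV : V ⊆ HB x r)
    (P : ℤ × ℤ → ℤ × ℤ → Prop) : Pr Q D η (Ev V P) ≤ 8 * Pr Q D' η' (Ev V P) := by
  have hrR : r ≤ R := (H192.Q.scale_le hL hr hR).1.trans (H192.Q.scale_le hL hr hR).2
  refine H192.Q.rat_bdy_dom hQ hL hr hR (by rw [h.inter, h'.inter]) ?_ ?_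
    (fun ω => ind_nonneg _ _) (loc_ev V P) h.good h'.good h.fr h'.fr
  · intro v hv
    obtain ⟨h1, h2⟩ := mem_HB.1 (hV hv)
    exact h.HB_sub (mem_HB.2 ⟨H167.Q.bq_mono hrR h1, h2⟩)
  · exact fun v hv => (mem_HB.1 (hV hv)).1

/-- Union bound. -/
theorem pr_biUnion {ι : Type*} (hQ : 0 < Q) (J : Finset ι) (A : ι → Set Cfg) {B : Set Cfg}
    (h : ∀ S ⊆ D, cf D η S ∈ B → ∃ i ∈ J, cf D η S ∈ A i) :
    Pr Q D η B ≤ ∑ i ∈ J, Pr Q D η (A i) := by
  unfold Pr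
  rw [← Ex_sum]
  refine Ex_mono hQ fun S hS => ?_
  by_cases h1 : cf D η S ∈ B
  · obtain ⟨i, hi, h2⟩ := h S hS h1
    rw [Set.indicator_of_mem h1]
    have h3 := Finset.single_le_sum (f := fun i => (A i).indicator (1 : Cfg → ℝ) (cf D η S))
      (fun i _ => ind_nonneg _ _) hi
    simp only [Set.indicator_of_mem h2] at h3
    exact h3
  · rw [Set.indicator_of_notMem h1]
    exact Finset.sum_nonneg fun i _ => ind_nonneg _ _

theorem pr_mono' (hQ : 0 < Q) {A B : Set Cfg} (h : ∀ S ⊆ D, cf D η S ∈ A → cf D η S ∈ B) :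
    Pr Q D η A ≤ Pr Q D η B :=
  Ex_mono hQ fun S hS => H519.ind_le_of_imp (h S hS)

theorem pr_union (hQ : 0 < Q) {A B C : Set Cfg} (h : ∀ S ⊆ D, cf D η S ∈ A → cf D η S ∈ B ∨
    cf D η S ∈ C) : Pr Q D η A ≤ Pr Q D η B + Pr Q D η C := by
  unfold Pr
  rw [← Ex_add]
  refine Ex_mono hQ fun S hS => ?_
  have hb := ind_nonneg B (cf D η S)
  have hc := ind_nonneg C (cf D η S)
  by_cases h1 : cf D η S ∈ A
  · rw [Set.indicator_of_mem h1]
    rcases h S hS h1 with h2 | h2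
    · rw [Set.indicator_of_mem h2]
      simpa using hc
    · rw [Set.indicator_of_mem h2]
      simpa using hb
  · rw [Set.indicator_of_notMem h1]
    linarith

/-! ### Increasing events -/

theorem fkg_inc2 (hQ : 1 ≤ Q) (hη : Good η) {A B : Set Cfg} (hA : IncS A) (hB : IncS B) :
    Pr Q D η A * Pr Q D η B ≤ Pr Q D η (A ∩ B) := by
  have h := f_fkg Q D η _ _ hQ hη hA.incF hB.incF
  refine h.trans (le_of_eq ?_)
  exact Ex_congr fun S _ => by rw [ind_inter]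

theorem IncS.inter' {A B : Set Cfg} (hA : IncS A) (hB : IncS B) : IncS (A ∩ B) :=
  fun ω ω' h h' => ⟨hA ω ω' h h'.1, hB ω ω' h h'.2⟩

theorem IncS.iInter' {ι : Type*} {I : Finset ι} {A : ι → Set Cfg} (hA : ∀ i ∈ I, IncS (A i)) :
    IncS (⋂ i ∈ I, A i) := by
  intro ω ω' h h'
  simp only [Set.mem_iInter] at h' ⊢
  exact fun i hi => hA i hi ω ω' h (h' i hi)

theorem fkg_inc (hQ : 1 ≤ Q) (hη : Good η) {ι : Type*} (I : Finset ι)
    (A : ι → Set Cfg) (hA : ∀ i ∈ I, IncS (A i)) :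
    ∏ i ∈ I, Pr Q D η (A i) ≤ Pr Q D η (⋂ i ∈ I, A i) := by
  classical
  have hQ0 : 0 < Q := by linarith
  induction I using Finset.induction_on with
  | empty =>
    simp only [Finset.prod_empty, Finset.notMem_empty, Set.iInter_of_empty, Set.iInter_univ]
    unfold Pr
    rw [Set.indicator_univ]
    exact (Ex_const hQ0 1).ge
  | insert i I hi ih =>
    rw [Finset.prod_insert hi, Finset.set_biInter_insert]
    have h1 := ih fun j hj => hA j (Finset.mem_insert_of_mem hj)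
    refine (mul_le_mul_of_nonneg_left h1 (Pr_nonneg hQ0 _)).trans ?_
    exact fkg_inc2 hQ hη (hA i (Finset.mem_insert_self _ _))
      (IncS.iInter' fun j hj => hA j (Finset.mem_insert_of_mem hj))

/-! ### The input -/

/-- **Touch at one scale**, with the most favourable outside: an open path of length `n` starts at
the free flat side in the window of radius `K n`. -/
def Tch (Q : ℝ) : Prop := ∃ (K n₀ : ℤ) (c : ℝ), 1 ≤ K ∧ 0 < c ∧ ∀ (z : ℤ × ℤ) (n : ℤ),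
  n₀ ≤ n → 1 ≤ n → c ≤ Pr Q (HB z (3 * K * n)) (ow z (3 * K * n))
    {ω | ∃ u v : ℤ × ℤ, Even (u.1 + u.2) ∧ u.2 = z.2 ∧ nm (u - z) ≤ K * n ∧ n ≤ nm (v - u) ∧
      PC ω u v}

/-- Window `m`, length `n`. -/
def PT (z : ℤ × ℤ) (m n : ℤ) (u v : ℤ × ℤ) : Prop :=
  Even (u.1 + u.2) ∧ u.2 = z.2 ∧ nm (u - z) ≤ m ∧ n ≤ nm (v - u)

/-- Window `m`, distance `n`. -/
def PA (z : ℤ × ℤ) (m n : ℤ) (u v : ℤ × ℤ) : Prop :=
  Even (u.1 + u.2) ∧ u.2 = z.2 ∧ nm (u - z) ≤ m ∧ n ≤ nm (v - z)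

/-- Window `m`, height `h`. -/
def PH (z : ℤ × ℤ) (m h : ℤ) (u v : ℤ × ℤ) : Prop :=
  Even (u.1 + u.2) ∧ u.2 = z.2 ∧ nm (u - z) ≤ m ∧ z.2 + h ≤ v.2

/-- A path in a box. -/
theorem cp_of_pconn {u v y : ℤ × ℤ} {m : ℤ} (hV : ∀ s ∈ Bq y m, ω s = true → s ∈ V)
    (h : PConn (op ω) {w | nm (w - y) ≤ m} u v) : CP V ω u v := by
  obtain ⟨h0, h⟩ := h
  induction h with
  | refl => exact ReflTransGen.refl
  | @tail a b hab hst ih =>
    have ha : a ∈ {w | nm (w - y) ≤ m} :=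
      (show PConn (op ω) {w | nm (w - y) ≤ m} u a from ⟨h0, hab⟩).right_mem
    exact ReflTransGen.tail ih ⟨hst.1.1, hst.1.2.1, hst.1.2.2,
      hV _ (step_mem hst.1 ha hst.2) hst.1.2.2⟩

/-- A path of `V` in a box is a path of the intersection. -/
theorem cp_of_pconn' {u v y : ℤ × ℤ} {m : ℤ}
    (h : PConn (op ω ∩ {x | x ∈ V}) {w | nm (w - y) ≤ m} u v) : CP (V ∩ Bq y m) ω u v := by
  obtain ⟨h0, h⟩ := h
  induction h with
  | refl => exact ReflTransGen.refl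
  | @tail a b hab hst ih =>
    have ha : a ∈ {w | nm (w - y) ≤ m} :=
      (show PConn (op ω ∩ {x | x ∈ V}) {w | nm (w - y) ≤ m} u a from ⟨h0, hab⟩).right_mem
    exact ReflTransGen.tail ih ⟨hst.1.1, hst.1.2.1, hst.1.2.2.1,
      Finset.mem_inter.2 ⟨hst.1.2.2.2, step_mem hst.1 ha hst.2⟩⟩

/-- The end of a nontrivial path of `V` is a corner of a square of `V`. -/
theorem CP.end_cor {u v : ℤ × ℤ} (h : CP V ω u v) (hne : u ≠ v) : ∃ s ∈ V, ω s = true ∧ Cor s v := by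
  rcases ReflTransGen.cases_tail h with h1 | ⟨w, -, h2⟩
  · exact absurd h1.symm hne
  · exact ⟨_, h2.2.2.2, h2.2.2.1, (cor_of_step h2).2⟩

/-- **Touch in every flat environment.** -/
theorem tch_all (hQ : 1 ≤ Q) {L : ℤ} (hL : H519.Rat Q L) (h : Tch Q) :
    ∃ (K N n₀ : ℤ) (c : ℝ), 1 ≤ K ∧ 2 * K ≤ N ∧ 0 < c ∧ ∀ (z : ℤ × ℤ) (n : ℤ)
      (D : Finset (ℤ × ℤ)) (η : Cfg), n₀ ≤ n → 1 ≤ n → QFlat z (N * n) D η →
      c ≤ Pr Q D η (Ev (HB z (2 * K * n)) (PT z (K * n) n)) := by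
  have hQ0 : 0 < Q := by linarith
  obtain ⟨K, n₀, c, hK, hc, H⟩ := h
  have hL2 := hL.1
  set M := L * L with hM
  have hM1 : 4 ≤ M := by nlinarith
  -- the number of windows
  set J := K * M with hJ
  have hJ1 : 1 ≤ J := by nlinarith
  refine ⟨2 * J + 1, 2 * (2 * J + 1) + 2 * M, n₀, c / 8 / (2 * J + 1), by omega, by omega, by
    have : (0 : ℝ) < 2 * J + 1 := by
      have : (1 : ℝ) ≤ J := by exact_mod_cast hJ1
      linarith
    positivity, ?_⟩
  intro z n D η hn0 hn hfl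
  have hMn : n ≤ M * n := by nlinarith
  have h1 := H z (M * n) (hn0.trans hMn) (by omega)
  -- pigeonhole
  set zz : ℤ → ℤ × ℤ := fun j => (z.1 + n * j, z.2) with hzz
  have hJR : (0 : ℝ) < 2 * J + 1 := by
    have : (1 : ℝ) ≤ J := by exact_mod_cast hJ1
    linarith
  have hnz : ∀ j ∈ Finset.Icc (-J) J, nm (zz j - z) ≤ n * J := by
    intro j hj
    rw [Finset.mem_Icc] at hj
    rw [nm_le_iff]
    simp only [hzz, Prod.fst_sub, Prod.snd_sub]
    refine ⟨by nlinarith, by nlinarith, by nlinarith, by nlinarith⟩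
  have h2 : c ≤ ∑ j ∈ Finset.Icc (-J) J, Pr Q (HB z (3 * K * (M * n))) (ow z (3 * K * (M * n)))
      (Ev (HB (zz j) (2 * n)) (PT (zz j) n n)) := by
    refine h1.trans (pr_biUnion hQ0 _ _ ?_)
    rintro S hS ⟨u, v, hu, hu2, huz, huv, hpc⟩
    set ω := cf (HB z (3 * K * (M * n))) (ow z (3 * K * (M * n))) S with hω
    -- the window
    set j := (u.1 - z.1) / n with hj
    have hj1 := Int.emod_add_mul_ediv (u.1 - z.1) n
    have hj2 := Int.emod_nonneg (u.1 - z.1) (by omega : n ≠ 0)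
    have hj3 := Int.emod_lt_of_pos (u.1 - z.1) (by omega : 0 < n)
    rw [← hj] at hj1
    have huz' := nm_le_iff.1 huz
    simp only [Prod.fst_sub, Prod.snd_sub] at huz'
    have hKM : K * (M * n) = J * n := by rw [hJ]; ring
    have hjJ : j ∈ Finset.Icc (-J) J := by
      rw [Finset.mem_Icc]
      constructor
      · by_contra hlt
        push Not at hlt
        have : n * j ≤ n * (-J - 1) := by nlinarith
        nlinarith
      · by_contra hlt
        push Not at hlt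
        have : n * (J + 1) ≤ n * j := by nlinarith
        nlinarith
    have hun : nm (u - zz j) ≤ n := by
      rw [nm_le_iff]
      simp only [hzz, Prod.fst_sub, Prod.snd_sub]
      omega
    refine ⟨j, hjJ, u, ?_⟩
    obtain ⟨v', hv', hp⟩ := exit (c := u) (R := n) hpc (by rw [nm_self]; omega) (by
      have := hMn; omega)
    refine ⟨v', ⟨hu, hu2, hun, hv'.ge⟩, cp_of_pconn (y := u) (m := n) ?_ hp⟩
    intro s hs hso
    have hs1 : s ∈ Bq (zz j) (2 * n) := bq_sub (by omega) hs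
    have hs2 : s ∈ Bq z (3 * K * (M * n)) := by
      refine bq_sub ?_ hs1
      have h3 := hnz j hjJ
      have : 2 * n ≤ J * n * 1 + n := by nlinarith
      nlinarith
    have hs3 : s ∈ HB z (3 * K * (M * n)) := by
      by_contra hs4
      rw [hω, cf_out hs4] at hso
      exact ow_out hso hs2
    exact mem_HB.2 ⟨hs1, (mem_HB.1 hs3).2⟩
  obtain ⟨j, hj, h3⟩ : ∃ j ∈ Finset.Icc (-J) J, c / (2 * J + 1) ≤
      Pr Q (HB z (3 * K * (M * n))) (ow z (3 * K * (M * n)))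
        (Ev (HB (zz j) (2 * n)) (PT (zz j) n n)) := by
    by_contra hcon
    push Not at hcon
    have h4 : ∑ j ∈ Finset.Icc (-J) J, Pr Q (HB z (3 * K * (M * n))) (ow z (3 * K * (M * n)))
        (Ev (HB (zz j) (2 * n)) (PT (zz j) n n)) < ∑ j ∈ Finset.Icc (-J) J, c / (2 * J + 1) :=
      Finset.sum_lt_sum_of_nonempty ⟨0, by rw [Finset.mem_Icc]; omega⟩ hcon
    rw [Finset.sum_const, Int.card_Icc, nsmul_eq_mul] at h4
    have h5 : (((J + 1 - -J).toNat : ℕ) : ℝ) = 2 * J + 1 := by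
      have : (((J + 1 - -J).toNat : ℕ) : ℤ) = 2 * J + 1 := by omega
      exact_mod_cast this
    rw [h5, mul_div_cancel₀ _ hJR.ne'] at h4
    linarith
  -- transfer
  have hJ2 := hnz j hj
  have f1 : QFlat (zz j) (M * (2 * n)) (HB z (3 * K * (M * n))) (ow z (3 * K * (M * n))) := by
    refine (qflat_ow z (3 * K * (M * n))).sub rfl ?_
    nlinarith
  have f2 : QFlat (zz j) (M * (2 * n)) D η := by
    refine hfl.sub rfl ?_
    nlinarith
  have h4 := f1.pr_le hQ hL (r := 2 * n) (by omega) (by rw [hM]; ring_nf; rfl) f2 subset_rfl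
    (PT (zz j) n n)
  have h5 : Pr Q D η (Ev (HB (zz j) (2 * n)) (PT (zz j) n n)) ≤
      Pr Q D η (Ev (HB z (2 * (2 * J + 1) * n)) (PT z ((2 * J + 1) * n) n)) := by
    refine Pr_mono hQ0 (ev_mono ?_ ?_)
    · intro v hv
      obtain ⟨h6, h7⟩ := mem_HB.1 hv
      refine mem_HB.2 ⟨bq_sub ?_ h6, h7⟩
      nlinarith
    · rintro u v ⟨h6, h7, h8, h9⟩
      refine ⟨h6, h7, ?_, h9⟩
      have := nm_tri u (zz j) z
      nlinarith
  have h6 : c / 8 / (2 * J + 1) = c / (2 * J + 1) / 8 := by ring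
  rw [h6]
  linarith

end Vale.Agent.P167.H199
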