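import Vale.Agent.P167.H199.Cov
import Vale.Agent.P167.K8.H259.Bas
import Vale.Agent.P167.H685.GTor
import Vale.Agent.P167.H685.GCher

/-!
P167, general `q`, block Q-PLID, part 1: weights of finite quotients of the plane, finite energy,
invariance, a closed frame around a planar box.
-/

set_option linter.unusedSimpArgs false

namespace Vale.Agent.P167.H199

open Finset Filter Topology MeasureTheory
open Vale.Agent.P167.A (Grid plane torus red redE plane_nx plane_hd plane_sg)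
open Vale.Agent.P167.H685
open Vale.Agent.P167.K8 (fc fc_zero cos4 cosm4 fc_le_two nx_congr_grid turn_congr_grid
  fc_congr exists_two_heads)
open Vale.Agent.P167.FK (cf eta0 LD Good Ex Bq Zq)
open Vale.Agent.P152 (Edge Ori vw wt)

/-- The weight of a configuration of a finite grid. -/
noncomputable def wG {V : Type} [Fintype V] [DecidableEq V] (θ : ℝ) (g : Grid V) (ρ : V → Bool) :
    ℝ := ∏ O ∈ orbs (g.nxP ρ), fc θ g 0 ρ O

theorem one_le_Q {θ : ℝ} (h0 : 0 ≤ θ) (h1 : θ ≤ Real.pi / 3) : 1 ≤ 2 * Real.cos θ := by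
  have := half_le_cos h0 h1
  linarith

theorem mem_orb_gr {V : Type} [Fintype V] [DecidableEq V] {g : Grid V} {ρ : V → Bool}
    {x y : Edge V} : y ∈ orb (g.nxP ρ) x ↔ ∃ n : ℕ, (g.nx ρ)^[n] x = y := mem_orb_iter _

/-- Orbits which see only vertices where the configurations agree. -/
theorem orbs_congrG {V : Type} [Fintype V] [DecidableEq V] (g : Grid V) {ρ ρ' : V → Bool}
    {A : Finset V} (h : ∀ v, v ∉ A → ρ v = ρ' v) :
    (orbs (g.nxP ρ)).filter (fun O => ∀ e ∈ O, g.hd e ∉ A) =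
    (orbs (g.nxP ρ')).filter (fun O => ∀ e ∈ O, g.hd e ∉ A) := by
  have key : ∀ ρ ρ' : V → Bool, (∀ v, v ∉ A → ρ v = ρ' v) →
      (orbs (g.nxP ρ)).filter (fun O => ∀ e ∈ O, g.hd e ∉ A) ⊆
      (orbs (g.nxP ρ')).filter (fun O => ∀ e ∈ O, g.hd e ∉ A) := by
    intro ρ ρ' h O hO
    rw [mem_filter] at hO ⊢
    refine ⟨?_, hO.2⟩
    obtain ⟨x, rfl⟩ := mem_orbs.1 hO.1
    have h1 : ∀ n : ℕ, ρ (g.hd ((g.nx ρ)^[n] x)) = ρ' (g.hd ((g.nx ρ)^[n] x)) := fun n =>
      h _ (hO.2 _ (mem_orb_gr.2 ⟨n, rfl⟩))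
    have h2 : orb (g.nxP ρ) x = orb (g.nxP ρ') x := by
      ext y
      rw [mem_orb_gr, mem_orb_gr]
      constructor
      · rintro ⟨n, rfl⟩
        exact ⟨n, (K8.iter_congr _ h1 n).symm⟩
      · rintro ⟨n, rfl⟩
        exact ⟨n, K8.iter_congr _ h1 n⟩
    rw [h2]
    exact orb_mem_orbs _
  exact (key ρ ρ' h).antisymm (key ρ' ρ fun v hv => (h v hv).symm)

theorem card_orbs_atG {V : Type} [Fintype V] [DecidableEq V] (g : Grid V) (ρ : V → Bool) (v : V) :
    ((orbs (g.nxP ρ)).filter (fun O => ¬ ∀ e ∈ O, g.hd e ∉ ({v} : Finset _))).card ≤ 2 := by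
  obtain ⟨x, y, hxy⟩ := exists_two_heads g v
  refine (card_le_card ?_).trans ((card_orbs_meet_le (σ := g.nxP ρ)
    ({x, y} : Finset _)).trans card_le_two)
  intro O hO
  rw [mem_filter] at hO ⊢
  refine ⟨hO.1, ?_⟩
  obtain ⟨_, h⟩ := hO
  push Not at h
  obtain ⟨e, he, hv⟩ := h
  rw [mem_singleton] at hv
  refine ⟨e, ?_, he⟩
  rw [mem_insert, mem_singleton]
  exact hxy e hv

/-- Invariance of the weight. -/
theorem wG_comp {V : Type} [Fintype V] [DecidableEq V] (θ : ℝ) (g : Grid V) (φ : Equiv.Perm V)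
    (c1 : ∀ v, g.e1 (φ v) = φ (g.e1 v)) (c2 : ∀ v, g.e2 (φ v) = φ (g.e2 v))
    (cp : ∀ v, g.par (φ v) = g.par v) (ρ : V → Bool) : wG θ g (ρ ∘ φ) = wG θ g ρ := by
  classical
  have c1s : ∀ v, g.e1.symm (φ v) = φ (g.e1.symm v) := by
    intro v
    rw [Equiv.symm_apply_eq, c1, Equiv.apply_symm_apply]
  have c2s : ∀ v, g.e2.symm (φ v) = φ (g.e2.symm v) := by
    intro v
    rw [Equiv.symm_apply_eq, c2, Equiv.apply_symm_apply]
  set φE : Equiv.Perm (Edge V) := Equiv.sumCongr φ φ with hφE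
  have hnx : ∀ e, φE (g.nxP (ρ ∘ φ) e) = g.nxP ρ (φE e) := by
    intro e
    rcases e with v | v
    · simp only [hφE, Grid.nxP_apply, Equiv.sumCongr_apply, Sum.map_inl, Grid.nx, cp, c1, c2, c1s,
        c2s, Function.comp_apply]
      split_ifs <;> rfl
    · simp only [hφE, Grid.nxP_apply, Equiv.sumCongr_apply, Sum.map_inr, Grid.nx, cp, c1, c2, c1s,
        c2s, Function.comp_apply]
      split_ifs <;> rfl
  have hhd : ∀ e, g.hd (φE e) = φ (g.hd e) := by
    intro e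
    rcases e with v | v
    · simp only [hφE, Equiv.sumCongr_apply, Sum.map_inl, Grid.hd, cp, c1]
      split_ifs <;> rfl
    · simp only [hφE, Equiv.sumCongr_apply, Sum.map_inr, Grid.hd, cp, c2]
      split_ifs <;> rfl
  have hturn : ∀ e, g.turn ρ (φE e) = g.turn (ρ ∘ φ) e := by
    intro e
    unfold Grid.turn
    rw [hhd]
    rfl
  unfold wG
  rw [orbs_conj φE hnx, prod_image (fun _ _ _ _ h => Finset.map_injective _ h)]
  refine prod_congr rfl fun ℓ _ => ?_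
  rw [fc_zero, fc_zero, sum_map]
  congr 4
  exact sum_congr rfl fun e _ => (hturn e).symm

namespace Cov

variable {V : Type} {g : Grid V} {r : ℤ × ℤ → V} {m : ℕ} (h : Cov g r m)
  [Fintype V] [DecidableEq V]

include h

theorem fcq_cases (θ : ℝ) (ρ : V → Bool) {O : Finset (Edge V)} (hO : O ∈ orbs (g.nxP ρ)) :
    fc θ g 0 ρ O = 2 * Real.cos θ ∨ fc θ g 0 ρ O = 2 := by
  rw [fc_zero]
  rcases h.turn_cases ρ hO with (h | h) | h
  · left
    rw [h, cos4]
  · left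
    rw [h, cosm4]
  · right
    rw [h.1]
    simp

theorem fcq_one_le {θ : ℝ} (h0 : 0 ≤ θ) (h1 : θ ≤ Real.pi / 3) (ρ : V → Bool)
    {O : Finset (Edge V)} (hO : O ∈ orbs (g.nxP ρ)) : 1 ≤ fc θ g 0 ρ O := by
  rcases h.fcq_cases θ ρ hO with h | h
  · rw [h]
    exact one_le_Q h0 h1
  · rw [h]
    norm_num

theorem one_le_wG {θ : ℝ} (h0 : 0 ≤ θ) (h1 : θ ≤ Real.pi / 3) (ρ : V → Bool) :
    1 ≤ wG θ g ρ := by
  unfold wG
  calc (1 : ℝ) = ∏ ℓ ∈ orbs (g.nxP ρ), (1 : ℝ) := by rw [prod_const_one]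
    _ ≤ _ := prod_le_prod (fun _ _ => zero_le_one) fun ℓ hℓ => h.fcq_one_le h0 h1 ρ hℓ

theorem wG_pos {θ : ℝ} (h0 : 0 ≤ θ) (h1 : θ ≤ Real.pi / 3) (ρ : V → Bool) :
    0 < wG θ g ρ := zero_lt_one.trans_le (h.one_le_wG h0 h1 ρ)

theorem sum_wG_pos {θ : ℝ} (h0 : 0 ≤ θ) (h1 : θ ≤ Real.pi / 3) :
    0 < ∑ ρ : V → Bool, wG θ g ρ := sum_pos (fun ρ _ => h.wG_pos h0 h1 ρ) univ_nonempty

/-- Finite energy. -/
theorem flip {θ : ℝ} (h0 : 0 ≤ θ) (h1 : θ ≤ Real.pi / 3) (ρ : V → Bool) (v : V) (b : Bool) :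
    wG θ g (Function.update ρ v b) ≤ 4 * wG θ g ρ := by
  have hag : ∀ u, u ∉ ({v} : Finset V) → Function.update ρ v b u = ρ u := by
    intro u hu
    rw [mem_singleton] at hu
    exact Function.update_of_ne hu _ _
  have hN := orbs_congrG g (A := {v}) hag
  unfold wG
  rw [← prod_filter_mul_prod_filter_not (orbs (g.nxP (Function.update ρ v b)))
    (fun O => ∀ e ∈ O, g.hd e ∉ ({v} : Finset _)),
    ← prod_filter_mul_prod_filter_not (orbs (g.nxP ρ))
    (fun O => ∀ e ∈ O, g.hd e ∉ ({v} : Finset _)), hN]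
  have e1 : ∏ O ∈ (orbs (g.nxP ρ)).filter (fun O => ∀ e ∈ O, g.hd e ∉ ({v} : Finset _)),
        fc θ g 0 (Function.update ρ v b) O =
      ∏ O ∈ (orbs (g.nxP ρ)).filter (fun O => ∀ e ∈ O, g.hd e ∉ ({v} : Finset _)),
        fc θ g 0 ρ O := by
    refine prod_congr rfl fun O hO => fc_congr θ _ fun e he => ?_
    exact hag _ ((mem_filter.1 hO).2 e he)
  rw [e1]
  have hpos : 0 ≤ ∏ O ∈ (orbs (g.nxP ρ)).filter (fun O => ∀ e ∈ O, g.hd e ∉ ({v} : Finset _)),
        fc θ g 0 ρ O :=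
    prod_nonneg fun O hO => by linarith [h.fcq_one_le h0 h1 ρ (mem_filter.1 hO).1]
  have hup : ∏ O ∈ (orbs (g.nxP (Function.update ρ v b))).filter
        (fun O => ¬ ∀ e ∈ O, g.hd e ∉ ({v} : Finset _)),
        fc θ g 0 (Function.update ρ v b) O ≤ 4 := by
    calc _ ≤ ∏ O ∈ (orbs (g.nxP (Function.update ρ v b))).filter
          (fun O => ¬ ∀ e ∈ O, g.hd e ∉ ({v} : Finset _)), (2 : ℝ) :=
          prod_le_prod (fun O hO => by linarith [h.fcq_one_le h0 h1 _ (mem_filter.1 hO).1])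
            fun O _ => fc_le_two θ _ _ _ _
      _ = 2 ^ _ := prod_const _
      _ ≤ 2 ^ 2 := pow_le_pow_right₀ (by norm_num) (card_orbs_atG g _ v)
      _ = 4 := by norm_num
  have hlo : 1 ≤ ∏ O ∈ (orbs (g.nxP ρ)).filter
        (fun O => ¬ ∀ e ∈ O, g.hd e ∉ ({v} : Finset _)), fc θ g 0 ρ O := by
    calc (1 : ℝ) = ∏ O ∈ (orbs (g.nxP ρ)).filter
          (fun O => ¬ ∀ e ∈ O, g.hd e ∉ ({v} : Finset _)), (1 : ℝ) := by
          rw [prod_const_one]
      _ ≤ _ := prod_le_prod (fun _ _ => zero_le_one)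
          fun O hO => h.fcq_one_le h0 h1 ρ (mem_filter.1 hO).1
  calc _ ≤ (∏ O ∈ (orbs (g.nxP ρ)).filter
        (fun O => ∀ e ∈ O, g.hd e ∉ ({v} : Finset _)), fc θ g 0 ρ O) * 4 :=
        mul_le_mul_of_nonneg_left hup hpos
    _ = 4 * ((∏ O ∈ (orbs (g.nxP ρ)).filter
        (fun O => ∀ e ∈ O, g.hd e ∉ ({v} : Finset _)), fc θ g 0 ρ O) * 1) := by ring
    _ ≤ _ := mul_le_mul_of_nonneg_left (mul_le_mul_of_nonneg_left hlo hpos) (by norm_num)

/-- Closing the squares of `T`. -/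
theorem close {θ : ℝ} (h0 : 0 ≤ θ) (h1 : θ ≤ Real.pi / 3) (T : Finset V) (ρ : V → Bool) :
    wG θ g (fun x => if x ∈ T then false else ρ x) ≤ 4 ^ T.card * wG θ g ρ ∧
    wG θ g ρ ≤ 4 ^ T.card * wG θ g (fun x => if x ∈ T then false else ρ x) := by
  classical
  induction T using Finset.induction_on with
  | empty => simp
  | insert a T ha ih =>
    have e1 : (fun x => if x ∈ insert a T then false else ρ x)
        = Function.update (fun x => if x ∈ T then false else ρ x) a false := by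
      funext x
      by_cases hx : x = a
      · subst hx; simp
      · simp [hx]
    have e2 : (fun x => if x ∈ T then false else ρ x)
        = Function.update (fun x => if x ∈ insert a T then false else ρ x) a (ρ a) := by
      funext x
      by_cases hx : x = a
      · subst hx; simp [ha]
      · simp [hx]
    rw [card_insert_of_notMem ha, pow_succ]
    constructor
    · rw [e1]
      refine (h.flip h0 h1 _ a false).trans ?_
      calc 4 * wG θ g (fun x => if x ∈ T then false else ρ x)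
          ≤ 4 * (4 ^ T.card * wG θ g ρ) := mul_le_mul_of_nonneg_left ih.1 (by norm_num)
        _ = _ := by ring
    · refine ih.2.trans ?_
      have h2 := h.flip h0 h1 (fun x => if x ∈ insert a T then false else ρ x) a (ρ a)
      rw [← e2] at h2
      calc 4 ^ T.card * wG θ g (fun x => if x ∈ T then false else ρ x)
          ≤ 4 ^ T.card * (4 * wG θ g (fun x => if x ∈ insert a T then false else ρ x)) :=
            mul_le_mul_of_nonneg_left h2 (by positivity)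
        _ = _ := by ring

end Cov

/-! ### the frame -/

/-- The ring around the box `Dd M M`. -/
noncomputable def Tr (M : ℕ) : Finset (ℤ × ℤ) := (Ico (-1) (M : ℤ) ×ˢ Ico (-1) (M : ℤ)) \ Dd M M

theorem mem_Tr {M : ℕ} {v : ℤ × ℤ} :
    v ∈ Tr M ↔ ((-1 ≤ v.1 ∧ v.1 < M) ∧ (-1 ≤ v.2 ∧ v.2 < M)) ∧ v ∉ Dd M M := by
  simp [Tr]

theorem card_Tr (N : ℕ) : (Tr (N + 1)).card ≤ 4 * (N + 1) := by
  have hsub : Dd (N + 1) (N + 1) ⊆ Ico (-1) ((N + 1 : ℕ) : ℤ) ×ˢ Ico (-1) ((N + 1 : ℕ) : ℤ) := by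
    intro v hv
    rw [mem_Dd] at hv
    simp only [mem_product, mem_Ico]
    push_cast at hv ⊢
    omega
  unfold Tr
  rw [card_sdiff_of_subset hsub, card_product, Int.card_Ico]
  unfold Dd
  rw [card_product, Int.card_Ico]
  have e1 : (((N + 1 : ℕ) : ℤ) - (-1)).toNat = N + 2 := by push_cast; omega
  have e2 : (((N + 1 : ℕ) : ℤ) - 1 - 0).toNat = N := by push_cast; omega
  rw [e1, e2]
  have : (N + 2) * (N + 2) = N * N + 4 * (N + 1) := by ring
  omega

/-- The planar configuration with the open squares `S` in the box `Dd M M`. -/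
noncomputable abbrev pc (M : ℕ) (S : Finset (ℤ × ℤ)) : Cfg := cf (Dd M M) eta0 S

/-- The open squares in the box. -/
noncomputable def So {V : Type} (r : ℤ × ℤ → V) (M : ℕ) (ρ : V → Bool) : Finset (ℤ × ℤ) :=
  (Dd M M).filter fun v => ρ (r v) = true

theorem So_sub {V : Type} (r : ℤ × ℤ → V) (M : ℕ) (ρ : V → Bool) : So r M ρ ⊆ Dd M M :=
  filter_subset _ _

theorem pc_So {V : Type} {r : ℤ × ℤ → V} {M : ℕ} {ρ : V → Bool}
    (hT : ∀ v ∈ Tr M, ρ (r v) = false) {v : ℤ × ℤ}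
    (hv : (-1 ≤ v.1 ∧ v.1 < M) ∧ (-1 ≤ v.2 ∧ v.2 < M)) : pc M (So r M ρ) v = (ρ ∘ r) v := by
  by_cases hD : v ∈ Dd M M
  · simp only [pc, cf, if_pos hD, So, mem_filter, hD, true_and, Function.comp_apply]
    cases ρ (r v) <;> simp
  · rw [Function.comp_apply, hT v (mem_Tr.2 ⟨hv, hD⟩)]
    exact cf_not_mem hD

section frame

variable {V : Type} {r : ℤ × ℤ → V} {M : ℕ} [NeZero M] {ρ : V → Bool}
  (hT : ∀ v ∈ Tr M, ρ (r v) = false)

include hT

theorem iter_pc {e : Ed} (he : InB M M e) (n : ℕ) :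
    InB M M ((nx (pc M (So r M ρ)))^[n] e) ∧
      (nx (ρ ∘ r))^[n] e = (nx (pc M (So r M ρ)))^[n] e := by
  induction n with
  | zero => exact ⟨he, rfl⟩
  | succ n ih =>
    refine ⟨?_, ?_⟩
    · rw [Function.iterate_succ_apply']
      exact InB_nx ih.1
    · rw [Function.iterate_succ_apply', Function.iterate_succ_apply', ih.2]
      apply nx_loc
      exact (pc_So hT (InB_hdv ih.1)).symm

theorem loop_pc {ℓ : Finset Ed} (hℓ : IsLoop (pc M (So r M ρ)) ℓ) {e : Ed} (he : e ∈ ℓ)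
    (hB : InB M M e) : IsLoop (ρ ∘ r) ℓ := by
  refine ⟨e, fun e' => ?_⟩
  rw [loop_gen hℓ he e']
  constructor
  · rintro ⟨n, rfl⟩
    exact ⟨n, (iter_pc hT hB n).2⟩
  · rintro ⟨n, rfl⟩
    exact ⟨n, (iter_pc hT hB n).2.symm⟩

end frame

end Vale.Agent.P167.H199
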