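import Vale.Agent.P167.H199.QEv

/-!
# P167, general `q`: from touch to a path which reaches macroscopic height
-/

namespace Vale.Agent.P167.H199

open Finset Vale.Agent.P167.FK Vale.Agent.P167.FKA Relation
open Vale.Agent.P145.FB (PStep PConn)
open Vale.Agent.P167.H259 (f_markov f_fkg f_comp f_comp2)
open Vale.Agent.P167.QM (HB ow)
open Vale.Agent.P167.H192.Q (Fr)

variable {Q c p : ℝ} {V V' D D' : Finset (ℤ × ℤ)} {η η' ω ω' : Cfg} {x y z : ℤ × ℤ} {r R : ℤ}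

theorem cp_snd {u v : ℤ × ℤ} (hV : V ⊆ HB x R) (hu : x.2 ≤ u.2) (h : CP V ω u v) : x.2 ≤ v.2 := by
  by_cases hne : u = v
  · rw [← hne]; exact hu
  · obtain ⟨s, hs, -, hc⟩ := h.end_cor hne
    have h1 := (mem_HB.1 (hV hs)).2
    simp only [Cor] at hc
    omega

/-- Exit from the box `(y, 8 t)`: high, or low with an arm along the side. -/
theorem low_exit (hQ : 1 ≤ Q) {s t h : ℤ}
    (hp : ∀ x' : ℤ × ℤ, Pr Q (Bq x' (4 * t) \ Bq x' h) eta1 {ω | ArmPx x' h (4 * t) ω} ≤ p)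
    (hfl : QFlat x R D η) (hV : V ⊆ HB x R) (hy : y.2 = x.2) (hs1 : 1 ≤ s) (hst : s ≤ t)
    (hh : 1 ≤ h) (hht : h ≤ 4 * t) (hR : nm (y - x) + 12 * t ≤ R) :
    Pr Q D η (Ev V (PA y s (8 * t))) ≤
      Pr Q D η (Ev V (PH y s h)) + 2 * p * Pr Q D η (Ev V (PA y s t)) := by
  have hQ0 : 0 < Q := by linarith
  -- the two low events
  have key : ∀ σ : ℤ, σ = 1 ∨ σ = -1 →
      Pr Q D η (Ev (V ∩ Bq y t) (PA y s t) ∩ {ω | ArmPx (y.1 + σ * (8 * t), y.2) h (4 * t) ω}) ≤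
        p * Pr Q D η (Ev V (PA y s t)) := by
    intro σ hσ
    set x' : ℤ × ℤ := (y.1 + σ * (8 * t), y.2) with hx'
    have hx : nm (x' - x) + 4 * t ≤ R := by
      have h1 := nm_tri x' y x
      have h2 : nm (x' - y) ≤ 8 * t := by
        rw [nm_le_iff]
        simp only [hx', Prod.fst_sub, Prod.snd_sub]
        rcases hσ with h | h <;> rw [h] <;> omega
      omega
    have hf' : QFlat x' (4 * t) D η := hfl.sub hy hx
    have hG : Ind (D ∩ (Bq x' (4 * t) \ Bq x' h)) ((Ev (V ∩ Bq y t) (PA y s t)).indicator 1) := by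
      refine (loc_ev _ _).ind ?_
      rw [Finset.disjoint_left]
      intro v hv hv'
      have h1 := (Finset.mem_inter.1 hv).2
      have h2 := (Finset.mem_sdiff.1 (Finset.mem_inter.1 hv').2).1
      simp only [Bq, hx', Finset.mem_product, Finset.mem_Ico] at h1 h2
      rcases hσ with h | h <;> rw [h] at h2 <;> omega
    have h1 := H192.Q.ex_arm_bdy hQ (hp x') hfl.good hf'.fr
      (F := (Ev (V ∩ Bq y t) (PA y s t)).indicator 1) (fun ω => ind_nonneg _ _) hG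
    have h2 : Ex Q D η ((Ev (V ∩ Bq y t) (PA y s t)).indicator 1) ≤
        Pr Q D η (Ev V (PA y s t)) := Pr_mono hQ0 (ev_mono Finset.inter_subset_left fun _ _ h => h)
    have h3 : Pr Q D η (Ev (V ∩ Bq y t) (PA y s t) ∩ {ω | ArmPx x' h (4 * t) ω}) =
        Ex Q D η (fun ω => (Ev (V ∩ Bq y t) (PA y s t)).indicator 1 ω *
          {ω | ArmPx x' h (4 * t) ω}.indicator 1 ω) :=
      Ex_congr fun S _ => by rw [ind_inter]
    have hp0 : 0 ≤ p := (Pr_nonneg hQ0 _).trans (hp x')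
    rw [h3]
    exact h1.trans (mul_le_mul_of_nonneg_left h2 hp0)
  have k1 := key 1 (Or.inl rfl)
  have k2 := key (-1) (Or.inr rfl)
  have h1 : Pr Q D η (Ev V (PA y s (8 * t))) ≤ Pr Q D η (Ev V (PH y s h)) +
      Pr Q D η ((Ev (V ∩ Bq y t) (PA y s t) ∩
        {ω | ArmPx (y.1 + 1 * (8 * t), y.2) h (4 * t) ω}) ∪
        (Ev (V ∩ Bq y t) (PA y s t) ∩ {ω | ArmPx (y.1 + -1 * (8 * t), y.2) h (4 * t) ω})) := by
    refine pr_union hQ0 ?_
    rintro S hS ⟨u, v, ⟨hu, hu2, huy, huv⟩, hc⟩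
    set ω := cf D η S
    have hus : nm (u - y) ≤ 8 * t := by omega
    obtain ⟨v', hv', hpc⟩ := exit (c := y) (R := 8 * t) hc hus huv
    have hcp : CP (V ∩ Bq y (8 * t)) ω u v' := cp_of_pconn' hpc
    have hcV : CP V ω u v' := hcp.mono Finset.inter_subset_left fun _ h => h
    by_cases hhi : y.2 + h ≤ v'.2
    · exact Or.inl ⟨u, v', ⟨hu, hu2, huy, hhi⟩, hcV⟩
    · right
      have hlo : x.2 ≤ v'.2 := cp_snd hV (by omega) hcV
      have hEv : ω ∈ Ev (V ∩ Bq y t) (PA y s t) := by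
        obtain ⟨v1, hv1, hp1⟩ := exit (c := y) (R := t) hc (by omega) (by omega)
        exact ⟨u, v1, ⟨hu, hu2, huy, hv1.ge⟩, cp_of_pconn' hp1⟩
      have h3 := nm_le_iff.1 hv'.le
      have h4 := le_nm_iff.1 hv'.ge
      have h5 := nm_le_iff.1 huy
      simp only [Prod.fst_sub, Prod.snd_sub] at h3 h4 h5
      have hpar := rtg_parity hcV.pc
      have harm : ∀ σ : ℤ, (σ = 1 ∨ σ = -1) → v'.1 = y.1 + σ * (8 * t) →
          ArmPx (y.1 + σ * (8 * t), y.2) h (4 * t) ω := by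
        intro σ hσ hv1
        rw [armPx_iff hht]
        refine ⟨v', u, ?_, ?_, ?_, H519.conn_symm hcV.pc⟩
        · rw [Int.even_iff] at *
          omega
        · rw [nm_le_iff]
          simp only [Prod.fst_sub, Prod.snd_sub]
          omega
        · rw [le_nm_iff]
          simp only [Prod.fst_sub, Prod.snd_sub]
          rcases hσ with h | h <;> rw [h] <;> omega
      rcases h4 with h4 | h4 | h4 | h4
      · exact Or.inl ⟨hEv, harm 1 (Or.inl rfl) (by omega)⟩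
      · exact Or.inr ⟨hEv, harm (-1) (Or.inr rfl) (by omega)⟩
      · omega
      · omega
  have h2 : Pr Q D η ((Ev (V ∩ Bq y t) (PA y s t) ∩
        {ω | ArmPx (y.1 + 1 * (8 * t), y.2) h (4 * t) ω}) ∪
        (Ev (V ∩ Bq y t) (PA y s t) ∩ {ω | ArmPx (y.1 + -1 * (8 * t), y.2) h (4 * t) ω})) ≤
      Pr Q D η (Ev (V ∩ Bq y t) (PA y s t) ∩
        {ω | ArmPx (y.1 + 1 * (8 * t), y.2) h (4 * t) ω}) +
      Pr Q D η (Ev (V ∩ Bq y t) (PA y s t) ∩
        {ω | ArmPx (y.1 + -1 * (8 * t), y.2) h (4 * t) ω}) :=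
    pr_union hQ0 fun S _ h => h
  linarith

/-- The scale ratio at which an arm has probability at most `1 / 36`. -/
theorem exists_lam {α C : ℝ} (hα : 0 < α) (hC : 0 < C) (hQ : 1 ≤ Q) (h : ArmDec Q α C) :
    ∃ Λ : ℤ, 1 ≤ Λ ∧ ∀ (x : ℤ × ℤ) (r R : ℤ), 1 ≤ r → Λ * r ≤ R →
      Pr Q (Bq x R \ Bq x r) eta1 {ω | ArmPx x r R ω} ≤ 1 / 36 := by
  obtain ⟨b, hb⟩ := exists_nat_gt ((36 * C) ^ (1 / α))
  refine ⟨b + 1, by omega, fun x r R hr hR => ?_⟩
  have hr' : (1 : ℝ) ≤ r := by exact_mod_cast hr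
  have hR' : ((b : ℝ) + 1) * r ≤ R := by exact_mod_cast hR
  have hb0 : (0 : ℝ) ≤ b := Nat.cast_nonneg b
  have hR0 : (0 : ℝ) < R := by nlinarith
  refine (H192.Q.pr_dec hQ h hr (by nlinarith)).trans ?_
  have h1 : (r : ℝ) / R ≤ ((b : ℝ) + 1)⁻¹ := by
    rw [div_le_iff₀ hR0, inv_mul_eq_div, le_div_iff₀ (by positivity)]
    linarith
  have h2 : ((r : ℝ) / R) ^ α ≤ (((b : ℝ) + 1)⁻¹) ^ α :=
    Real.rpow_le_rpow (by positivity) h1 hα.le
  have h3 : 36 * C ≤ ((b : ℝ) + 1) ^ α := by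
    have h4 : (36 * C) ^ (1 / α) ≤ (b : ℝ) + 1 := by linarith
    have h5 := Real.rpow_le_rpow (by positivity) h4 hα.le
    rw [← Real.rpow_mul (by positivity), one_div_mul_cancel hα.ne', Real.rpow_one] at h5
    exact h5
  rw [Real.inv_rpow (by positivity)] at h2
  have h6 : C * (((b : ℝ) + 1) ^ α)⁻¹ ≤ 1 / 36 := by
    have h7 : 0 < ((b : ℝ) + 1) ^ α := by positivity
    rw [← div_eq_mul_inv, div_le_iff₀ h7]
    linarith
  exact (mul_le_mul_of_nonneg_left h2 hC.le).trans h6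

theorem pigeon {S : ℕ → ℝ} {A c : ℝ} {k₀ : ℕ} (h0 : S 0 ≤ A * 8 ^ k₀) (hk : c ≤ S k₀)
    (hlt : A * (8 / 9) ^ k₀ < c) : ∃ k < k₀, S k ≤ 9 * S (k + 1) := by
  by_contra hcon
  push Not at hcon
  have h1 : ∀ k : ℕ, k ≤ k₀ → 9 ^ k * S k ≤ S 0 := by
    intro k
    induction k with
    | zero => intro _; simp
    | succ k ih =>
      intro hk
      have h2 := ih (by omega)
      have h3 := hcon k (by omega)
      have h4 : (0 : ℝ) < 9 ^ k := by positivity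
      calc (9 : ℝ) ^ (k + 1) * S (k + 1) = 9 ^ k * (9 * S (k + 1)) := by ring
        _ ≤ 9 ^ k * S k := mul_le_mul_of_nonneg_left h3.le h4.le
        _ ≤ S 0 := h2
  have h2 := (h1 k₀ le_rfl).trans h0
  have h4 : (0 : ℝ) < 9 ^ k₀ := by positivity
  have h5 : S k₀ ≤ A * (8 / 9) ^ k₀ := by
    rw [div_pow, mul_div_assoc', le_div_iff₀ h4]
    linarith
  linarith

/-- The centres of the windows. -/
def xw (x : ℤ × ℤ) (s j : ℤ) : ℤ × ℤ := (x.1 + s * j, x.2)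

theorem nm_xw {s J j : ℤ} (hs : 0 ≤ s) (hj : j ∈ Finset.Icc (-J) J) :
    nm (xw x s j - x) ≤ s * J := by
  rw [Finset.mem_Icc] at hj
  rw [nm_le_iff]
  simp only [xw, Prod.fst_sub, Prod.snd_sub]
  have h0 : 0 ≤ s * J := mul_nonneg hs (by omega)
  refine ⟨by nlinarith, by nlinarith, by linarith, by linarith⟩

theorem icc_card {J : ℤ} (hJ : 0 ≤ J) : ((Finset.Icc (-J) J).card : ℝ) = 2 * J + 1 := by
  rw [Int.card_Icc]
  have : (((J + 1 - -J).toNat : ℕ) : ℤ) = 2 * J + 1 := by omega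
  exact_mod_cast this

/-- The windows of length `s` cover the window `s J`. -/
theorem cover_win (hQ : 0 < Q) {s J m n : ℤ} (hs : 1 ≤ s) (hJ : 0 ≤ J) (hn : m + s ≤ n) :
    Pr Q D η (Ev V (PT x (s * J) n)) ≤
      ∑ j ∈ Finset.Icc (-J) J, Pr Q D η (Ev V (PA (xw x s j) s m)) := by
  refine pr_biUnion hQ _ _ ?_
  rintro T hT ⟨u, v, ⟨hu, hu2, huz, huv⟩, hcp⟩
  set j := (u.1 - x.1) / s with hj
  have hj1 := Int.emod_add_mul_ediv (u.1 - x.1) s
  have hj2 := Int.emod_nonneg (u.1 - x.1) (by omega : s ≠ 0)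
  have hj3 := Int.emod_lt_of_pos (u.1 - x.1) (by omega : 0 < s)
  rw [← hj] at hj1
  have huz' := nm_le_iff.1 huz
  simp only [Prod.fst_sub, Prod.snd_sub] at huz'
  have hjJ : j ∈ Finset.Icc (-J) J := by
    rw [Finset.mem_Icc]
    constructor
    · by_contra hlt
      push Not at hlt
      have : s * j ≤ s * (-J - 1) := by nlinarith
      nlinarith
    · by_contra hlt
      push Not at hlt
      have : s * (J + 1) ≤ s * j := by nlinarith
      nlinarith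
  have hun : nm (u - xw x s j) ≤ s := by
    rw [nm_le_iff]
    simp only [xw, Prod.fst_sub, Prod.snd_sub]
    omega
  refine ⟨j, hjJ, u, v, ⟨hu, hu2, hun, ?_⟩, hcp⟩
  have h1 := nm_tri v (xw x s j) u
  rw [nm_comm' (xw x s j) u] at h1
  omega

/-- The main step, for fixed parameters. -/
theorem hi_main (hQ : 1 ≤ Q) {h s n J m : ℤ} {k₀ : ℕ} {c A : ℝ}
    (hp : ∀ (x' : ℤ × ℤ) (t : ℤ), s ≤ t →
      Pr Q (Bq x' (4 * t) \ Bq x' h) eta1 {ω | ArmPx x' h (4 * t) ω} ≤ 1 / 36)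
    (hh : 1 ≤ h) (hhs : h ≤ s) (hJ : 1 ≤ J) (hJA : 2 * (J : ℝ) + 1 ≤ A * 8 ^ k₀)
    (hn : 2 * (8 ^ k₀ * s) ≤ n) (hVR : V ⊆ HB x m) (hRm : s * J + 2 * (8 ^ k₀ * s) ≤ m)
    (hfl : QFlat x m D η) (hA : A * (8 / 9) ^ k₀ < c)
    (H : c ≤ Pr Q D η (Ev V (PT x (s * J) n))) :
    c / (2 * (2 * J + 1)) ≤ Pr Q D η (Ev (HB x m) (PH x m h)) := by
  have hQ0 : 0 < Q := by linarith
  set S : ℕ → ℝ := fun k => ∑ j ∈ Finset.Icc (-J) J, Pr Q D η (Ev V (PA (xw x s j) s (8 ^ k * s)))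
    with hS
  have hE1 : (1 : ℤ) ≤ 8 ^ k₀ := one_le_pow₀ (by norm_num)
  have hsE : s ≤ 8 ^ k₀ * s := by nlinarith
  have hSk : c ≤ S k₀ := H.trans (cover_win hQ0 (by omega) (by omega) (by omega))
  have hS0 : S 0 ≤ A * 8 ^ k₀ := by
    have h1 : S 0 ≤ ∑ j ∈ Finset.Icc (-J) J, (1 : ℝ) :=
      Finset.sum_le_sum fun j _ => Pr_le_one hQ0 _
    rw [Finset.sum_const, nsmul_eq_mul, mul_one, icc_card (by omega)] at h1
    linarith
  have hSanti : ∀ k l : ℕ, k ≤ l → S l ≤ S k := by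
    intro k l hkl
    refine Finset.sum_le_sum fun j _ => Pr_mono hQ0 (ev_mono subset_rfl ?_)
    rintro u v ⟨h1, h2, h3, h4⟩
    refine ⟨h1, h2, h3, le_trans ?_ h4⟩
    exact mul_le_mul_of_nonneg_right (pow_le_pow_right₀ (by norm_num) hkl) (by omega)
  obtain ⟨k, hk, hgood⟩ := pigeon hS0 hSk hA
  set pH := Pr Q D η (Ev (HB x m) (PH x m h)) with hpH
  have hstep : ∀ j ∈ Finset.Icc (-J) J, Pr Q D η (Ev V (PA (xw x s j) s (8 ^ (k + 1) * s))) ≤
      pH + 1 / 18 * Pr Q D η (Ev V (PA (xw x s j) s (8 ^ k * s))) := by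
    intro j hj
    set t : ℤ := 8 ^ k * s with ht
    have hk1 : (1 : ℤ) ≤ 8 ^ k := one_le_pow₀ (by norm_num)
    have hst : s ≤ t := by nlinarith
    have h8t : 8 * t ≤ 8 ^ k₀ * s := by
      have h1 : (8 : ℤ) ^ (k + 1) ≤ 8 ^ k₀ := pow_le_pow_right₀ (by norm_num) hk
      have h2 : 8 * t = 8 ^ (k + 1) * s := by rw [ht]; ring
      rw [h2]
      exact mul_le_mul_of_nonneg_right h1 (by omega)
    have e8 : (8 : ℤ) ^ (k + 1) * s = 8 * t := by rw [ht]; ring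
    have hxjj := nm_xw (x := x) (s := s) (by omega) hj
    rw [e8]
    have h1 := low_exit hQ (x := x) (y := xw x s j) (R := m) (V := V) (s := s) (t := t) (h := h)
      (p := 1 / 36) (fun x' => hp x' t hst) hfl hVR rfl (by omega) hst hh
      (by omega) (by omega)
    have h2 : Pr Q D η (Ev V (PH (xw x s j) s h)) ≤ pH := by
      refine Pr_mono hQ0 (ev_mono hVR ?_)
      rintro u v ⟨h2, h3, h4, h5⟩
      refine ⟨h2, h3, ?_, h5⟩
      have := nm_tri u (xw x s j) x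
      omega
    linarith
  have hsum : S (k + 1) ≤ (2 * J + 1) * pH + 1 / 18 * S k := by
    calc S (k + 1) ≤ ∑ j ∈ Finset.Icc (-J) J,
          (pH + 1 / 18 * Pr Q D η (Ev V (PA (xw x s j) s (8 ^ k * s)))) :=
          Finset.sum_le_sum hstep
      _ = _ := by
        rw [Finset.sum_add_distrib, Finset.sum_const, nsmul_eq_mul, icc_card (by omega),
          ← Finset.mul_sum]
  have hJR : (1 : ℝ) ≤ J := by exact_mod_cast hJ
  have h1 : c ≤ S (k + 1) := hSk.trans (hSanti (k + 1) k₀ hk)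
  rw [div_le_iff₀ (by positivity)]
  linarith

/-- **A path from the side reaches macroscopic height.** -/
theorem exists_hi (hQ : 1 ≤ Q) {L : ℤ} (hL : H519.Rat Q L) {α C : ℝ} (hα : 0 < α) (hC : 0 < C)
    (hdec : ArmDec Q α C) (h : Tch Q) :
    ∃ (N h₀ : ℤ) (c : ℝ), 1 ≤ N ∧ 0 < c ∧ ∀ (x : ℤ × ℤ) (h : ℤ) (D : Finset (ℤ × ℤ)) (η : Cfg),
      h₀ ≤ h → 1 ≤ h → QFlat x (N * h) D η →
      c ≤ Pr Q D η (Ev (HB x (N * h)) (PH x (N * h) h)) := by
  obtain ⟨K, N₁, n₀, c, hK, hKN, hc, H⟩ := tch_all hQ hL h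
  obtain ⟨Λ, hΛ, hp⟩ := exists_lam hα hC hQ hdec
  have hKR : (1 : ℝ) ≤ K := by exact_mod_cast hK
  obtain ⟨k₀, hk₀⟩ : ∃ k₀ : ℕ, 5 * (K : ℝ) * (8 / 9) ^ k₀ < c := by
    have h1 : Filter.Tendsto (fun k : ℕ => 5 * (K : ℝ) * (8 / 9) ^ k) Filter.atTop
        (nhds (5 * (K : ℝ) * 0)) :=
      (tendsto_pow_atTop_nhds_zero_of_lt_one (by norm_num) (by norm_num)).const_mul _
    rw [mul_zero] at h1
    exact (h1.eventually (gt_mem_nhds hc)).exists
  have hE1 : (1 : ℤ) ≤ 8 ^ k₀ := one_le_pow₀ (by norm_num)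
  have hN1 : 2 ≤ N₁ := by omega
  set J : ℤ := 2 * K * 8 ^ k₀ with hJ
  have hJ1 : 1 ≤ J := by nlinarith
  have hJR : (1 : ℝ) ≤ J := by exact_mod_cast hJ1
  refine ⟨N₁ * (2 * 8 ^ k₀ * Λ), n₀, c / (2 * (2 * J + 1)), ?_, by positivity, ?_⟩
  · have : 1 ≤ (8 : ℤ) ^ k₀ * Λ := by nlinarith
    nlinarith
  intro x h D η hh0 hh hfl
  set s : ℤ := Λ * h with hs
  have hs1 : 1 ≤ s := by nlinarith
  have hhs : h ≤ s := by nlinarith
  set n : ℤ := 2 * 8 ^ k₀ * s with hn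
  have hEs : s ≤ 8 ^ k₀ * s := by nlinarith
  have hn2 : n = 2 * (8 ^ k₀ * s) := by rw [hn]; ring
  have hn1 : 1 ≤ n := by omega
  have hn0 : n₀ ≤ n := by omega
  have hNh : N₁ * (2 * 8 ^ k₀ * Λ) * h = N₁ * n := by rw [hn, hs]; ring
  rw [hNh] at hfl ⊢
  have hVN : HB x (2 * K * n) ⊆ HB x (N₁ * n) := by
    intro v hv
    obtain ⟨h1, h2⟩ := mem_HB.1 hv
    exact mem_HB.2 ⟨H167.Q.bq_mono (mul_le_mul_of_nonneg_right hKN (by omega)) h1, h2⟩
  have hsJ : s * J = K * n := by rw [hJ, hn]; ring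
  have h1 := H x n D η hn0 hn1 hfl
  rw [← hsJ] at h1
  refine hi_main hQ (h := h) (s := s) (n := n) (J := J) (m := N₁ * n) (A := 5 * K) ?_ hh hhs hJ1
    ?_ hn2.ge hVN ?_ hfl hk₀ h1
  · intro x' t hst
    exact hp x' h (4 * t) hh (by omega)
  · have h2 : 2 * J + 1 ≤ 5 * K * 8 ^ k₀ := by
      have : 1 ≤ K * 8 ^ k₀ := by nlinarith
      rw [hJ]; nlinarith
    exact_mod_cast h2
  · rw [hsJ, ← hn2]
    nlinarith

end Vale.Agent.P167.H199
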