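import Vale.Agent.P167.H199.QBox

/-!
P167, general `q`, block Q-PLID, part 3: the local limit of the finite quotients of the plane is the
infinite-volume random-cluster measure.
-/

set_option linter.unusedSimpArgs false
set_option linter.unusedSectionVars false

namespace Vale.Agent.P167.H199

open Finset Filter Topology MeasureTheory
open Vale.Agent.P167.A (Grid plane torus red redE plane_nx plane_hd plane_sg)
open Vale.Agent.P167.H685
open Vale.Agent.P167.FK (cf eta0 LD Good Ex Bq Zq)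
open Vale.Agent.P167.H519 (IsLim)
open Vale.Agent.P152 (Edge Ori vw wt)

/-- A finite quotient of the plane by a group of translations. -/
structure GCov {V : Type} [AddCommGroup V] (g : Grid V) (r : ℤ × ℤ → V) (m : ℕ) : Prop
    extends Cov g r m where
  add : ∀ v w, r (v + w) = r v + r w

theorem plane_e1_add (v u : ℤ × ℤ) : plane.e1 (v + u) = plane.e1 v + u := by
  ext <;> simp [plane]; ring

theorem plane_e2_add (v u : ℤ × ℤ) : plane.e2 (v + u) = plane.e2 v + u := by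
  ext <;> simp [plane]; ring

namespace GCov

variable {V : Type} [AddCommGroup V] {g : Grid V} {r : ℤ × ℤ → V} {m : ℕ} (h : GCov g r m)
  [Fintype V] [DecidableEq V]

include h

theorem wG_shift (θ : ℝ) {u : ℤ × ℤ} (hu : Even (u.1 + u.2)) (ρ : V → Bool) :
    wG θ g (shift (r u) ρ) = wG θ g ρ := by
  have hsh : shift (r u) ρ = ρ ∘ (Equiv.addRight (r u)) := rfl
  rw [hsh]
  apply wG_comp
  · intro v
    obtain ⟨w, rfl⟩ := h.surj v
    show g.e1 (r w + r u) = g.e1 (r w) + r u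
    rw [← h.add, h.e1, h.e1, ← h.add, plane_e1_add]
  · intro v
    obtain ⟨w, rfl⟩ := h.surj v
    show g.e2 (r w + r u) = g.e2 (r w) + r u
    rw [← h.add, h.e2, h.e2, ← h.add, plane_e2_add]
  · intro v
    obtain ⟨w, rfl⟩ := h.surj v
    show g.par (r w + r u) = g.par (r w)
    rw [← h.add, h.par, h.par]
    simp only [plane, decide_eq_decide]
    have : (w + u).1 + (w + u).2 = (w.1 + w.2) + (u.1 + u.2) := by simp; ring
    rw [this, Int.even_add]
    simp [hu]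

/-- One-sided estimate. -/
theorem le_of {θ : ℝ} (h0 : 0 ≤ θ) (h1 : θ ≤ Real.pi / 3)
    {F : Cfg → ℝ} (hF1 : ∀ ω, |F ω| ≤ 1) {R : ℕ} (hR : Even R) (hR0 : 0 < R)
    (hF : FKA.Loc (Bq 0 R) F) {b t : ℝ} (ht0 : 0 < t) (ht1 : t ≤ 1)
    (hb : ∀ η, Good η → Ex (2 * Real.cos θ) (Bq 0 R) η F ≤ b)
    {k : ℕ} (hk : 0 < k) (hm : 2 * (2 * R * k + 1 + 1) + 1 ≤ m) :
    (∑ ρ, wG θ g ρ * F (ρ ∘ r)) / (∑ ρ, wG θ g ρ) ≤
      b + t + (2 * Real.log 4 * (4 * (2 * R * k + 1))) / (t * (k * k)) := by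
  classical
  have hQ : 0 < 2 * Real.cos θ := by have := one_le_Q h0 h1; linarith
  set M : ℕ := 2 * R * k + 1 with hM
  have hM0 : NeZero M := ⟨by omega⟩
  set P := range k ×ˢ range k with hP
  have hdiv : (M - 1) / (2 * R) = k := by
    rw [hM, Nat.add_sub_cancel]
    exact Nat.mul_div_cancel_left k (by omega)
  have hsubP : ∀ p ∈ P, Bq (ctr R p) R ⊆ Dd M M := by
    intro p hp
    apply Bq_ctr_sub
    rw [hdiv]
    exact hp
  have hRz : (0 : ℤ) < R := by exact_mod_cast hR0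
  have hctr_mem : ∀ p, ctr R p ∈ Bq (ctr R p) R := by
    intro p
    simp [Bq, hR0]
  have hctr_inj : Set.InjOn (fun p => r (ctr R p)) (P : Set (ℕ × ℕ)) := by
    intro p hp q hq hpq
    by_contra hne
    have hd := Bq_ctr_disj (R := R) hne
    have := h.injD hm _ (hsubP p (mem_coe.1 hp) (hctr_mem p)) _
      (hsubP q (mem_coe.1 hq) (hctr_mem q)) hpq
    have c3 : ctr R p ∈ Bq (ctr R q) R := by rw [this]; exact hctr_mem q
    exact Finset.disjoint_left.1 hd (hctr_mem p) c3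
  set A : Finset V := P.image (fun p => r (ctr R p)) with hA
  have hAcard : A.card = k * k := by
    rw [hA, card_image_of_injOn hctr_inj, hP, card_product, card_range]
  have hAne : A.Nonempty := by
    rw [← card_pos, hAcard]
    exact Nat.mul_pos hk hk
  obtain ⟨R', hR'⟩ := hR
  have hev : ∀ p : ℕ × ℕ, Even ((ctr R p).1 + (ctr R p).2) := by
    intro p
    simp only [ctr, hR']
    exact ⟨(R' + R' : ℕ) * p.1 + (R' + R' : ℕ) * p.2 + (R' + R' : ℕ), by push_cast; ring⟩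
  have hinv : ∀ a ∈ A, ∀ ρ : V → Bool, wG θ g (shift a ρ) = wG θ g ρ := by
    intro a ha ρ
    obtain ⟨p, _, rfl⟩ := mem_image.1 ha
    exact h.wG_shift θ (hev p) ρ
  set c : ℝ := Real.exp (t * b + t ^ 2) with hc
  -- the exponential moment
  have hexp : ∑ ρ : V → Bool, wG θ g (clr r M ρ) *
      Real.exp (t * ∑ a ∈ A, F (shift a ρ ∘ r))
      ≤ Real.exp ((t * b + t ^ 2) * A.card) * ∑ ρ : V → Bool, wG θ g (clr r M ρ) := by
    set G : ℕ × ℕ → Cfg → ℝ := fun p ω =>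
      Real.exp (t * F (fun v => ω (v.1 + (ctr R p).1, v.2 + (ctr R p).2))) with hG
    have e1 : ∀ ρ : V → Bool, Real.exp (t * ∑ a ∈ A, F (shift a ρ ∘ r))
        = ∏ p ∈ P, G p (pc M (So r M ρ)) := by
      intro ρ
      rw [hA, sum_image hctr_inj, mul_sum, Real.exp_sum]
      refine prod_congr rfl fun p hp => ?_
      simp only [hG]
      congr 2
      refine hF _ _ fun v hv => ?_
      have hv' : (v.1 + (ctr R p).1, v.2 + (ctr R p).2) ∈ Dd M M := by
        apply hsubP p hp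
        simp only [Bq, mem_product, mem_Ico, Prod.fst_zero, Prod.snd_zero] at hv ⊢
        omega
      have e2 : (shift (r (ctr R p)) ρ ∘ r) v
          = ρ (r (v.1 + (ctr R p).1, v.2 + (ctr R p).2)) := by
        show ρ (r v + r (ctr R p)) = _
        rw [← h.add]
        rfl
      rw [e2]
      simp only [pc, cf, hv', if_true]
      by_cases h : ρ (r (v.1 + (ctr R p).1, v.2 + (ctr R p).2)) = true
      · rw [h]
        symm
        rw [decide_eq_true_eq]
        exact mem_filter.2 ⟨hv', h⟩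
      · rw [Bool.not_eq_true] at h
        rw [h]
        symm
        rw [decide_eq_false_iff_not]
        intro hn
        have := (mem_filter.1 hn).2
        rw [h] at this
        exact Bool.false_ne_true this
    rw [sum_congr rfl fun ρ _ => by rw [e1 ρ],
      h.sum_clr hm h0 h1 (fun ω => ∏ p ∈ P, G p ω), mul_comm]
    refine mul_le_mul_of_nonneg_right ?_ (sum_nonneg fun ρ _ => (h.wG_pos h0 h1 _).le)
    have h2 := cher hQ P (D := Dd M M) (Dm := fun p => Bq (ctr R p) R) (g := G) (c := fun _ => c)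
      (fun p hp => hsubP p hp) (fun p _ q _ hne => Bq_ctr_disj hne) ?_
      (fun p _ ω => (Real.exp_pos _).le) ?_ (η := eta0) FK.f_good.2.1
    · refine h2.trans (le_of_eq ?_)
      rw [prod_const, hc, ← Real.exp_nat_mul]
      congr 1
      have : P.card = A.card := by rw [hA, card_image_of_injOn hctr_inj]
      rw [this]
      ring
    · intro p _ ω ω' h
      simp only [hG]
      congr 2
      refine hF _ _ fun v hv => h _ ?_
      simp only [Bq, mem_product, mem_Ico, Prod.fst_zero, Prod.snd_zero] at hv ⊢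
      omega
    · intro p _ η hη
      obtain ⟨g1, g2⟩ := Ex_tr hQ (hev p) hη R (fun ω => Real.exp (t * F ω))
      simp only [hG]
      rw [g2]
      exact exp_le hQ hF1 (by rw [abs_of_pos ht0]; exact ht1)
        (mul_le_mul_of_nonneg_left (hb _ g1) ht0.le)
  have hZ0 : 0 < ∑ ρ : V → Bool, wG θ g (clr r M ρ) :=
    sum_pos (fun ρ _ => h.wG_pos h0 h1 _) univ_nonempty
  have hTc : ((Tr M).image r).card ≤ 4 * (2 * R * k + 1) :=
    card_image_le.trans (card_Tr (2 * R * k))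
  have h4 : (0 : ℝ) < 4 ^ (4 * (2 * R * k + 1)) := by positivity
  have h41 : (4 : ℝ) ^ ((Tr M).image r).card ≤ 4 ^ (4 * (2 * R * k + 1)) :=
    pow_le_pow_right₀ (by norm_num) hTc
  have hcmp : ∀ ρ : V → Bool, wG θ g ρ ≤ 4 ^ (4 * (2 * R * k + 1)) * wG θ g (clr r M ρ) ∧
      wG θ g (clr r M ρ) ≤ 4 ^ (4 * (2 * R * k + 1)) * wG θ g ρ := by
    intro ρ
    have h2 := h.close h0 h1 ((Tr M).image r) ρ
    have h3 : (fun x => if x ∈ (Tr M).image r then false else ρ x) = clr r M ρ := rfl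
    rw [h3] at h2
    exact ⟨h2.2.trans (mul_le_mul_of_nonneg_right h41 (h.wG_pos h0 h1 _).le),
      h2.1.trans (mul_le_mul_of_nonneg_right h41 (h.wG_pos h0 h1 _).le)⟩
  have main := weighted_le2 (W := wG θ g) (W₀ := fun ρ => wG θ g (clr r M ρ))
    (F := fun ρ => F (ρ ∘ r)) (A := A)
    (B := 4 ^ (4 * (2 * R * k + 1))) (z := 1 / 4 ^ (4 * (2 * R * k + 1))) (t := t)
    (s := t * b + t ^ 2)
    (fun ρ => (h.wG_pos h0 h1 ρ).le) (fun ρ => (hcmp ρ).1) hinv (by positivity) h4 hZ0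
    (by
      rw [mul_sum]
      refine sum_le_sum fun ρ _ => ?_
      rw [div_mul_eq_mul_div, one_mul, div_le_iff₀ h4, mul_comm]
      exact (hcmp ρ).2) hAne ht0 hexp
  have hlog : Real.log ((4 : ℝ) ^ (4 * (2 * R * k + 1)) / (1 / 4 ^ (4 * (2 * R * k + 1)))) =
      2 * Real.log 4 * (4 * (2 * R * k + 1)) := by
    rw [div_div_eq_mul_div, div_one, Real.log_mul h4.ne' h4.ne', Real.log_pow]
    push_cast
    ring
  rw [hlog] at main
  refine main.trans (le_of_eq ?_)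
  have hc3 : (A.card : ℝ) = (k : ℝ) * k := by
    rw [hAcard]
    push_cast
    ring
  rw [hc3]
  have hk' : (0 : ℝ) < k := by exact_mod_cast hk
  field_simp
  ring

end GCov

/-- Local limit, bounded by one. -/
theorem loc_lim_one {θ : ℝ} (h0 : 0 ≤ θ) (h1 : θ ≤ Real.pi / 3) {P : Measure Cfg}
    (hP : IsLim (2 * Real.cos θ) P) {F : Cfg → ℝ} {K : ℕ} (hF : Dep F (bx K : Set (ℤ × ℤ)))
    (hF1 : ∀ ω, |F ω| ≤ 1) {ε : ℝ} (hε : 0 < ε) :
    ∃ m0 : ℕ, ∀ (V : Type) [AddCommGroup V] [Fintype V] [DecidableEq V] (g : Grid V)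
      (r : ℤ × ℤ → V) (m : ℕ), GCov g r m → m0 ≤ m →
      |(∑ ρ, wG θ g ρ * F (ρ ∘ r)) / (∑ ρ, wG θ g ρ) - ∫ ω, F ω ∂P| ≤ ε := by
  classical
  have hFl : FKA.Loc (bx K) F := fun ω ω' h => hF ω ω' fun v hv => h v (mem_coe.1 hv)
  obtain ⟨R1, hR1⟩ := hP.2 (bx K) F hFl (ε / 4) (by positivity)
  obtain ⟨R, hR, hR0, hRK, hRR1⟩ : ∃ R : ℕ, Even R ∧ 0 < R ∧ K + 1 ≤ R ∧ R1 ≤ R :=
    ⟨2 * (K + 1 + R1.toNat), ⟨_, two_mul _⟩, by omega, by omega, by omega⟩
  have hbd : ∀ η, Good η → |Ex (2 * Real.cos θ) (Bq 0 R) η F - ∫ ω, F ω ∂P| ≤ ε / 4 :=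
    fun η hη => hR1 (Bq 0 R) η (H519.Bq_mono hRR1) hη
  have hsub : bx K ⊆ Bq 0 R := by
    intro v hv
    rw [mem_bx] at hv
    simp only [Bq, mem_product, mem_Ico, Prod.fst_zero, Prod.snd_zero]
    omega
  have hFR : FKA.Loc (Bq 0 R) F := fun ω ω' h => hFl ω ω' fun v hv => h v (hsub hv)
  set t : ℝ := min 1 (ε / 4) with ht
  have ht0 : 0 < t := lt_min one_pos (by positivity)
  have ht1 : t ≤ 1 := min_le_left _ _
  have ht4 : t ≤ ε / 4 := min_le_right _ _
  have hl4 : 0 ≤ Real.log 4 := Real.log_nonneg (by norm_num)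
  obtain ⟨k, hk⟩ := exists_nat_gt (2 * Real.log 4 * 12 * R / (t * (ε / 4)))
  have hRr : (1 : ℝ) ≤ R := by exact_mod_cast hR0
  have hkpos : (0 : ℝ) < k := lt_of_le_of_lt (by positivity) hk
  have hk0 : 0 < k := by exact_mod_cast hkpos
  have hk1 : (1 : ℝ) ≤ k := by exact_mod_cast hk0
  have herr : (2 * Real.log 4 * (4 * (2 * R * k + 1))) / (t * (k * k)) ≤ ε / 4 := by
    rw [div_lt_iff₀ (by positivity)] at hk
    rw [div_le_iff₀ (by positivity)]
    have e1 : 4 * (2 * (R : ℝ) * k + 1) ≤ 12 * R * k := by nlinarith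
    calc 2 * Real.log 4 * (4 * (2 * R * k + 1)) ≤ 2 * Real.log 4 * (12 * R * k) :=
          mul_le_mul_of_nonneg_left e1 (by positivity)
      _ = (2 * Real.log 4 * 12 * R) * k := by ring
      _ ≤ (k * (t * (ε / 4))) * k := mul_le_mul_of_nonneg_right hk.le hkpos.le
      _ = ε / 4 * (t * (k * k)) := by ring
  refine ⟨2 * (2 * R * k + 1 + 1) + 1, fun V _ _ _ g r m h hm => ?_⟩
  have main := fun (G : Cfg → ℝ) (b : ℝ) (hG1 : ∀ ω, |G ω| ≤ 1) (hG : FKA.Loc (Bq 0 R) G)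
    (hb : ∀ η, Good η → Ex (2 * Real.cos θ) (Bq 0 R) η G ≤ b) =>
    h.le_of h0 h1 hG1 hR hR0 hG ht0 ht1 hb hk0 hm
  have u1 := main F ((∫ ω, F ω ∂P) + ε / 4) hF1 hFR fun η hη => by
    have := (abs_le.1 (hbd η hη)).2
    linarith
  have u2 := main (fun ω => - F ω) (-(∫ ω, F ω ∂P) + ε / 4) (fun ω => by rw [abs_neg]; exact hF1 ω)
    (fun ω ω' h => by simp only [hFR ω ω' h]) fun η hη => by
      rw [FKA.Ex_neg]
      have := (abs_le.1 (hbd η hη)).1
      linarith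
  have hneg : (∑ ρ : V → Bool, wG θ g ρ * -F (ρ ∘ r)) / (∑ ρ, wG θ g ρ) =
      -((∑ ρ : V → Bool, wG θ g ρ * F (ρ ∘ r)) / (∑ ρ, wG θ g ρ)) := by
    rw [← neg_div, ← sum_neg_distrib]
    congr 1
    exact sum_congr rfl fun ρ _ => by ring
  rw [hneg] at u2
  rw [abs_le]
  constructor
  · linarith
  · linarith

/-- **Local limit.** -/
theorem loc_lim {θ : ℝ} (h0 : 0 ≤ θ) (h1 : θ ≤ Real.pi / 3) {P : Measure Cfg}
    (hP : IsLim (2 * Real.cos θ) P) {F : Cfg → ℝ} {K : ℕ} (hF : Dep F (bx K : Set (ℤ × ℤ)))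
    {D : ℝ} (hFD : ∀ ω, |F ω| ≤ D) {ε : ℝ} (hε : 0 < ε) :
    ∃ m0 : ℕ, ∀ (V : Type) [AddCommGroup V] [Fintype V] [DecidableEq V] (g : Grid V)
      (r : ℤ × ℤ → V) (m : ℕ), GCov g r m → m0 ≤ m →
      |(∑ ρ, wG θ g ρ * F (ρ ∘ r)) / (∑ ρ, wG θ g ρ) - ∫ ω, F ω ∂P| ≤ ε := by
  have hD : 0 ≤ D := le_trans (abs_nonneg _) (hFD fun _ => true)
  have hD1 : 0 < D + 1 := by linarith
  obtain ⟨m0, hm0⟩ := loc_lim_one h0 h1 hP (F := fun ω => F ω / (D + 1)) (K := K)
    (fun R R' h => by simp only [hF R R' h])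
    (fun R => by
      rw [abs_div, abs_of_pos hD1, div_le_one hD1]
      linarith [hFD R]) (ε := ε / (D + 1)) (div_pos hε hD1)
  refine ⟨m0, fun V _ _ _ g r m h hm => ?_⟩
  have := hm0 V g r m h hm
  have e1 : (∑ ρ : V → Bool, wG θ g ρ * (F (ρ ∘ r) / (D + 1))) / (∑ ρ, wG θ g ρ) =
      ((∑ ρ : V → Bool, wG θ g ρ * F (ρ ∘ r)) / (∑ ρ, wG θ g ρ)) / (D + 1) := by
    have e : ∑ ρ : V → Bool, wG θ g ρ * (F (ρ ∘ r) / (D + 1))
        = (∑ ρ : V → Bool, wG θ g ρ * F (ρ ∘ r)) / (D + 1) := by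
      rw [sum_div]
      exact sum_congr rfl fun R _ => by ring
    rw [e, div_right_comm]
  have e2 : ∫ R, F R / (D + 1) ∂P = (∫ R, F R ∂P) / (D + 1) := integral_div _ _
  rw [e1, e2, ← sub_div, abs_div, abs_of_pos hD1, div_le_div_iff_of_pos_right hD1] at this
  exact this

end Vale.Agent.P167.H199
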