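import Vale.Agent.P167.H199.QPlane
import Vale.Agent.P167.H199.OmEx
import Vale.Agent.P167.H685.GFin
import Vale.Agent.P167.K8.RswFin

/-!
P167, general `q`, block Q-PLID, part 5: the functional `om` of the insertions for the six-vertex
weight `c = 2 cos (θ / 2)`; its values on the phase insertions are expectations for the
infinite-volume random-cluster measure with `√q = 2 cos θ`.
-/

set_option linter.unusedSimpArgs false
set_option linter.unusedSectionVars false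

namespace Vale.Agent.P167.H199

open Finset Filter Topology MeasureTheory
open Vale.Agent.P167.A (Grid plane torus red redE plane_nx plane_hd plane_sg even_val_intCast
  par_red e1_red e2_red)
open Vale.Agent.P167.H685
open Vale.Agent.P167.H592
open Vale.Agent.P167.K8 (fc fc_zero)
open Vale.Agent.P167.FK (Good RSW)
open Vale.Agent.P167.H519 (IsLim)
open Vale.Agent.P152 (Edge Ori vw wt)

namespace GCov

variable {V : Type} [AddCommGroup V] {g : Grid V} {r : ℤ × ℤ → V} {m : ℕ} (h : GCov g r m)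

include h

theorem e1_eq (v : V) : g.e1 v = v + r (1, 0) := by
  obtain ⟨w, rfl⟩ := h.surj v
  rw [h.e1, ← h.add]
  congr 1
  ext <;> simp [plane]

theorem e2_eq (v : V) : g.e2 v = v + r (0, 1) := by
  obtain ⟨w, rfl⟩ := h.surj v
  rw [h.e2, ← h.add]
  congr 1
  ext <;> simp [plane]

theorem e1s_eq (v : V) : g.e1.symm v = v - r (1, 0) := by
  rw [Equiv.symm_apply_eq, h.e1_eq, sub_add_cancel]

theorem e2s_eq (v : V) : g.e2.symm v = v - r (0, 1) := by
  rw [Equiv.symm_apply_eq, h.e2_eq, sub_add_cancel]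

theorem em_eq : H592.em (r (1, 0)) (r (0, 1)) = r := by
  funext v
  let f : ℤ × ℤ →+ V := AddMonoidHom.mk' r h.add
  have hf : ∀ w, f w = r w := fun _ => rfl
  unfold H592.em
  rw [← hf, ← hf, ← hf, ← map_zsmul, ← map_zsmul, ← map_add]
  congr 1
  ext <;> simp

theorem emE_eq : emE (r (1, 0)) (r (0, 1)) = rE r := by
  unfold emE rE
  rw [h.em_eq]

variable [Fintype V] [DecidableEq V]

theorem hw_eq (c : ℝ) (ω : HO V) : hw c (r (1, 0)) (r (0, 1)) ω = hwt g c ω := by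
  unfold hw hwt hvw
  refine prod_congr rfl fun v _ => ?_
  rw [h.e1s_eq, h.e2s_eq]

theorem zv_phF (θ : ℝ) (S E : Finset Ed) (a : Ed → Bool → ℝ) :
    zv (2 * Real.cos (θ / 2)) (r (1, 0)) (r (0, 1)) S (phF E a) =
      ((∑ ρ, cutPr g θ (S.image (rE r)) (pbr r E a) ρ : ℝ) : ℂ) := by
  classical
  have h1 := cut_bkwC g θ (S.image (rE r)) (pbr r E a)
  rw [← h1]
  unfold zv
  refine sum_congr rfl fun ω _ => ?_
  rw [h.emE_eq, sum_pbr, h.hw_eq]
  unfold phF unH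
  rw [h.emE_eq]
  by_cases hS : NoDef (S.image (rE r)) ω
  · rw [if_pos hS, if_pos (show ∀ e ∉ S.image (rE r), ω e false = ω e true from hS)]
  · rw [if_neg hS, if_neg (show ¬ ∀ e ∉ S.image (rE r), ω e false = ω e true from hS)]

theorem zv_one (θ : ℝ) : zv (2 * Real.cos (θ / 2)) (r (1, 0)) (r (0, 1)) ∅ (fun _ => 1) =
      ((∑ ρ, wG θ g ρ : ℝ) : ℂ) := by
  classical
  have h1 := h.zv_phF θ ∅ ∅ (fun _ _ => 0)
  have e0 : phF ∅ (fun _ _ => 0) = fun _ => 1 := by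
    funext ω
    simp [phF]
  rw [e0] at h1
  rw [h1]
  congr 1
  refine sum_congr rfl fun ρ _ => ?_
  unfold cutPr wG
  rw [image_empty, prod_empty, mul_one]
  have e1 : (orbs (g.nxP ρ)).filter (fun ℓ => Disjoint ℓ ∅) = orbs (g.nxP ρ) := by
    apply filter_true_of_mem
    intro ℓ _
    exact disjoint_empty_right ℓ
  rw [e1]
  refine prod_congr rfl fun ℓ hℓ => ?_
  rw [fc_zero, cang_off]
  · intro x hx
    rw [eq_orb_of_mem hℓ hx, mem_orb]
    exact ⟨1, rfl⟩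
  · intro x _ b
    exact pbr_off (by simp) b

/-- The value of a phase insertion on a finite quotient. -/
theorem tv_phF (θ : ℝ) (S E : Finset Ed) (a : Ed → Bool → ℝ) :
    tv (2 * Real.cos (θ / 2)) (r (1, 0)) (r (0, 1)) S (phF E a) =
      (((∑ ρ, cutPr g θ (S.image (rE r)) (pbr r E a) ρ) / ∑ ρ, wG θ g ρ : ℝ) : ℂ) := by
  unfold tv
  rw [h.zv_phF, h.zv_one]
  push_cast
  rfl

end GCov

/-! ### limits -/

/-- `z` is the limit of the insertion over all finite quotients. -/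
def LimG (c : ℝ) (S : Finset Ed) (F : HO (ℤ × ℤ) → ℂ) (z : ℂ) : Prop :=
  ∀ ε > 0, ∃ m0 : ℕ, ∀ (V : Type) [AddCommGroup V] [Fintype V] [DecidableEq V] (g : Grid V)
    (r : ℤ × ℤ → V) (m : ℕ), GCov g r m → m0 ≤ m →
    ‖tv c (r (1, 0)) (r (0, 1)) S F - z‖ ≤ ε

theorem LimG.add {c : ℝ} {S : Finset Ed} {F F' : HO (ℤ × ℤ) → ℂ} {z z' : ℂ}
    (h : LimG c S F z) (h' : LimG c S F' z') : LimG c S (fun ω => F ω + F' ω) (z + z') := by
  intro ε hε
  obtain ⟨N, hN⟩ := h (ε / 2) (by positivity)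
  obtain ⟨N', hN'⟩ := h' (ε / 2) (by positivity)
  refine ⟨max N N', fun V _ _ _ g r m hG hm => ?_⟩
  have a1 := hN V g r m hG ((le_max_left _ _).trans hm)
  have a2 := hN' V g r m hG ((le_max_right _ _).trans hm)
  have e : tv c (r (1, 0)) (r (0, 1)) S (fun ω => F ω + F' ω) - (z + z') =
      (tv c (r (1, 0)) (r (0, 1)) S F - z) +
      (tv c (r (1, 0)) (r (0, 1)) S F' - z') := by
    unfold tv
    rw [zv_add]
    ring
  rw [e]
  calc _ ≤ _ := norm_add_le _ _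
    _ ≤ ε / 2 + ε / 2 := add_le_add a1 a2
    _ = ε := by ring

theorem LimG.mul {c : ℝ} {S : Finset Ed} {F : HO (ℤ × ℤ) → ℂ} {z : ℂ}
    (h : LimG c S F z) (k : ℂ) : LimG c S (fun ω => k * F ω) (k * z) := by
  intro ε hε
  have hk : 0 < ‖k‖ + 1 := by positivity
  obtain ⟨N, hN⟩ := h (ε / (‖k‖ + 1)) (by positivity)
  refine ⟨N, fun V _ _ _ g r m hG hm => ?_⟩
  have a1 := hN V g r m hG hm
  have e : tv c (r (1, 0)) (r (0, 1)) S (fun ω => k * F ω) - k * z =
      k * (tv c (r (1, 0)) (r (0, 1)) S F - z) := by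
    unfold tv
    rw [zv_mul]
    ring
  rw [e, norm_mul]
  calc ‖k‖ * _ ≤ (‖k‖ + 1) * (ε / (‖k‖ + 1)) :=
        mul_le_mul (by linarith) a1 (norm_nonneg _) hk.le
    _ = ε := by field_simp

theorem LimG.zero (c : ℝ) (S : Finset Ed) : LimG c S (fun _ => 0) 0 := by
  intro ε hε
  refine ⟨0, fun V _ _ _ g r m _ _ => ?_⟩
  have : tv c (r (1, 0)) (r (0, 1)) S (fun _ => 0) = 0 := by
    unfold tv zv
    simp
  rw [this, sub_zero, norm_zero]
  exact hε.le

theorem LimG.sum {c : ℝ} {S : Finset Ed} {ι : Type*} (s : Finset ι)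
    {F : ι → HO (ℤ × ℤ) → ℂ} (h : ∀ i ∈ s, ∃ z, LimG c S (F i) z) :
    ∃ z, LimG c S (fun ω => ∑ i ∈ s, F i ω) z := by
  classical
  induction s using Finset.induction_on with
  | empty =>
    refine ⟨0, ?_⟩
    simpa using LimG.zero c S
  | insert i s hi ih =>
    obtain ⟨z, hz⟩ := h i (mem_insert_self _ _)
    obtain ⟨z', hz'⟩ := ih fun j hj => h j (mem_insert_of_mem hj)
    refine ⟨z + z', ?_⟩
    have e : (fun ω => ∑ j ∈ insert i s, F j ω) = fun ω => F i ω + ∑ j ∈ s, F j ω := by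
      funext ω
      rw [sum_insert hi]
    rw [e]
    exact hz.add hz'

theorem gcov_torus (M L : ℕ) [NeZero M] [NeZero L] (hM : Even M) (hL : Even L) :
    GCov (torus M L hM hL) (red M L) (min M L) where
  par v := par_red hM hL v
  e1 v := e1_red hM hL v
  e2 v := e2_red hM hL v
  surj v := by
    obtain ⟨a, ha⟩ := ZMod.intCast_surjective v.1
    obtain ⟨b, hb⟩ := ZMod.intCast_surjective v.2
    exact ⟨(a, b), by ext <;> simp [red, ha, hb]⟩
  per v w hvw u := by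
    simp only [red, Prod.mk.injEq] at hvw ⊢
    constructor
    · simp [hvw.1]
    · simp [hvw.2]
  sep v w hvw := by
    simp only [red, Prod.mk.injEq] at hvw
    rw [ZMod.intCast_eq_intCast_iff_dvd_sub, ZMod.intCast_eq_intCast_iff_dvd_sub] at hvw
    obtain ⟨h1, h2⟩ := hvw
    by_cases h3 : w.1 = v.1
    · by_cases h4 : w.2 = v.2
      · left
        exact Prod.ext h3.symm h4.symm
      · right; right
        have h6 : (L : ℤ) ≤ |w.2 - v.2| :=
          Int.le_of_dvd (abs_pos.2 (by omega)) ((dvd_abs _ _).2 h2)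
        have h7 : ((min M L : ℕ) : ℤ) ≤ L := by exact_mod_cast min_le_right M L
        exact h7.trans h6
    · right; left
      have h6 : (M : ℤ) ≤ |w.1 - v.1| :=
        Int.le_of_dvd (abs_pos.2 (by omega)) ((dvd_abs _ _).2 h1)
      have h7 : ((min M L : ℕ) : ℤ) ≤ M := by exact_mod_cast min_le_left M L
      exact h7.trans h6
  add v w := by
    ext <;> simp [red]

theorem gcov_skew (M L : ℕ) [NeZero M] [NeZero L] (hM : Even M) :
    GCov (skew M L hM) (rsk M L) (min M L) where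
  toCov := cov_skew M L hM
  add v w := by
    ext
    · simp [rsk]; ring
    · simp [rsk]

theorem LimG.std {c : ℝ} {S : Finset Ed} {F : HO (ℤ × ℤ) → ℂ} {z : ℂ} (h : LimG c S F z) :
    ∀ ε > 0, ∃ N : ℕ, ∀ (M L : ℕ) [NeZero M] [NeZero L], Even M → Even L → N ≤ M → N ≤ L →
    ‖tv (V := ZMod M × ZMod L) c (1, 0) (0, 1) S F - z‖ ≤ ε := by
  intro ε hε
  obtain ⟨N, hN⟩ := h ε hε
  refine ⟨N, fun M L _ _ hM hL h1 h2 => ?_⟩
  have := hN _ _ _ _ (gcov_torus M L hM hL) (le_min h1 h2)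
  have e1 : red M L (1, 0) = (1, 0) := by ext <;> simp [red]
  have e2 : red M L (0, 1) = (0, 1) := by ext <;> simp [red]
  rw [e1, e2] at this
  exact this

theorem LimG.skew {c : ℝ} {S : Finset Ed} {F : HO (ℤ × ℤ) → ℂ} {z : ℂ} (h : LimG c S F z) :
    ∀ ε > 0, ∃ N : ℕ, ∀ (M L : ℕ) [NeZero M] [NeZero L], Even M → Even L → N ≤ M → N ≤ L →
    ‖tv (V := ZMod M × ZMod L) c (1, 0) (-1, 1) S F - z‖ ≤ ε := by
  intro ε hε
  obtain ⟨N, hN⟩ := h ε hε
  refine ⟨N, fun M L _ _ hM hL h1 h2 => ?_⟩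
  have := hN _ _ _ _ (gcov_skew M L hM) (le_min h1 h2)
  have e1 : rsk M L (1, 0) = (1, 0) := by ext <;> simp [rsk]
  have e2 : rsk M L (0, 1) = (-1, 1) := by ext <;> simp [rsk]
  rw [e1, e2] at this
  exact this

theorem LimG.unique {c : ℝ} {S : Finset Ed} {F : HO (ℤ × ℤ) → ℂ} {z z' : ℂ}
    (h : LimG c S F z) (h' : LimG c S F z') : z = z' := by
  have h1 : LimS c S F z := fun ε hε => h.std ε hε
  have h2 : LimS c S F z' := fun ε hε => h'.std ε hε
  exact h1.unique h2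

section main

variable {θ : ℝ} (h0 : 0 ≤ θ) (h1 : θ ≤ Real.pi / 3) {P : Measure Cfg}
  (hP : IsLim (2 * Real.cos θ) P) (hg : ∀ᵐ ω ∂P, Good ω)

include h0 h1 hP hg

theorem limG_phF {S E : Finset Ed} (hSE : S ⊆ E) {a : Ed → Bool → ℝ}
    (ha : ∀ e ∉ E, ∀ b, a e b = 0) :
    LimG (2 * Real.cos (θ / 2)) S (phF E a) ((∫ ω, XcQ θ S a ω ∂P : ℝ) : ℂ) := by
  intro ε hε
  obtain ⟨N, hN⟩ := cut_limQ h0 h1 hP hg hSE ha ε hε
  refine ⟨N, fun V _ _ _ g r m h hm => ?_⟩
  rw [h.tv_phF, ← Complex.ofReal_sub, Complex.norm_real, Real.norm_eq_abs]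
  exact hN V g r m h hm

theorem limG_local {S : Finset Ed} {Λ : Finset Ed} (hS : S ⊆ Λ) {F : HO (ℤ × ℤ) → ℂ}
    (hF : ∀ ω ω' : HO (ℤ × ℤ), (∀ e ∈ Λ, ω e = ω' e) → F ω = F ω') :
    ∃ z, LimG (2 * Real.cos (θ / 2)) S F z := by
  classical
  obtain ⟨k, hk⟩ := expandF hF
  subst hk
  refine LimG.sum _ fun η _ => LimG.sum _ fun T hT => ?_
  rw [mem_powerset] at hT
  have ha : ∀ e ∉ Λ, ∀ b, aT T e b = 0 := fun e he b => by
    unfold aT
    rw [if_neg]
    intro h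
    exact he (mem_product.1 (hT h)).1
  exact ⟨_, (limG_phF h0 h1 hP hg hS ha).mul _⟩

/-- **The functional of the insertions exists**; its values on the phase insertions are expectations
for the random-cluster measure. -/
theorem exists_isOmQ : ∃ om : Ins → ℂ, IsOm (2 * Real.cos (θ / 2)) om ∧
    ∀ (S E : Finset Ed) (a : Ed → Bool → ℝ), S ⊆ E → (∀ e ∉ E, ∀ b, a e b = 0) →
      om ⟨S, phF E a⟩ = ((∫ ω, XcQ θ S a ω ∂P : ℝ) : ℂ) := by
  classical
  let om : Ins → ℂ := fun A =>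
    if h : ∃ z, LimG (2 * Real.cos (θ / 2)) A.S A.F z then h.choose else 0
  have k1 : ∀ A : Ins, LI Set.univ A → LimG (2 * Real.cos (θ / 2)) A.S A.F (om A) := by
    rintro A ⟨Λ, _, hS, hF⟩
    have h : ∃ z, LimG (2 * Real.cos (θ / 2)) A.S A.F z := limG_local h0 h1 hP hg hS hF
    simp only [om]
    rw [dif_pos h]
    exact h.choose_spec
  refine ⟨om, ⟨fun A hA => (k1 A hA).std, fun A hA => (k1 A hA).skew⟩, ?_⟩
  intro S E a hSE ha
  have h2 : LimG (2 * Real.cos (θ / 2)) S (phF E a) ((∫ ω, XcQ θ S a ω ∂P : ℝ) : ℂ) :=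
    limG_phF h0 h1 hP hg hSE ha
  have h : ∃ z, LimG (2 * Real.cos (θ / 2)) S (phF E a) z := ⟨_, h2⟩
  have h3 : LimG (2 * Real.cos (θ / 2)) S (phF E a) (om ⟨S, phF E a⟩) := by
    simp only [om]
    rw [dif_pos h]
    exact h.choose_spec
  exact h3.unique h2

/-- The value of any such functional on the phase insertions. -/
theorem isOm_phFQ {om : Ins → ℂ} (hom : IsOm (2 * Real.cos (θ / 2)) om) {S E : Finset Ed}
    (hSE : S ⊆ E) {a : Ed → Bool → ℝ} (ha : ∀ e ∉ E, ∀ b, a e b = 0) :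
    om ⟨S, phF E a⟩ = ((∫ ω, XcQ θ S a ω ∂P : ℝ) : ℂ) := by
  have hdep : ∀ ω ω' : HO (ℤ × ℤ), (∀ e ∈ E, ω e = ω' e) → phF E a ω = phF E a ω' := by
    intro ω ω' hh
    have h2 : ∑ e ∈ E, ∑ b : Bool, a e b * (if ω e b then (1 : ℝ) else -1) =
        ∑ e ∈ E, ∑ b : Bool, a e b * (if ω' e b then (1 : ℝ) else -1) :=
      sum_congr rfl fun e he => by rw [hh e he]
    unfold phF
    rw [h2]
  have hE : ∀ e ∈ E, e ∈ EdT Set.univ := by
    rintro (v | v) _
    · intro i j _ _ _ _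
      exact Set.mem_univ _
    · intro i j _ _ _ _
      exact Set.mem_univ _
  have hLI : LI Set.univ ⟨S, phF E a⟩ := ⟨E, hE, hSE, hdep⟩
  have k1 : LimS (2 * Real.cos (θ / 2)) S (phF E a) (om ⟨S, phF E a⟩) :=
    fun ε hε => hom.std _ hLI ε hε
  have k2 : LimS (2 * Real.cos (θ / 2)) S (phF E a) ((∫ ω, XcQ θ S a ω ∂P : ℝ) : ℂ) :=
    fun ε hε => (limG_phF h0 h1 hP hg hSE ha).std ε hε
  exact k1.unique k2

omit hg in
/-- Almost surely all loops are finite, for all `1 ≤ q < 4`. -/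
theorem good_aeQ (hθ : 0 < θ) : ∀ᵐ ω ∂P, Good ω := by
  have hPp : IsProbabilityMeasure P := hP.1
  have hQ : 1 ≤ 2 * Real.cos θ := one_le_Q h0 h1
  have hr : RSW (2 * Real.cos θ) := K8.k_rsw θ hθ.le h1
  obtain ⟨α, C, hα, hC, k1, k2⟩ := FKA.arm_fk hQ hr
  exact good_ae (H562.GL.armPr hP hα hC k1 k2)

end main

end Vale.Agent.P167.H199
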