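import Vale.Agent.P167.H199.QOm
import Vale.Agent.P167.H592.QK1

/-!
P167, general `q`, block Q-PLID, part 6: existence of the functional of the insertions in the form
`OmQ`, for every `1 ≤ q < 4`.
-/

namespace Vale.Agent.P167.H199

open Finset Filter Topology MeasureTheory
open Vale.Agent.P167.H592 (OmQ Ins)
open Vale.Agent.P167.FK (Good)
open Vale.Agent.P167.H519 (IsLim)

theorem XcQ_QX (θ : ℝ) (S : Finset Ed) (a : Ed → Bool → ℝ) (ω : Cfg) :
    QX.XcQ θ S a ω = XcQ θ S a ω := by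
  unfold QX.XcQ XcQ QX.nS
  rw [inv_pow]

/-- **Existence of the functional**, from the almost sure finiteness of the loops. -/
theorem exists_omQ_of {θ : ℝ} (h0 : 0 ≤ θ) (h1 : θ ≤ Real.pi / 3) {P : Measure Cfg}
    (hP : IsLim (2 * Real.cos θ) P) (hg : ∀ᵐ ω ∂P, Good ω) : ∃ om : Ins → ℂ, OmQ θ P om := by
  obtain ⟨om, h2, h3⟩ := exists_isOmQ h0 h1 hP hg
  refine ⟨om, h2, fun S E a hSE ha => ?_⟩
  rw [h3 S E a hSE ha]
  simp only [XcQ_QX]

/-- **Existence of the functional**, `1 ≤ q < 4`. -/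
theorem exists_omQ {θ : ℝ} (h0 : 0 < θ) (h1 : θ ≤ Real.pi / 3) {P : Measure Cfg}
    (hP : IsLim (2 * Real.cos θ) P) : ∃ om : Ins → ℂ, OmQ θ P om :=
  exists_omQ_of h0.le h1 hP (good_aeQ h0.le h1 hP h0)

end Vale.Agent.P167.H199
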