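import Vale.Agent.P167.H199.QLoc
import Vale.Agent.P167.H199.CovPlane
import Vale.Agent.P167.H685.GId

/-!
P167, general `q`, block Q-PLID, part 4: the product over the loops and the strands of a cut
configuration of the plane, comparison with the finite quotients, the limit.
-/

set_option linter.unusedSimpArgs false
set_option linter.unusedSectionVars false

namespace Vale.Agent.P167.H199

open Finset Filter Topology MeasureTheory
open Vale.Agent.P167.A (Grid plane torus red redE plane_nx plane_hd plane_sg)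
open Vale.Agent.P167.H685
open Vale.Agent.P167.K8 (fc fc_zero cos4 cosm4 fc_le_two)
open Vale.Agent.P167.FK (cf eta0 LD Good Ex Bq Zq)
open Vale.Agent.P167.H519 (IsLim)
open Vale.Agent.P152 (Edge Ori vw wt)

/-- The cut observable of the random-cluster measure with `√q = 2 cos θ`: the product over the loops
which do not meet the cuts of `2 cos (angle) / √q`, a factor `1 / √q` for every loop which is cut,
and the product over the strands of `2 cos (angle)`. `a e b` is the phase of the half arrow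
`(e, b)`. -/
noncomputable def XcQ (θ : ℝ) (S : Finset Ed) (a : Ed → Bool → ℝ) (ω : Cfg) : ℝ :=
  (∏ᶠ ℓ ∈ {ℓ : Finset Ed | IsLoop ω ℓ ∧ Disjoint ℓ S},
    2 * Real.cos (cang plane θ a ω ℓ) / (2 * Real.cos θ)) *
    (2 * Real.cos θ)⁻¹ ^ Set.ncard {ℓ : Finset Ed | IsLoop ω ℓ ∧ ¬ Disjoint ℓ S} *
    ∏ e ∈ S, 2 * Real.cos (cang plane θ a ω (strand (nx ω) S e))

theorem cos_loopQ (θ : ℝ) {ω : Cfg} {ℓ : Finset Ed} (h : IsLoop ω ℓ) {a : Ed → Bool → ℝ}
    (ha : ∀ x ∈ ℓ, ∀ b, a x b = 0) : Real.cos (cang plane θ a ω ℓ) = Real.cos θ := by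
  rw [cang_off plane a ω (fun x hx => by rw [plane_nx]; exact loop_nx h hx) ha]
  rcases s_turn ω ℓ h with ⟨h1, _⟩ | ⟨h1, _⟩
  · rw [h1, cos4]
  · rw [h1, cosm4]

theorem cut_loops (ω : Cfg) {S E : Finset Ed} (hSE : S ⊆ E) :
    {ℓ : Finset Ed | IsLoop ω ℓ ∧ ¬ Disjoint ℓ S} =
      ((LE ω E).filter fun ℓ => ¬ Disjoint ℓ S : Finset (Finset Ed)) := by
  ext ℓ
  simp only [Set.mem_ofPred_eq, mem_coe, Finset.mem_filter, mem_LE]
  constructor
  · rintro ⟨h1, h2⟩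
    refine ⟨⟨h1, ?_⟩, h2⟩
    rw [Finset.not_disjoint_iff] at h2
    obtain ⟨e, he, heS⟩ := h2
    exact ⟨e, hSE heS, he⟩
  · rintro ⟨⟨h1, _⟩, h2⟩
    exact ⟨h1, h2⟩

/-- The product over all loops is a product over those which meet `E`. -/
theorem XcQ_eq {θ : ℝ} (hθ : Real.cos θ ≠ 0) (ω : Cfg) {S E : Finset Ed} (hSE : S ⊆ E)
    {a : Ed → Bool → ℝ} (ha : ∀ e ∉ E, ∀ b, a e b = 0) :
    XcQ θ S a ω = (∏ ℓ ∈ (LE ω E).filter (fun ℓ => Disjoint ℓ S),
      2 * Real.cos (cang plane θ a ω ℓ) / (2 * Real.cos θ)) *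
      (2 * Real.cos θ)⁻¹ ^ ((LE ω E).filter fun ℓ => ¬ Disjoint ℓ S).card *
      ∏ e ∈ S, 2 * Real.cos (cang plane θ a ω (strand (nx ω) S e)) := by
  classical
  unfold XcQ
  congr 1
  rw [cut_loops ω hSE, Set.ncard_coe_finset]
  congr 1
  apply finprod_mem_eq_prod_of_inter_mulSupport_eq
  ext ℓ
  simp only [Set.mem_inter_iff, Set.mem_ofPred_eq, Function.mem_mulSupport, mem_coe,
    Finset.mem_filter, mem_LE]
  constructor
  · rintro ⟨⟨h1, h3⟩, h2⟩
    refine ⟨⟨⟨h1, ?_⟩, h3⟩, h2⟩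
    by_contra hn
    apply h2
    push Not at hn
    rw [cos_loopQ θ h1 fun x hx b => ha x (fun hE => hn x hE hx) b, div_self]
    exact mul_ne_zero two_ne_zero hθ
  · rintro ⟨⟨⟨h1, _⟩, h3⟩, h2⟩
    exact ⟨⟨h1, h3⟩, h2⟩

theorem abs_XcQ_le {θ : ℝ} (h0 : 0 ≤ θ) (h1 : θ ≤ Real.pi / 3) (ω : Cfg) {S E : Finset Ed}
    (hSE : S ⊆ E) {a : Ed → Bool → ℝ} (ha : ∀ e ∉ E, ∀ b, a e b = 0) :
    |XcQ θ S a ω| ≤ 2 ^ (E.card + S.card) := by
  classical
  have hQ := one_le_Q h0 h1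
  have hQ0 : 0 < 2 * Real.cos θ := by linarith
  rw [XcQ_eq (by linarith) ω hSE ha, abs_mul, abs_mul, abs_prod, abs_prod, pow_add]
  refine mul_le_mul ?_ ?_ (prod_nonneg fun _ _ => abs_nonneg _) (by positivity)
  · have e1 : ∏ ℓ ∈ (LE ω E).filter (fun ℓ => Disjoint ℓ S),
          |2 * Real.cos (cang plane θ a ω ℓ) / (2 * Real.cos θ)| ≤ 2 ^ E.card := by
      calc ∏ ℓ ∈ (LE ω E).filter (fun ℓ => Disjoint ℓ S),
            |2 * Real.cos (cang plane θ a ω ℓ) / (2 * Real.cos θ)|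
          ≤ ∏ _ℓ ∈ (LE ω E).filter (fun ℓ => Disjoint ℓ S), (2 : ℝ) := by
            refine prod_le_prod (fun _ _ => abs_nonneg _) fun ℓ _ => ?_
            rw [abs_div, abs_of_pos hQ0, div_le_iff₀ hQ0]
            have := abs_two_cos (cang plane θ a ω ℓ)
            linarith
        _ = 2 ^ ((LE ω E).filter (fun ℓ => Disjoint ℓ S)).card := by rw [prod_const]
        _ ≤ 2 ^ E.card := pow_le_pow_right₀ (by norm_num)
            ((card_filter_le _ _).trans (card_LE_le ω E))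
    have e2 : |(2 * Real.cos θ)⁻¹ ^ ((LE ω E).filter fun ℓ => ¬ Disjoint ℓ S).card| ≤ 1 := by
      rw [abs_pow, abs_of_pos (inv_pos.2 hQ0)]
      exact pow_le_one₀ (inv_pos.2 hQ0).le (inv_le_one_of_one_le₀ hQ)
    calc _ ≤ 2 ^ E.card * 1 := mul_le_mul e1 e2 (abs_nonneg _) (by positivity)
      _ = _ := mul_one _
  · calc ∏ e ∈ S, |2 * Real.cos (cang plane θ a ω (strand (nx ω) S e))|
        ≤ ∏ _e ∈ S, (2 : ℝ) := prod_le_prod (fun _ _ => abs_nonneg _) fun _ _ => abs_two_cos _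
      _ = 2 ^ S.card := by rw [prod_const]

theorem XcQ_dep {θ : ℝ} (hθ : Real.cos θ ≠ 0) {S E : Finset Ed} (hSE : S ⊆ E)
    {a : Ed → Bool → ℝ} (ha : ∀ e ∉ E, ∀ b, a e b = 0) (K : ℕ) :
    ∀ ω ∈ GK E K, ∀ ω' ∈ GK E K, (∀ v ∈ bx K, ω v = ω' v) → XcQ θ S a ω = XcQ θ S a ω' := by
  classical
  intro ω hω ω' hω' h
  have key : ∀ ω ∈ GK E K, ∀ ω' ∈ GK E K, (∀ v ∈ bx K, ω v = ω' v) → LE ω E ⊆ LE ω' E := by
    intro ω hω ω' _ h ℓ hℓ
    have hb := LE_box hω hℓ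
    obtain ⟨h1, h2⟩ := mem_LE.1 hℓ
    exact mem_LE.2 ⟨loop_loc h1 fun v hv => h v (hb v hv), h2⟩
  rw [XcQ_eq hθ ω hSE ha, XcQ_eq hθ ω' hSE ha,
    subset_antisymm (key ω hω ω' hω' h) (key ω' hω' ω hω fun v hv => (h v hv).symm)]
  congr 1
  · congr 1
    refine prod_congr rfl fun ℓ hℓ => ?_
    rw [Finset.mem_filter] at hℓ
    have hb := LE_box hω' hℓ.1
    rw [cang_congr fun x hx => h _ (hb _ (mem_image_of_mem _ hx))]
  · refine prod_congr rfl fun e he => ?_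
    obtain ⟨ℓ, h1, h2, h3⟩ := hω e (hSE he)
    have hi := iter_congr (ω' := ω') h1 (fun v hv => h v (h3 v hv)) h2
    rw [← strand_congr (S := S) hi]
    rw [cang_congr fun x hx => h _ (h3 _ (mem_image_of_mem _ (strand_sub h1 h2 S hx)))]

namespace Cov

variable {V : Type} {g : Grid V} {r : ℤ × ℤ → V} {m : ℕ} (h : Cov g r m)
  [Fintype V] [DecidableEq V]

include h

theorem cutPrQ_eq {θ : ℝ} (hθ : Real.cos θ ≠ 0) {S E : Finset Ed} (hSE : S ⊆ E)
    {a : Ed → Bool → ℝ} (ha : ∀ e ∉ E, ∀ b, a e b = 0) {K : ℕ} (hm : 2 * (K + 1) + 1 ≤ m)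
    (ρ : V → Bool) (hG : ρ ∘ r ∈ GK E K) :
    cutPr g θ (S.image (rE r)) (pbr r E a) ρ = wG θ g ρ * XcQ θ S a (ρ ∘ r) := by
  classical
  set ω : Cfg := ρ ∘ r with hω
  have hEb : ∀ e ∈ E, bs e ∈ bx (K + 1) := by
    intro e he
    obtain ⟨ℓ, _, h2, h3⟩ := hG e he
    exact bs_mem h3 h2
  -- the orbits which meet the image of `E`
  have himg : (orbs (g.nxP ρ)).filter (fun O => ∃ x ∈ E.image (rE r), x ∈ O)
      = (LE ω E).image (fun ℓ => ℓ.image (rE r)) := by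
    ext O
    rw [Finset.mem_filter, mem_image]
    constructor
    · rintro ⟨h1, x, hx, hxO⟩
      obtain ⟨e, he, rfl⟩ := mem_image.1 hx
      obtain ⟨ℓ, h1', h2', _⟩ := hG e he
      refine ⟨ℓ, mem_LE.2 ⟨h1', e, he, h2'⟩, ?_⟩
      rw [eq_orb_of_mem h1 hxO, h.orb_image h1' h2']
    · rintro ⟨ℓ, hℓ, rfl⟩
      obtain ⟨h1, e, he, heℓ⟩ := mem_LE.1 hℓ
      refine ⟨?_, rE r e, mem_image_of_mem _ he, mem_image_of_mem _ heℓ⟩
      rw [← h.orb_image h1 heℓ]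
      exact orb_mem_orbs _
  have hinj : ∀ ℓ ∈ LE ω E, ∀ ℓ' ∈ LE ω E, ℓ.image (rE r) = ℓ'.image (rE r) → ℓ = ℓ' := by
    intro ℓ hℓ ℓ' hℓ' hh
    obtain ⟨h1, e, _, heℓ⟩ := mem_LE.1 hℓ
    obtain ⟨h1', _⟩ := mem_LE.1 hℓ'
    have : rE r e ∈ ℓ'.image (rE r) := hh ▸ mem_image_of_mem _ heℓ
    obtain ⟨e', he', hee'⟩ := mem_image.1 this
    have := h.inj hm (bs_mem (LE_box hG hℓ') he') (bs_mem (LE_box hG hℓ) heℓ) hee'
    rw [this] at he'
    exact loop_unique h1 h1' heℓ he'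
  -- disjointness of the images
  have hdis : ∀ ℓ ∈ LE ω E, (Disjoint (ℓ.image (rE r)) (S.image (rE r)) ↔ Disjoint ℓ S) := by
    intro ℓ hℓ
    rw [Finset.disjoint_left, Finset.disjoint_left]
    constructor
    · intro hd e he heS
      exact hd (mem_image_of_mem _ he) (mem_image_of_mem _ heS)
    · intro hd x hx hxS
      obtain ⟨e, he, rfl⟩ := mem_image.1 hx
      obtain ⟨e', he', hee'⟩ := mem_image.1 hxS
      have := h.inj hm (hEb e' (hSE he')) (bs_mem (LE_box hG hℓ) he) hee'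
      exact hd he (this ▸ he')
  have hsplit : ∀ F : Finset (Edge V) → ℝ,
      ∏ O ∈ (orbs (g.nxP ρ)).filter (fun O => Disjoint O (S.image (rE r))), F O
      = (∏ ℓ ∈ (LE ω E).filter (fun ℓ => Disjoint ℓ S), F (ℓ.image (rE r))) *
        ∏ O ∈ (orbs (g.nxP ρ)).filter (fun O => ¬ ∃ x ∈ E.image (rE r), x ∈ O), F O := by
    intro F
    rw [← prod_filter_mul_prod_filter_not ((orbs (g.nxP ρ)).filter
      (fun O => Disjoint O (S.image (rE r)))) (fun O => ∃ x ∈ E.image (rE r), x ∈ O)]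
    congr 1
    · rw [filter_comm, himg]
      have : ((LE ω E).image (fun ℓ => ℓ.image (rE r))).filter
          (fun O => Disjoint O (S.image (rE r))) =
          ((LE ω E).filter (fun ℓ => Disjoint ℓ S)).image (fun ℓ => ℓ.image (rE r)) := by
        ext O
        simp only [Finset.mem_filter, mem_image]
        constructor
        · rintro ⟨⟨ℓ, hℓ, rfl⟩, hd⟩
          exact ⟨ℓ, ⟨hℓ, (hdis ℓ hℓ).1 hd⟩, rfl⟩
        · rintro ⟨ℓ, ⟨hℓ, hd⟩, rfl⟩
          exact ⟨⟨ℓ, hℓ, rfl⟩, (hdis ℓ hℓ).2 hd⟩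
      rw [this, prod_image]
      intro ℓ hℓ ℓ' hℓ' hh
      exact hinj ℓ (Finset.mem_filter.1 hℓ).1 ℓ' (Finset.mem_filter.1 hℓ').1 hh
    · congr 1
      ext O
      simp only [Finset.mem_filter]
      constructor
      · rintro ⟨⟨h1, _⟩, h2⟩
        exact ⟨h1, h2⟩
      · rintro ⟨h1, h2⟩
        refine ⟨⟨h1, ?_⟩, h2⟩
        rw [Finset.disjoint_left]
        intro x hx hxS
        obtain ⟨e, he, rfl⟩ := mem_image.1 hxS
        exact h2 ⟨_, mem_image_of_mem _ (hSE he), hx⟩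
  have hPr : wG θ g ρ = (2 * Real.cos θ) ^ (LE ω E).card *
      ∏ O ∈ (orbs (g.nxP ρ)).filter (fun O => ¬ ∃ x ∈ E.image (rE r), x ∈ O), fc θ g 0 ρ O := by
    unfold wG
    rw [← prod_filter_mul_prod_filter_not (orbs (g.nxP ρ))
      (fun O => ∃ x ∈ E.image (rE r), x ∈ O), himg, prod_image]
    · congr 1
      rw [← prod_const]
      refine prod_congr rfl fun ℓ hℓ => ?_
      have hb := LE_box hG hℓ
      have e1 : ∑ x ∈ ℓ.image (rE r), g.turn ρ x = ∑ e ∈ ℓ, plane.turn ω e := by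
        rw [sum_image]
        · refine sum_congr rfl fun e he => ?_
          rw [h.turn]
        · intro e he e' he' hee
          exact h.inj hm (bs_mem hb he) (bs_mem hb he') hee
      rw [fc_zero, e1]
      rcases s_turn ω ℓ (mem_LE.1 hℓ).1 with ⟨h1, _⟩ | ⟨h1, _⟩
      · rw [h1, cos4]
      · rw [h1, cosm4]
    · intro ℓ hℓ ℓ' hℓ' hh
      exact hinj ℓ hℓ ℓ' hℓ' hh
  have hcard : (LE ω E).card = ((LE ω E).filter (fun ℓ => Disjoint ℓ S)).card +
      ((LE ω E).filter (fun ℓ => ¬ Disjoint ℓ S)).card :=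
    (card_filter_add_card_filter_not (s := LE ω E) (fun ℓ => Disjoint ℓ S)).symm
  have hQ : (2 * Real.cos θ) ≠ 0 := mul_ne_zero two_ne_zero hθ
  unfold cutPr
  rw [hsplit, hPr, XcQ_eq hθ ω hSE ha]
  have e1 : ∏ ℓ ∈ (LE ω E).filter (fun ℓ => Disjoint ℓ S),
      2 * Real.cos (cang g θ (pbr r E a) ρ (ℓ.image (rE r))) =
      (2 * Real.cos θ) ^ ((LE ω E).filter (fun ℓ => Disjoint ℓ S)).card *
      ∏ ℓ ∈ (LE ω E).filter (fun ℓ => Disjoint ℓ S),
      2 * Real.cos (cang plane θ a ω ℓ) / (2 * Real.cos θ) := by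
    rw [← prod_const, ← prod_mul_distrib]
    refine prod_congr rfl fun ℓ hℓ => ?_
    rw [Finset.mem_filter] at hℓ
    have hb := LE_box hG hℓ.1
    rw [h.cang_image ha hEb hm ρ (fun x hx => bs_mem hb hx)
      (fun x hx => bs_mem hb (loop_nx (mem_LE.1 hℓ.1).1 hx)), mul_div_cancel₀ _ hQ]
  have e2 : ∏ O ∈ (orbs (g.nxP ρ)).filter (fun O => ¬ ∃ x ∈ E.image (rE r), x ∈ O),
      2 * Real.cos (cang g θ (pbr r E a) ρ O) =
      ∏ O ∈ (orbs (g.nxP ρ)).filter (fun O => ¬ ∃ x ∈ E.image (rE r), x ∈ O),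
      fc θ g 0 ρ O := by
    refine prod_congr rfl fun O hO => ?_
    rw [Finset.mem_filter] at hO
    rw [fc_zero, cang_off g (pbr r E a) ρ]
    · intro x hx
      obtain ⟨z, rfl⟩ := mem_orbs.1 hO.1
      rw [mem_orb_g] at hx ⊢
      obtain ⟨n, rfl⟩ := hx
      exact ⟨n + 1, Function.iterate_succ_apply' _ _ _⟩
    · intro x hx b
      apply pbr_off
      intro hxE
      exact hO.2 ⟨x, hxE, hx⟩
  have e3 : ∏ x ∈ S.image (rE r),
      2 * Real.cos (cang g θ (pbr r E a) ρ (strand (g.nx ρ) (S.image (rE r)) x)) =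
      ∏ e ∈ S, 2 * Real.cos (cang plane θ a ω (strand (P167.nx ω) S e)) := by
    rw [prod_image]
    · refine prod_congr rfl fun e he => ?_
      obtain ⟨ℓ, h1, h2, h3⟩ := hG e (hSE he)
      have hit : ∀ k, (g.nx ρ)^[k] (rE r e) = rE r ((P167.nx ω)^[k] e) :=
        fun k => h.iter ρ e k
      have hr : ret (g.nx ρ) (S.image (rE r)) (rE r e) = ret (P167.nx ω) S e := by
        apply ret_congr
        intro k
        rw [hit]
        constructor
        · intro hh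
          obtain ⟨e', he', hee'⟩ := mem_image.1 hh
          have := h.inj hm (hEb e' (hSE he')) (bs_mem h3 (loop_iter h1 h2 k)) hee'
          exact this ▸ he'
        · intro hh
          exact mem_image_of_mem _ hh
      have hs : strand (g.nx ρ) (S.image (rE r)) (rE r e) =
          (strand (P167.nx ω) S e).image (rE r) := by
        unfold strand
        rw [hr, image_image]
        exact image_congr fun k _ => hit k
      rw [hs, h.cang_image ha hEb hm ρ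
        (fun x hx => bs_mem h3 (strand_sub h1 h2 S hx))
        (fun x hx => bs_mem h3 (loop_nx h1 (strand_sub h1 h2 S hx)))]
    · intro e he e' he' hee
      exact h.inj hm (hEb e (hSE he)) (hEb e' (hSE he')) hee
  rw [e1, e2, e3, hcard, pow_add, inv_pow]
  have hQ2 : (2 * Real.cos θ) ^ ((LE ω E).filter (fun ℓ => ¬ Disjoint ℓ S)).card ≠ 0 :=
    pow_ne_zero _ hQ
  field_simp

/-- Bound of the cut product. -/
theorem abs_cutPrQ_le {θ : ℝ} (h0 : 0 ≤ θ) (h1 : θ ≤ Real.pi / 3) (ρ : V → Bool)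
    {a : Edge V → Bool → ℝ} {E : Finset (Edge V)}
    (ha : ∀ e ∉ E, ∀ b, a e b = 0) (S : Finset (Edge V)) :
    |cutPr g θ S a ρ| ≤ 2 ^ (E.card + S.card) * wG θ g ρ := by
  classical
  have h1' : ∀ ℓ ∈ orbs (g.nxP ρ), 1 ≤ fc θ g 0 ρ ℓ := fun ℓ hℓ => h.fcq_one_le h0 h1 ρ hℓ
  have hnn : ∀ ℓ ∈ orbs (g.nxP ρ), 0 ≤ fc θ g 0 ρ ℓ := fun ℓ hℓ => by linarith [h1' ℓ hℓ]
  have hclosed : ∀ ℓ ∈ orbs (g.nxP ρ), ∀ x ∈ ℓ, g.nx ρ x ∈ ℓ := by
    intro ℓ hℓ x hx
    rw [eq_orb_of_mem hℓ hx, mem_orb]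
    exact ⟨1, rfl⟩
  have h2 : ∀ ℓ ∈ (orbs (g.nxP ρ)).filter (fun ℓ => Disjoint ℓ S),
      |2 * Real.cos (cang g θ a ρ ℓ)| ≤
      (if ∃ e ∈ E, e ∈ ℓ then (2 : ℝ) else 1) * fc θ g 0 ρ ℓ := by
    intro ℓ hℓ
    rw [Finset.mem_filter] at hℓ
    split_ifs with h
    · have := abs_two_cos (cang g θ a ρ ℓ)
      have := h1' ℓ hℓ.1
      linarith
    · rw [cang_off g a ρ (hclosed ℓ hℓ.1) (fun x hx b => ha x (fun hE => h ⟨x, hE, hx⟩) b),
        ← fc_zero, one_mul, abs_of_nonneg (hnn ℓ hℓ.1)]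
  unfold cutPr
  rw [abs_mul, abs_prod, abs_prod, pow_add, mul_right_comm]
  refine mul_le_mul ?_ ?_ (prod_nonneg fun _ _ => abs_nonneg _) ?_
  · refine (prod_le_prod (fun ℓ _ => abs_nonneg _) h2).trans ?_
    rw [prod_mul_distrib]
    refine mul_le_mul ?_ ?_ (prod_nonneg fun ℓ hℓ => hnn ℓ (Finset.mem_filter.1 hℓ).1)
      (by positivity)
    · rw [prod_ite, prod_const, prod_const_one, mul_one]
      refine pow_le_pow_right₀ (by norm_num) ((card_le_card ?_).trans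
        (card_orbs_meet_le (σ := g.nxP ρ) E))
      intro ℓ hℓ
      rw [Finset.mem_filter] at hℓ ⊢
      exact ⟨(Finset.mem_filter.1 hℓ.1).1, hℓ.2⟩
    · unfold wG
      rw [← prod_filter_mul_prod_filter_not (orbs (g.nxP ρ)) (fun ℓ => Disjoint ℓ S)]
      conv_lhs => rw [← mul_one (∏ ℓ ∈ (orbs (g.nxP ρ)).filter (fun ℓ => Disjoint ℓ S),
        fc θ g 0 ρ ℓ)]
      apply mul_le_mul_of_nonneg_left _
        (prod_nonneg fun ℓ hℓ => hnn ℓ (Finset.mem_filter.1 hℓ).1)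
      calc (1 : ℝ) = ∏ ℓ ∈ (orbs (g.nxP ρ)).filter (fun ℓ => ¬ Disjoint ℓ S), (1 : ℝ) := by
            rw [prod_const_one]
        _ ≤ _ := prod_le_prod (fun _ _ => zero_le_one)
            fun ℓ hℓ => h1' ℓ (Finset.mem_filter.1 hℓ).1
  · calc ∏ e ∈ S, |2 * Real.cos (cang g θ a ρ (strand (g.nx ρ) S e))|
        ≤ ∏ _e ∈ S, (2 : ℝ) := prod_le_prod (fun _ _ => abs_nonneg _) fun _ _ => abs_two_cos _
      _ = 2 ^ S.card := by rw [prod_const]
  · have : 0 ≤ wG θ g ρ := (h.wG_pos h0 h1 ρ).le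
    positivity

end Cov

/-- **Transfer**, for all finite quotients. -/
theorem transferQ {θ : ℝ} (h0 : 0 ≤ θ) (h1 : θ ≤ Real.pi / 3) {P : Measure Cfg}
    (hP : IsLim (2 * Real.cos θ) P) {X : (ℤ × ℤ → Bool) → ℝ} {D : ℝ} (hXD : ∀ R, |X R| ≤ D)
    {G : ℕ → Set (ℤ × ℤ → Bool)}
    (hG : ∀ K, Dep (fun R => R ∈ G K) (bx K : Set (ℤ × ℤ)))
    (hGX : ∀ K, ∀ R ∈ G K, ∀ R' ∈ G K, (∀ v ∈ bx K, R v = R' v) → X R = X R')
    (hGae : ∀ᵐ R ∂P, ∀ᶠ K in atTop, R ∈ G K) :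
    ∀ ε > 0, ∃ m0 : ℕ, ∀ (V : Type) [AddCommGroup V] [Fintype V] [DecidableEq V] (g : Grid V)
      (r : ℤ × ℤ → V) (m : ℕ), GCov g r m → m0 ≤ m → ∀ Φ : (V → Bool) → ℝ,
      (∀ R, |Φ R| ≤ D * wG θ g R) →
      (∀ K : ℕ, 2 * (K + 1) + 1 ≤ m → ∀ R : V → Bool, R ∘ r ∈ G K →
        Φ R = wG θ g R * X (R ∘ r)) →
      |(∑ R, Φ R) / (∑ R, wG θ g R) - ∫ R, X R ∂P| ≤ ε := by
  classical
  have hPp : IsProbabilityMeasure P := hP.1
  have hD : 0 ≤ D := le_trans (abs_nonneg _) (hXD fun _ => true)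
  set FX : ℕ → (ℤ × ℤ → Bool) → ℝ := fun K => (G K).indicator X with hFX
  set F1 : ℕ → (ℤ × ℤ → Bool) → ℝ := fun K => (G K).indicator 1 with hF1
  have hdepF1 : ∀ K, Dep (F1 K) (bx K : Set (ℤ × ℤ)) := by
    intro K R R' h
    have : (R ∈ G K) = (R' ∈ G K) := hG K R R' h
    by_cases hR : R ∈ G K
    · simp only [hF1]
      rw [Set.indicator_of_mem hR, Set.indicator_of_mem (this ▸ hR)]; rfl
    · simp only [hF1]
      rw [Set.indicator_of_notMem hR, Set.indicator_of_notMem (this ▸ hR)]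
  have hdepFX : ∀ K, Dep (FX K) (bx K : Set (ℤ × ℤ)) := by
    intro K R R' h
    have : (R ∈ G K) = (R' ∈ G K) := hG K R R' h
    by_cases hR : R ∈ G K
    · have hR' : R' ∈ G K := this ▸ hR
      simp only [hFX]
      rw [Set.indicator_of_mem hR, Set.indicator_of_mem hR']
      exact hGX K R hR R' hR' h
    · simp only [hFX]
      rw [Set.indicator_of_notMem hR, Set.indicator_of_notMem (this ▸ hR)]
  have hbX : ∀ K R, |FX K R| ≤ D := by
    intro K R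
    by_cases hR : R ∈ G K
    · simp only [hFX]
      rw [Set.indicator_of_mem hR]; exact hXD R
    · simp only [hFX]
      rw [Set.indicator_of_notMem hR, abs_zero]; exact hD
  have hb1 : ∀ K R, |F1 K R| ≤ 1 := by
    intro K R
    by_cases hR : R ∈ G K
    · simp only [hF1]
      rw [Set.indicator_of_mem hR]; simp
    · simp only [hF1]
      rw [Set.indicator_of_notMem hR]; simp
  have hmX : ∀ K, Measurable (FX K) := fun K => (hdepFX K).measurable
  have hm1 : ∀ K, Measurable (F1 K) := fun K => (hdepF1 K).measurable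
  have limX : Tendsto (fun K => ∫ R, FX K R ∂P) atTop (𝓝 (∫ R, X R ∂P)) := by
    refine tendsto_integral_of_dominated_convergence (fun _ => D)
      (fun K => (hmX K).aestronglyMeasurable) (integrable_const D)
      (fun K => Eventually.of_forall fun R => hbX K R) ?_
    filter_upwards [hGae] with R hR
    refine tendsto_const_nhds.congr' ?_
    filter_upwards [hR] with K hK
    simp only [hFX]
    rw [Set.indicator_of_mem hK]
  have lim1 : Tendsto (fun K => ∫ R, F1 K R ∂P) atTop (𝓝 1) := by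
    have : (1 : ℝ) = ∫ _R : ℤ × ℤ → Bool, (1 : ℝ) ∂P := by simp
    rw [this]
    refine tendsto_integral_of_dominated_convergence (fun _ => 1)
      (fun K => (hm1 K).aestronglyMeasurable) (integrable_const 1)
      (fun K => Eventually.of_forall fun R => hb1 K R) ?_
    filter_upwards [hGae] with R hR
    refine tendsto_const_nhds.congr' ?_
    filter_upwards [hR] with K hK
    simp only [hF1]
    rw [Set.indicator_of_mem hK]; rfl
  intro ε hε
  set η : ℝ := ε / (4 * (D + 1)) with hη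
  have hη0 : 0 < η := by positivity
  have hDη : D * η ≤ ε / 4 := by
    rw [hη]
    have : D * (ε / (4 * (D + 1))) = ε / 4 * (D / (D + 1)) := by
      field_simp
    rw [this]
    have h2 : D / (D + 1) ≤ 1 := by
      rw [div_le_one (by linarith)]; linarith
    calc ε / 4 * (D / (D + 1)) ≤ ε / 4 * 1 := by gcongr
      _ = ε / 4 := mul_one _
  have hη1 : η ≤ ε / 4 := by
    rw [hη]
    apply div_le_div_of_nonneg_left hε.le (by norm_num)
    linarith
  obtain ⟨K, hK1, hK2⟩ : ∃ K, |∫ R, FX K R ∂P - ∫ R, X R ∂P| ≤ η ∧ 1 - ∫ R, F1 K R ∂P ≤ η := by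
    obtain ⟨K1, hK1⟩ := (Metric.tendsto_atTop.1 limX) η hη0
    obtain ⟨K2, hK2⟩ := (Metric.tendsto_atTop.1 lim1) η hη0
    refine ⟨max K1 K2, ?_, ?_⟩
    · have := hK1 (max K1 K2) (le_max_left _ _)
      rw [Real.dist_eq] at this
      exact this.le
    · have := hK2 (max K1 K2) (le_max_right _ _)
      rw [Real.dist_eq] at this
      linarith [(abs_lt.1 this).1]
  obtain ⟨N₃, hN₃⟩ := loc_lim h0 h1 hP (hdepFX K) (D := D) (hbX K) hη0
  obtain ⟨N₄, hN₄⟩ := loc_lim h0 h1 hP (hdepF1 K) (D := 1) (hb1 K) hη0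
  refine ⟨max (2 * (K + 1) + 1) (max N₃ N₄), fun V _ _ _ g r m h hm Φ hΦD hΦ => ?_⟩
  have m1 : 2 * (K + 1) + 1 ≤ m := le_trans (le_max_left _ _) hm
  have m3 : N₃ ≤ m := le_trans (le_trans (le_max_left _ _) (le_max_right _ _)) hm
  have m4 : N₄ ≤ m := le_trans (le_trans (le_max_right _ _) (le_max_right _ _)) hm
  have a3 := hN₃ V g r m h m3
  have a4 := hN₄ V g r m h m4
  have hZpos : 0 < ∑ R, wG θ g R := h.sum_wG_pos h0 h1
  have a1 : |(∑ R, Φ R) / (∑ R, wG θ g R) - (∑ R, wG θ g R * FX K (R ∘ r)) / (∑ R, wG θ g R)|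
      ≤ D * (1 - (∑ R, wG θ g R * F1 K (R ∘ r)) / (∑ R, wG θ g R)) := by
    rw [← sub_div, ← sum_sub_distrib, abs_div, abs_of_pos hZpos]
    have : D * (1 - (∑ R, wG θ g R * F1 K (R ∘ r)) / (∑ R, wG θ g R))
        = (∑ R, D * (wG θ g R - wG θ g R * F1 K (R ∘ r))) / (∑ R, wG θ g R) := by
      rw [← mul_sum, sum_sub_distrib, mul_div_assoc, sub_div, div_self hZpos.ne']
    rw [this]
    apply div_le_div_of_nonneg_right _ hZpos.le
    refine (abs_sum_le_sum_abs _ _).trans (sum_le_sum fun R _ => ?_)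
    by_cases hR : R ∘ r ∈ G K
    · simp only [hFX, hF1]
      rw [Set.indicator_of_mem hR, Set.indicator_of_mem hR, hΦ K m1 R hR]
      simp
    · simp only [hFX, hF1]
      rw [Set.indicator_of_notMem hR, Set.indicator_of_notMem hR]
      simpa using hΦD R
  generalize (∑ R, wG θ g R * FX K (R ∘ r)) / (∑ R, wG θ g R) = x2 at a1 a3
  generalize (∑ R, wG θ g R * F1 K (R ∘ r)) / (∑ R, wG θ g R) = x3 at a1 a4
  generalize (∑ R, Φ R) / (∑ R, wG θ g R) = x1 at a1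
  have b3 : D * (1 - x3) ≤ D * (η + η) := by
    apply mul_le_mul_of_nonneg_left _ hD
    linarith [(abs_le.1 a4).1]
  have b4 : D * (η + η) = D * η + D * η := by ring
  calc |x1 - ∫ R, X R ∂P| = |(x1 - x2) + (x2 - ∫ R, FX K R ∂P) +
        (∫ R, FX K R ∂P - ∫ R, X R ∂P)| := by ring_nf
    _ ≤ |x1 - x2| + |x2 - ∫ R, FX K R ∂P| + |∫ R, FX K R ∂P - ∫ R, X R ∂P| :=
        abs_add_three _ _ _
    _ ≤ ε := by linarith

/-- **The limit of the cut products of the finite quotients.** -/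
theorem cut_limQ {θ : ℝ} (h0 : 0 ≤ θ) (h1 : θ ≤ Real.pi / 3) {P : Measure Cfg}
    (hP : IsLim (2 * Real.cos θ) P) (hg : ∀ᵐ ω ∂P, Good ω) {S E : Finset Ed} (hSE : S ⊆ E)
    {a : Ed → Bool → ℝ} (ha : ∀ e ∉ E, ∀ b, a e b = 0) :
    ∀ ε > 0, ∃ m0 : ℕ, ∀ (V : Type) [AddCommGroup V] [Fintype V] [DecidableEq V] (g : Grid V)
      (r : ℤ × ℤ → V) (m : ℕ), GCov g r m → m0 ≤ m →
      |(∑ R, cutPr g θ (S.image (rE r)) (pbr r E a) R) / (∑ R, wG θ g R) -
        ∫ ω, XcQ θ S a ω ∂P| ≤ ε := by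
  classical
  have hθ : Real.cos θ ≠ 0 := by have := one_le_Q h0 h1; intro h; rw [h] at this; linarith
  intro ε hε
  obtain ⟨m0, hm0⟩ := transferQ h0 h1 hP (X := XcQ θ S a) (D := 2 ^ (E.card + S.card))
    (fun ω => abs_XcQ_le h0 h1 ω hSE ha) (G := GK E) (GK_dep E) (XcQ_dep hθ hSE ha)
    (ae_GKP hg E) ε hε
  refine ⟨m0, fun V _ _ _ g r m h hm => hm0 V g r m h hm _ ?_ ?_⟩
  · intro R
    have := h.abs_cutPrQ_le h0 h1 R (a := pbr r E a) (E := E.image (rE r))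
      (fun x hx b => pbr_off hx b) (S.image (rE r))
    refine this.trans ?_
    apply mul_le_mul_of_nonneg_right _ (h.wG_pos h0 h1 R).le
    exact pow_le_pow_right₀ (by norm_num) (add_le_add card_image_le card_image_le)
  · intro K hK R hR
    exact h.cutPrQ_eq hθ hSE ha hK R hR

end Vale.Agent.P167.H199
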