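import Vale.Agent.P167.H519.GRat

/-!
# P167, general `q`: ratio mixing for sets of arbitrary shape

`B ⊆ A` finite sets of squares; the shell `A \ B` is blocked by a bounded number of boxes.
-/

namespace Vale.Agent.P167.H199

open Finset Filter Topology MeasureTheory Vale.Agent.P167.FK Vale.Agent.P167.FKA Relation
open Vale.Agent.P145.FB (PStep PConn)
open Vale.Agent.P167.H259 (f_markov f_fkg f_comp f_comp2)
open Vale.Agent.P167.H519 (Sx Jn gen_comp)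

/-- The shell `A \ B` is blocked by the boxes of radius `r` around the points of `I`, whose
enlargements lie in the shell. -/
structure QBlk (Λ : ℤ) (B A I : Finset (ℤ × ℤ)) (r : ℤ) : Prop where
  one : 1 ≤ r
  BA : B ⊆ A
  sub : ∀ x ∈ I, Bq x (Λ * r) ⊆ A \ B
  thr : ∀ (F : Set (ℤ × ℤ)) (u v : ℤ × ℤ), (∃ b ∈ B, Cor b u) → (∃ a, a ∉ A ∧ Cor a v) →
    ReflTransGen (PStep F) u v →
    ∃ x ∈ I, ∃ w, nm (w - x) ≤ r ∧ ReflTransGen (PStep F) u w ∧ ReflTransGen (PStep F) w v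

/-- The one-arm estimate at the scale ratio `Λ`. -/
def Rsc (Q : ℝ) (Λ : ℤ) (c : ℝ) : Prop := 2 ≤ Λ ∧ 0 < c ∧ c ≤ 1 ∧ ∀ (x : ℤ × ℤ) (r : ℤ),
  1 ≤ r → Pr Q (Bq x (Λ * r)) eta1 {ω | ArmPx x r (Λ * r) ω} ≤ 1 - c

/-- No arm around the points of `I`. -/
def NoA (Λ : ℤ) (I : Finset (ℤ × ℤ)) (r : ℤ) : Set Cfg :=
  ⋂ x ∈ I, {ω | ArmPx x r (Λ * r) ω}ᶜ

variable {Q c : ℝ} {Λ r : ℤ} {B A I D : Finset (ℤ × ℤ)} {η : Cfg}

theorem QBlk.pr_ge (hQ : 1 ≤ Q) (hR : Rsc Q Λ c) (hb : QBlk Λ B A I r) {ω : Cfg} (hω : Good ω) :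
    c ^ I.card ≤ Pr Q (A \ B) ω (NoA Λ I r) := by
  have hQ0 : 0 < Q := by linarith
  obtain ⟨hΛ, hc0, hc1, h⟩ := hR
  have h1 : ∀ x ∈ I, c ≤ Pr Q (A \ B) ω {ω | ArmPx x r (Λ * r) ω}ᶜ := by
    intro x hx
    rw [Pr_compl hQ0]
    have h2 : Pr Q (A \ B) ω {ω | ArmPx x r (Λ * r) ω} ≤ 1 - c := by
      have h3 := markov_le f_markov f_good hQ0 (hb.sub x hx) hω
        (F := {ω | ArmPx x r (Λ * r) ω}.indicator 1) (G := fun _ => 1)
        (fun _ _ _ => rfl) (fun _ => zero_le_one) (a := 1 - c) (fun ω' hω' => ?_)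
      · rw [Ex_const hQ0] at h3
        simp only [one_mul, mul_one] at h3
        exact h3
      · refine le_trans ?_ (h x r hb.one)
        exact f_comp Q _ ω' eta1 _ hQ hω' f_good.2.2 (fun _ _ => rfl) (inc_arm _ _ _).incF
    linarith
  refine le_trans ?_ (fkg_dec f_fkg hQ hω I _ fun i _ => (inc_arm _ _ _).compl)
  rw [← Finset.prod_const]
  exact Finset.prod_le_prod (fun _ _ => hc0.le) h1

theorem QBlk.ge (hQ : 1 ≤ Q) (hR : Rsc Q Λ c) (hb : QBlk Λ B A I r) (hD : A ⊆ D) (hη : Good η)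
    {G : Cfg → ℝ} (hG0 : ∀ ω, 0 ≤ G ω) (hG : Ind (A \ B) G) :
    c ^ I.card * Ex Q D η G ≤ Ex Q D η (fun ω => G ω * (NoA Λ I r).indicator 1 ω) := by
  have hQ0 : 0 < Q := by linarith
  rw [markov f_markov hQ0 (Finset.sdiff_subset.trans hD) hη hG, ← Ex_mul_left]
  refine Ex_mono hQ0 fun S _ => ?_
  rw [mul_comm]
  exact mul_le_mul_of_nonneg_left (hb.pr_ge hQ hR (f_good.1 D η S hη)) (hG0 _)

/-- On `NoA` nothing outside is joined to `B`. -/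
theorem QBlk.not_jn (hR : Rsc Q Λ c) (hb : QBlk Λ B A I r) {ξ ω : Cfg} (hω : ω ∈ NoA Λ I r) :
    ¬ Jn (Sx A ξ) B ω := by
  rintro ⟨s, ⟨hse, a, haA, -, has⟩, u, ⟨b, hb1, hbu⟩, hsu⟩
  have hus := H519.conn_symm hsu
  obtain ⟨x, hx, w, hw, h1, h2⟩ := hb.thr _ u s ⟨b, hb1, hbu⟩ ⟨a, haA, has⟩ hus
  simp only [NoA, Set.mem_iInter] at hω
  refine hω x hx ?_
  show ArmPx x r (Λ * r) ω
  have hr := hb.one
  have hΛ := hR.1
  rw [armPx_iff (by nlinarith)]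
  refine ⟨w, s, ?_, hw, ?_, h2⟩
  · have h3 := rtg_parity h2
    rw [Int.even_iff] at *
    omega
  · exact H562.GL.far_of_corx (fun h => haA (Finset.mem_sdiff.1 (hb.sub x hx h)).1) has

/-- The larger boundary condition. -/
theorem QBlk.up (hQ : 1 ≤ Q) (hR : Rsc Q Λ c) (hb : QBlk Λ B A I r) {F : Cfg → ℝ}
    (hF0 : ∀ ω, 0 ≤ F ω) (hF : Loc B F) {ξ ξ' : Cfg} (hξ : Good ξ) (hξ' : Good ξ')
    (hle : ∀ v, v ∉ A → ξ v = true → ξ' v = true) :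
    c ^ I.card * Ex Q A ξ' F ≤ Ex Q A ξ F := by
  have hQ0 : 0 < Q := by linarith
  refine le_trans ?_ (gen_comp hQ hF0 hF A.card A ξ ξ' rfl hb.BA hξ hξ' hle)
  refine (hb.ge hQ hR subset_rfl hξ' hF0 (hF.ind Finset.disjoint_sdiff)).trans ?_
  refine Ex_mono hQ0 fun S _ => mul_le_mul_of_nonneg_left ?_ (hF0 _)
  by_cases h : cf A ξ' S ∈ NoA Λ I r
  · have h2 : cf A ξ' S ∉ {ω | Jn (Sx A ξ') B ω} := hb.not_jn hR h
    rw [Set.indicator_of_mem h, Set.indicator_of_notMem h2]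
    simp
  · rw [Set.indicator_of_notMem h]
    have := ind_le_one {ω | Jn (Sx A ξ') B ω} (cf A ξ' S)
    linarith

lemma step_shi' {F : Set (ℤ × ℤ)} {u v : ℤ × ℤ} (h : PStep F u v) :
    PStep {w | FKA.sh w ∈ F} (shi u) (shi v) :=
  step_shi (fun v hv => by show FKA.sh (shi v) ∈ F; rwa [sh_shi]) h

lemma step_sh' {F : Set (ℤ × ℤ)} {u v : ℤ × ℤ} (h : PStep {w | FKA.sh w ∈ F} u v) :
    PStep F (FKA.sh u) (FKA.sh v) := step_sh (fun _ hv => hv) h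

lemma rtg_shi {F : Set (ℤ × ℤ)} {u v : ℤ × ℤ} (h : ReflTransGen (PStep F) u v) :
    ReflTransGen (PStep {w | FKA.sh w ∈ F}) (shi u) (shi v) :=
  h.lift shi fun _ _ h' => step_shi' h'

lemma rtg_sh {F : Set (ℤ × ℤ)} {u v : ℤ × ℤ} (h : ReflTransGen (PStep {w | FKA.sh w ∈ F}) u v) :
    ReflTransGen (PStep F) (FKA.sh u) (FKA.sh v) :=
  h.lift FKA.sh fun _ _ h' => step_sh' h'

lemma cor_sh {v u : ℤ × ℤ} : Cor (FKA.sh v) (FKA.sh u) ↔ Cor v u := by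
  simp only [Cor, FKA.sh]
  omega

lemma cor_shi {v u : ℤ × ℤ} : Cor (FKA.sh v) u ↔ Cor v (shi u) := by
  simp only [Cor, FKA.sh, FKA.shi]
  omega

lemma mem_image_sh {s : Finset (ℤ × ℤ)} {v : ℤ × ℤ} : v ∈ s.image FKA.sh ↔ shi v ∈ s := by
  rw [Finset.mem_image]
  constructor
  · rintro ⟨w, hw, rfl⟩
    rwa [shi_sh]
  · exact fun h => ⟨_, h, sh_shi v⟩

/-- The shifted shell. -/
theorem QBlk.shift (hb : QBlk Λ B A I r) : QBlk Λ (B.image FKA.sh) (A.image FKA.sh) (I.image FKA.sh) r where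
  one := hb.one
  BA := Finset.image_subset_image hb.BA
  sub := by
    intro x hx v hv
    rw [mem_image_sh] at hx
    have h1 : shi v ∈ Bq (shi x) (Λ * r) := by
      rw [← sh_shi x, mem_Bq_sh] at hv
      exact hv
    have h2 := Finset.mem_sdiff.1 (hb.sub _ hx h1)
    rw [Finset.mem_sdiff, mem_image_sh, mem_image_sh]
    exact h2
  thr := by
    rintro F u v ⟨b, hbB, hbu⟩ ⟨a, haA, hav⟩ h
    rw [mem_image_sh] at hbB haA
    have h1 := rtg_shi h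
    obtain ⟨x, hx, w, hw, h2, h3⟩ := hb.thr _ (shi u) (shi v) ⟨shi b, hbB, by
      rw [← cor_shi, sh_shi]; exact hbu⟩ ⟨shi a, haA, by rw [← cor_shi, sh_shi]; exact hav⟩ h1
    refine ⟨FKA.sh x, by rw [mem_image_sh, shi_sh]; exact hx, FKA.sh w, by rw [nm_sh]; exact hw, ?_, ?_⟩
    · have := rtg_sh h2
      rwa [sh_shi] at this
    · have := rtg_sh h3
      rwa [sh_shi] at this

/-- The smaller boundary condition. -/
theorem QBlk.dn (hQ : 1 ≤ Q) (hR : Rsc Q Λ c) (hb : QBlk Λ B A I r) {F : Cfg → ℝ}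
    (hF0 : ∀ ω, 0 ≤ F ω) (hF : Loc B F) {ξ ξ' : Cfg} (hξ : Good ξ) (hξ' : Good ξ')
    (hle : ∀ v, v ∉ A → ξ v = true → ξ' v = true) :
    c ^ I.card * Ex Q A ξ F ≤ Ex Q A ξ' F := by
  have hQ0 : 0 < Q := by linarith
  rw [H519.Ex_du hQ0 A hξ F, H519.Ex_du hQ0 A hξ' F]
  have hcard : (I.image FKA.sh).card ≤ I.card := Finset.card_image_le
  have hpow : c ^ I.card ≤ c ^ (I.image FKA.sh).card :=
    pow_le_pow_of_le_one hR.2.1.le hR.2.2.1 hcard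
  refine le_trans (mul_le_mul_of_nonneg_right hpow (Ex_nonneg hQ0 fun S _ => hF0 _)) ?_
  refine hb.shift.up hQ hR (fun ω => hF0 _) ?_ (f_dual.1 _ hξ') (f_dual.1 _ hξ) ?_
  · intro ω ω' h
    refine hF _ _ fun v hv => ?_
    have h0 : ω (v.1 + 1, v.2) = ω' (v.1 + 1, v.2) := h _ (Finset.mem_image.2 ⟨v, hv, rfl⟩)
    show (!(ω (v.1 + 1, v.2))) = !(ω' (v.1 + 1, v.2))
    rw [h0]
  · intro v hv hvt
    have h1 : (v.1 - 1, v.2) ∉ A := fun h => hv (mem_image_sh.2 h)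
    have h2 : (!(ξ' (v.1 - 1, v.2))) = true := hvt
    show (!(ξ (v.1 - 1, v.2))) = true
    cases h3 : ξ (v.1 - 1, v.2) with
    | false => rfl
    | true => rw [hle _ h1 h3] at h2; simp at h2

/-- **Ratio mixing**: any two boundary conditions. -/
theorem QBlk.all (hQ : 1 ≤ Q) (hR : Rsc Q Λ c) (hb : QBlk Λ B A I r) {F : Cfg → ℝ}
    (hF0 : ∀ ω, 0 ≤ F ω) (hF : Loc B F) {ξ ξ' : Cfg} (hξ : Good ξ) (hξ' : Good ξ') :
    (c ^ I.card) ^ 2 * Ex Q A ξ F ≤ Ex Q A ξ' F := by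
  have h1 := hb.dn hQ hR hF0 hF hξ f_good.2.2 (fun _ _ _ => rfl)
  have h2 := hb.up hQ hR hF0 hF hξ' f_good.2.2 (fun _ _ _ => rfl)
  have h3 : 0 ≤ c ^ I.card := pow_nonneg hR.2.1.le _
  nlinarith

/-- Two domains. -/
theorem QBlk.dom (hQ : 1 ≤ Q) (hR : Rsc Q Λ c) (hb : QBlk Λ B A I r) {F : Cfg → ℝ}
    (hF0 : ∀ ω, 0 ≤ F ω) (hF : Loc B F) {D D' : Finset (ℤ × ℤ)} {η η' : Cfg} (hD : A ⊆ D)
    (hD' : A ⊆ D') (hη : Good η) (hη' : Good η') :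
    (c ^ I.card) ^ 2 * Ex Q D η F ≤ Ex Q D' η' F := by
  have hQ0 : 0 < Q := by linarith
  rw [f_markov Q A D' η' F hQ0 hD' hη',
    ← Ex_const (Q := Q) (D := D') (η := η') hQ0 ((c ^ I.card) ^ 2 * Ex Q D η F)]
  refine Ex_mono hQ0 fun S' _ => ?_
  rw [f_markov Q A D η F hQ0 hD hη, ← Ex_mul_left,
    ← Ex_const (Q := Q) (D := D) (η := η) hQ0 (Ex Q A (cf D' η' S') F)]
  exact Ex_mono hQ0 fun S _ => hb.all hQ hR hF0 hF (f_good.1 D η S hη) (f_good.1 D' η' S' hη')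

/-- A function off `A` times a local function: lower bound. -/
theorem QBlk.mul_ge (hQ : 1 ≤ Q) (hR : Rsc Q Λ c) (hb : QBlk Λ B A I r) {F G : Cfg → ℝ}
    (hF0 : ∀ ω, 0 ≤ F ω) (hF : Loc B F) {D D' : Finset (ℤ × ℤ)} {η η' : Cfg} (hD : A ⊆ D)
    (hD' : A ⊆ D') (hη : Good η) (hη' : Good η') (hG0 : ∀ ω, 0 ≤ G ω) (hG : Ind A G) :
    (c ^ I.card) ^ 2 * (Ex Q D η G * Ex Q D' η' F) ≤ Ex Q D η (fun ω => G ω * F ω) := by
  have hQ0 : 0 < Q := by linarith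
  rw [markov f_markov hQ0 (A := A) hD hη hG]
  have e : (c ^ I.card) ^ 2 * (Ex Q D η G * Ex Q D' η' F) =
      Ex Q D η (fun ω => ((c ^ I.card) ^ 2 * Ex Q D' η' F) * G ω) := by
    rw [Ex_mul_left]; ring
  rw [e]
  refine Ex_mono hQ0 fun S _ => ?_
  rw [mul_comm]
  exact mul_le_mul_of_nonneg_left
    (hb.dom hQ hR hF0 hF hD' subset_rfl hη' (f_good.1 D η S hη)) (hG0 _)

/-- A function off `A` times a local function: upper bound. -/
theorem QBlk.mul_le (hQ : 1 ≤ Q) (hR : Rsc Q Λ c) (hb : QBlk Λ B A I r) {F G : Cfg → ℝ}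
    (hF0 : ∀ ω, 0 ≤ F ω) (hF : Loc B F) {D D' : Finset (ℤ × ℤ)} {η η' : Cfg} (hD : A ⊆ D)
    (hD' : A ⊆ D') (hη : Good η) (hη' : Good η') (hG0 : ∀ ω, 0 ≤ G ω) (hG : Ind A G) :
    (c ^ I.card) ^ 2 * Ex Q D η (fun ω => G ω * F ω) ≤ Ex Q D η G * Ex Q D' η' F := by
  have hQ0 : 0 < Q := by linarith
  rw [markov f_markov hQ0 (A := A) hD hη hG, ← Ex_mul_left]
  have e : Ex Q D η G * Ex Q D' η' F = Ex Q D η (fun ω => Ex Q D' η' F * G ω) := by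
    rw [Ex_mul_left]; ring
  rw [e]
  refine Ex_mono hQ0 fun S _ => ?_
  have h := hb.dom hQ hR hF0 hF subset_rfl hD' (f_good.1 D η S hη) hη'
  calc _ = G (cf D η S) * ((c ^ I.card) ^ 2 * Ex Q A (cf D η S) F) := by ring
    _ ≤ G (cf D η S) * Ex Q D' η' F := mul_le_mul_of_nonneg_left h (hG0 _)
    _ = _ := by ring

/-! ## Products -/

theorem loc_prod {ι : Type*} (J : Finset ι) {B : ι → Finset (ℤ × ℤ)} {F : ι → Cfg → ℝ}
    (hF : ∀ i ∈ J, Loc (B i) (F i)) : Loc (J.biUnion B) (fun ω => ∏ i ∈ J, F i ω) := by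
  intro ω ω' h
  exact Finset.prod_congr rfl fun i hi => hF i hi ω ω' fun v hv =>
    h v (Finset.mem_biUnion.2 ⟨i, hi, hv⟩)

theorem ind_prod {ι : Type*} (J : Finset ι) {A : Finset (ℤ × ℤ)} {F : ι → Cfg → ℝ}
    (hF : ∀ i ∈ J, Ind A (F i)) : Ind A (fun ω => ∏ i ∈ J, F i ω) := by
  intro ω ω' h
  exact Finset.prod_congr rfl fun i hi => hF i hi ω ω' h

/-- **Product form**: functions of separated sets. -/
theorem qblk_prod (hQ : 1 ≤ Q) (hR : Rsc Q Λ c) {M : ℕ} {ι : Type*} (J : Finset ι)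
    {A B I : ι → Finset (ℤ × ℤ)} {r : ι → ℤ} (hb : ∀ i ∈ J, QBlk Λ (B i) (A i) (I i) (r i))
    (hM : ∀ i ∈ J, (I i).card ≤ M) (hdis : ∀ i ∈ J, ∀ j ∈ J, i ≠ j → Disjoint (B i) (A j))
    {F : ι → Cfg → ℝ} (hF0 : ∀ i ∈ J, ∀ ω, 0 ≤ F i ω) (hF : ∀ i ∈ J, Loc (B i) (F i))
    (hD : ∀ i ∈ J, A i ⊆ D) (hη : Good η) {D' : ι → Finset (ℤ × ℤ)} {η' : ι → Cfg}
    (hD' : ∀ i ∈ J, A i ⊆ D' i) (hη' : ∀ i ∈ J, Good (η' i)) :
    (c ^ (2 * M)) ^ J.card * ∏ i ∈ J, Ex Q (D' i) (η' i) (F i) ≤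
      Ex Q D η (fun ω => ∏ i ∈ J, F i ω) ∧
    (c ^ (2 * M)) ^ J.card * Ex Q D η (fun ω => ∏ i ∈ J, F i ω) ≤
      ∏ i ∈ J, Ex Q (D' i) (η' i) (F i) := by
  classical
  have hQ0 : 0 < Q := by linarith
  have hc0 := hR.2.1
  have hc1 := hR.2.2.1
  induction J using Finset.induction_on with
  | empty => simp [Ex_const hQ0]
  | insert i J hi ih =>
    obtain ⟨ih1, ih2⟩ := ih (fun j hj => hb j (Finset.mem_insert_of_mem hj))
      (fun j hj => hM j (Finset.mem_insert_of_mem hj))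
      (fun j hj k hk => hdis j (Finset.mem_insert_of_mem hj) k (Finset.mem_insert_of_mem hk))
      (fun j hj => hF0 j (Finset.mem_insert_of_mem hj))
      (fun j hj => hF j (Finset.mem_insert_of_mem hj))
      (fun j hj => hD j (Finset.mem_insert_of_mem hj))
      (fun j hj => hD' j (Finset.mem_insert_of_mem hj))
      (fun j hj => hη' j (Finset.mem_insert_of_mem hj))
    have hii := Finset.mem_insert_self i J
    have hG0 : ∀ ω, 0 ≤ ∏ j ∈ J, F j ω := fun ω =>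
      Finset.prod_nonneg fun j hj => hF0 j (Finset.mem_insert_of_mem hj) ω
    have hG : Ind (A i) (fun ω => ∏ j ∈ J, F j ω) := ind_prod J fun j hj =>
      (hF j (Finset.mem_insert_of_mem hj)).ind (hdis j (Finset.mem_insert_of_mem hj) i hii
        (fun h => hi (h ▸ hj)))
    have e : ∀ ω, ∏ j ∈ insert i J, F j ω = (∏ j ∈ J, F j ω) * F i ω := fun ω => by
      rw [Finset.prod_insert hi, mul_comm]
    have k1 := (hb i hii).mul_ge hQ hR (hF0 i hii) (hF i hii) (hD i hii) (hD' i hii) hη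
      (hη' i hii) hG0 hG
    have k2 := (hb i hii).mul_le hQ hR (hF0 i hii) (hF i hii) (hD i hii) (hD' i hii) hη
      (hη' i hii) hG0 hG
    have hcM : c ^ (2 * M) ≤ (c ^ (I i).card) ^ 2 := by
      rw [← pow_mul, mul_comm]
      exact pow_le_pow_of_le_one hc0.le hc1 (by have := hM i hii; omega)
    have hE1 : 0 ≤ Ex Q (D' i) (η' i) (F i) := Ex_nonneg hQ0 fun S _ => hF0 i hii _
    have hE2 : 0 ≤ Ex Q D η (fun ω => ∏ j ∈ J, F j ω) := Ex_nonneg hQ0 fun S _ => hG0 _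
    have hE3 : 0 ≤ Ex Q D η (fun ω => (∏ j ∈ J, F j ω) * F i ω) :=
      Ex_nonneg hQ0 fun S _ => mul_nonneg (hG0 _) (hF0 i hii _)
    have ha : 0 < c ^ (2 * M) := pow_pos hc0 _
    have hcard : (insert i J).card = J.card + 1 := Finset.card_insert_of_notMem hi
    simp only [e]
    rw [Finset.prod_insert hi, hcard, pow_succ]
    set a := c ^ (2 * M)
    set p := ∏ j ∈ J, Ex Q (D' j) (η' j) (F j)
    have hp : 0 ≤ p := Finset.prod_nonneg fun j hj =>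
      Ex_nonneg hQ0 fun S _ => hF0 j (Finset.mem_insert_of_mem hj) _
    constructor
    · calc a ^ J.card * a * (Ex Q (D' i) (η' i) (F i) * p)
          = a * ((a ^ J.card * p) * Ex Q (D' i) (η' i) (F i)) := by ring
        _ ≤ a * (Ex Q D η (fun ω => ∏ j ∈ J, F j ω) * Ex Q (D' i) (η' i) (F i)) :=
            mul_le_mul_of_nonneg_left (mul_le_mul_of_nonneg_right ih1 hE1) ha.le
        _ ≤ (c ^ (I i).card) ^ 2 *
            (Ex Q D η (fun ω => ∏ j ∈ J, F j ω) * Ex Q (D' i) (η' i) (F i)) :=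
            mul_le_mul_of_nonneg_right hcM (mul_nonneg hE2 hE1)
        _ ≤ _ := k1
    · calc a ^ J.card * a * Ex Q D η (fun ω => (∏ j ∈ J, F j ω) * F i ω)
          ≤ a ^ J.card * ((c ^ (I i).card) ^ 2 * Ex Q D η (fun ω => (∏ j ∈ J, F j ω) * F i ω)) := by
            rw [mul_assoc]
            exact mul_le_mul_of_nonneg_left (mul_le_mul_of_nonneg_right hcM hE3)
              (pow_nonneg ha.le _)
        _ ≤ a ^ J.card * (Ex Q D η (fun ω => ∏ j ∈ J, F j ω) * Ex Q (D' i) (η' i) (F i)) :=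
            mul_le_mul_of_nonneg_left k2 (pow_nonneg ha.le _)
        _ = Ex Q (D' i) (η' i) (F i) * (a ^ J.card * Ex Q D η (fun ω => ∏ j ∈ J, F j ω)) := by
            ring
        _ ≤ _ := mul_le_mul_of_nonneg_left ih2 hE1

end Vale.Agent.P167.H199
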