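import Vale.Agent.P167.H199.QHi
import Vale.Agent.P167.H192.Q.SDefs
import Vale.Agent.P167.FKA.Dual

/-!
# P167, general `q`: strong Russo-Seymour-Welsh at a flat side, from one-scale touch
-/

namespace Vale.Agent.P167.H199

open Finset Vale.Agent.P167.FK Vale.Agent.P167.FKA Relation
open Vale.Agent.P145.FB (PStep PConn)
open Vale.Agent.P167.H259 (f_markov f_fkg f_comp f_comp2)
open Vale.Agent.P167.QM (HB ow)
open Vale.Agent.P167.H192.TA (dq dF mem_dF sr Pw ray Xc no_cross sgn)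
open Vale.Agent.P167.H632 (cs pr)

variable {Q c : ℝ} {V D : Finset (ℤ × ℤ)} {η ω : Cfg} {x y z b : ℤ × ℤ} {r R : ℤ}

/-- A path from the free side reaches height `h` in the window `N h`. -/
def Hi (Q : ℝ) (N h₀ : ℤ) (c : ℝ) : Prop := ∀ (x : ℤ × ℤ) (h : ℤ), h₀ ≤ h → 1 ≤ h →
  c ≤ Pr Q (HB x (N * h)) eta0 (Ev (HB x (N * h)) (PH x (N * h) h))

/-- Larger domains, any boundary condition: increasing local events. -/
theorem pr_ge (hQ : 1 ≤ Q) (hVD : V ⊆ D) (hη : Good η) {E : Set Cfg} (hE : IncS E) :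
    Pr Q V eta0 E ≤ Pr Q D η E := by
  have hQ0 : 0 < Q := by linarith
  unfold Pr
  rw [f_markov Q V D η _ hQ0 hVD hη, ← Ex_const (Q := Q) (D := D) (η := η) hQ0
    (Ex Q V eta0 (E.indicator 1))]
  exact Ex_mono hQ0 fun S _ => f_comp Q V _ _ _ hQ f_good.2.1 (f_good.1 _ _ _ hη)
    (fun v hv => absurd hv (by simp [eta0])) hE.incF

theorem dec_armD (x : ℤ × ℤ) (r R : ℤ) : DecS {ω | ArmDx x r R ω} := by
  rintro ω ω' h ⟨u, v, h1, h2, h3, h4⟩
  exact ⟨u, v, h1, h2, h3, h4.mono (F := (op ω')ᶜ) (F' := (op ω)ᶜ)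
    (Set.compl_subset_compl.2 fun w hw => h w hw) (le_refl _)⟩

theorem inc_noD (x : ℤ × ℤ) (r R : ℤ) : IncS {ω | ArmDx x r R ω}ᶜ :=
  fun ω ω' h h' h'' => h' (dec_armD x r R ω ω' h h'')

/-- No dual arm, in every domain which contains the box. -/
theorem pr_noD (hQ : 1 ≤ Q) {Λ : ℤ} (hp : Pr Q (Bq x (Λ * r)) eta0 {ω | ArmDx x r (Λ * r) ω} ≤
    1 - c) (hD : Bq x (Λ * r) ⊆ D) (hη : Good η) :
    c ≤ Pr Q D η {ω | ArmDx x r (Λ * r) ω}ᶜ := by
  have hQ0 : 0 < Q := by linarith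
  refine le_trans ?_ (pr_ge hQ hD hη (inc_noD x r (Λ * r)))
  rw [Pr_compl hQ0]
  linarith

/-! ### Zigzag paths -/

/-- The even site of the column `X` at height `j`. -/
def ec (X j : ℤ) : ℤ × ℤ := if (X + j) % 2 = 0 then (X, j) else (X + 1, j)

/-- The even site of the row `Y` at abscissa `i`. -/
def er (Y i : ℤ) : ℤ × ℤ := if (i + Y) % 2 = 0 then (i, Y) else (i, Y + 1)

theorem ec_step {G : Set (ℤ × ℤ)} {X j : ℤ} (h : (X, j) ∈ G) : PStep G (ec X j) (ec X (j + 1)) := by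
  unfold ec
  by_cases h1 : (X + j) % 2 = 0
  · rw [if_pos h1, if_neg (by omega)]
    refine ⟨Or.inl rfl, Or.inl rfl, ?_⟩
    have e : ((min X (X + 1), min j (j + 1)) : ℤ × ℤ) = (X, j) := by
      refine Prod.ext ?_ ?_ <;> dsimp only <;> omega
    dsimp only
    rw [e]; exact h
  · rw [if_neg h1, if_pos (by omega)]
    refine ⟨Or.inr (by dsimp only; omega), Or.inl rfl, ?_⟩
    have e : ((min (X + 1) X, min j (j + 1)) : ℤ × ℤ) = (X, j) := by
      refine Prod.ext ?_ ?_ <;> dsimp only <;> omega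
    dsimp only
    rw [e]; exact h

theorem er_step {G : Set (ℤ × ℤ)} {Y i : ℤ} (h : (i, Y) ∈ G) : PStep G (er Y i) (er Y (i + 1)) := by
  unfold er
  by_cases h1 : (i + Y) % 2 = 0
  · rw [if_pos h1, if_neg (by omega)]
    refine ⟨Or.inl rfl, Or.inl rfl, ?_⟩
    have e : ((min i (i + 1), min Y (Y + 1)) : ℤ × ℤ) = (i, Y) := by
      refine Prod.ext ?_ ?_ <;> dsimp only <;> omega
    dsimp only
    rw [e]; exact h
  · rw [if_neg h1, if_pos (by omega)]
    refine ⟨Or.inl rfl, Or.inr (by dsimp only; omega), ?_⟩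
    have e : ((min i (i + 1), min (Y + 1) Y) : ℤ × ℤ) = (i, Y) := by
      refine Prod.ext ?_ ?_ <;> dsimp only <;> omega
    dsimp only
    rw [e]; exact h

theorem ec_path {G : Set (ℤ × ℤ)} {X : ℤ} {j : ℤ} (k : ℕ) (h : ∀ i, j ≤ i → i < j + k → (X, i) ∈ G) :
    ReflTransGen (PStep G) (ec X j) (ec X (j + k)) := by
  induction k with
  | zero => simpa using ReflTransGen.refl
  | succ k ih =>
    have h1 := ih fun i h1 h2 => h i h1 (by push_cast; omega)
    have h2 := ec_step (G := G) (X := X) (j := j + k) (h _ (by omega) (by push_cast; omega))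
    rw [add_assoc] at h2
    refine h1.tail ?_
    push_cast
    exact h2

theorem er_path {G : Set (ℤ × ℤ)} {Y : ℤ} {i : ℤ} (k : ℕ) (h : ∀ j, i ≤ j → j < i + k → (j, Y) ∈ G) :
    ReflTransGen (PStep G) (er Y i) (er Y (i + k)) := by
  induction k with
  | zero => simpa using ReflTransGen.refl
  | succ k ih =>
    have h1 := ih fun j h1 h2 => h j h1 (by push_cast; omega)
    have h2 := er_step (G := G) (Y := Y) (i := i + k) (h _ (by omega) (by push_cast; omega))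
    rw [add_assoc] at h2
    refine h1.tail ?_
    push_cast
    exact h2

theorem ec_path' {G : Set (ℤ × ℤ)} {X j j' : ℤ} (hj : j ≤ j') (h : ∀ i, j ≤ i → i < j' → (X, i) ∈ G) :
    ReflTransGen (PStep G) (ec X j) (ec X j') := by
  have h1 := ec_path (G := G) (X := X) (j := j) (j' - j).toNat fun i h1 h2 => h i h1 (by omega)
  have e : j + ((j' - j).toNat : ℤ) = j' := by omega
  rwa [e] at h1

theorem er_path' {G : Set (ℤ × ℤ)} {Y i i' : ℤ} (hi : i ≤ i') (h : ∀ j, i ≤ j → j < i' → (j, Y) ∈ G) :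
    ReflTransGen (PStep G) (er Y i) (er Y i') := by
  have h1 := er_path (G := G) (Y := Y) (i := i) (i' - i).toNat fun j h1 h2 => h j h1 (by omega)
  have e : i + ((i' - i).toNat : ℤ) = i' := by omega
  rwa [e] at h1

theorem ec_of_even {v : ℤ × ℤ} {X : ℤ} (hv : (v.1 + v.2) % 2 = 0) (h : v.1 = X ∨ v.1 = X + 1) :
    ec X v.2 = v := by
  unfold ec
  rcases h with h | h
  · rw [if_pos (by omega)]
    exact Prod.ext h.symm rfl
  · rw [if_neg (by omega)]
    exact Prod.ext h.symm rfl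

/-- From the column to the row. -/
theorem er_of_ec {X Y : ℤ} : ∃ i, (i = X ∨ i = X + 1) ∧ er Y i = ec X Y := by
  unfold er ec
  by_cases h : (X + Y) % 2 = 0
  · exact ⟨X, Or.inl rfl, by rw [if_pos h, if_pos h]⟩
  · exact ⟨X + 1, Or.inr rfl, by rw [if_neg h, if_pos (by omega)]⟩

/-! ### The region of the bulk -/

/-- The bulk region of the half annulus, above height `h`. -/
def Wr (b : ℤ × ℤ) (a h : ℤ) : Set (ℤ × ℤ) :=
  {v | b.2 + h ≤ v.2 ∧ v.2 < b.2 + 6 * a ∧ b.1 - 6 * a ≤ v.1 ∧ v.1 < b.1 + 6 * a ∧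
    (v.1 < b.1 - 3 * a ∨ b.1 + 3 * a ≤ v.1 ∨ b.2 + 3 * a ≤ v.2)}

/-- **Paths through the region.** -/
theorem wr_path {G : Set (ℤ × ℤ)} {a h : ℤ} (ha : 1 ≤ a) (hG : Wr b a h ⊆ G) (hha : h ≤ a)
    {p q : ℤ × ℤ} (hp : (p.1 + p.2) % 2 = 0) (hq : (q.1 + q.2) % 2 = 0)
    (hp1 : b.1 - 6 * a ≤ p.1) (hp2 : p.1 ≤ b.1 - 4 * a) (hp3 : b.2 + h ≤ p.2)
    (hp4 : p.2 ≤ b.2 + a) (hq1 : b.1 + 4 * a ≤ q.1) (hq2 : q.1 ≤ b.1 + 6 * a)
    (hq3 : b.2 + h ≤ q.2) (hq4 : q.2 ≤ b.2 + a) : ReflTransGen (PStep G) p q := by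
  obtain ⟨X, hX, hX1, hX2⟩ : ∃ X, (p.1 = X ∨ p.1 = X + 1) ∧ b.1 - 6 * a ≤ X ∧ X < b.1 - 4 * a := by
    by_cases h1 : p.1 < b.1 - 4 * a
    · exact ⟨p.1, Or.inl rfl, hp1, h1⟩
    · exact ⟨p.1 - 1, Or.inr (by ring), by omega, by omega⟩
  obtain ⟨X', hX', hX1', hX2'⟩ : ∃ X, (q.1 = X ∨ q.1 = X + 1) ∧ b.1 + 4 * a ≤ X ∧
      X < b.1 + 6 * a := by
    by_cases h1 : q.1 < b.1 + 6 * a
    · exact ⟨q.1, Or.inl rfl, hq1, h1⟩
    · exact ⟨q.1 - 1, Or.inr (by ring), by omega, by omega⟩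
  set Y := b.2 + 4 * a with hY
  have k1 : ReflTransGen (PStep G) (ec X p.2) (ec X Y) := ec_path' (by omega) fun i h1 h2 =>
    hG ⟨by dsimp only; omega, by dsimp only; omega, by dsimp only; omega, by dsimp only; omega,
      Or.inl (by dsimp only; omega)⟩
  have k2 : ReflTransGen (PStep G) (ec X' q.2) (ec X' Y) := ec_path' (by omega) fun i h1 h2 =>
    hG ⟨by dsimp only; omega, by dsimp only; omega, by dsimp only; omega, by dsimp only; omega,
      Or.inr (Or.inl (by dsimp only; omega))⟩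
  rw [ec_of_even hp hX] at k1
  rw [ec_of_even hq hX'] at k2
  obtain ⟨i, hi, ei⟩ := er_of_ec (X := X) (Y := Y)
  obtain ⟨i', hi', ei'⟩ := er_of_ec (X := X') (Y := Y)
  have k3 : ReflTransGen (PStep G) (er Y i) (er Y i') := er_path' (by omega) fun j h1 h2 =>
    hG ⟨by dsimp only; omega, by dsimp only; omega, by dsimp only; omega, by dsimp only; omega,
      Or.inr (Or.inr (by dsimp only; omega))⟩
  rw [ei, ei'] at k3
  exact (k1.trans k3).trans (H519.conn_symm k2)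

/-! ### Blocking -/

/-- The grid points. -/
def gg (b : ℤ × ℤ) (ρ : ℤ) (i : ℤ × ℤ) : ℤ × ℤ := (b.1 + ρ * i.1, b.2 + ρ * i.2)

/-- The grid point of a square of the region. -/
theorem grid_pt {a h ρ Λ : ℤ} (hΛ : 2 ≤ Λ) (hρ : 1 ≤ ρ) (hh : h = (Λ + 1) * ρ) (ha : h ≤ a)
    (hra : r ≤ a) (haR : 8 * a ≤ R) {M : ℤ} (hM : a ≤ M * ρ) {s : ℤ × ℤ} (hs : s ∈ Wr b a h) :
    ∃ i ∈ Finset.Icc (-(6 * M)) (6 * M) ×ˢ Finset.Icc 0 (6 * M),
      Bq (gg b ρ i) (Λ * ρ) ⊆ dF b r R ∧ (∀ p, Cor s p → nm (p - gg b ρ i) ≤ ρ) ∧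
      ∀ y : ℤ × ℤ, nm (y - b) ≤ r → Λ * ρ ≤ nm (y - gg b ρ i) := by
  have hh1 : 1 ≤ h := by rw [hh]; nlinarith
  have hh' : h = Λ * ρ + ρ := by rw [hh]; ring
  obtain ⟨w1, w2, w3, w4, w5⟩ := hs
  have m1 := Int.emod_add_mul_ediv (s.1 - b.1) ρ
  have m2 := Int.emod_nonneg (s.1 - b.1) (by omega : ρ ≠ 0)
  have m3 := Int.emod_lt_of_pos (s.1 - b.1) (by omega : 0 < ρ)
  have n1 := Int.emod_add_mul_ediv (s.2 - b.2) ρ
  have n2 := Int.emod_nonneg (s.2 - b.2) (by omega : ρ ≠ 0)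
  have n3 := Int.emod_lt_of_pos (s.2 - b.2) (by omega : 0 < ρ)
  set i1 := (s.1 - b.1) / ρ with hi1
  set i2 := (s.2 - b.2) / ρ with hi2
  refine ⟨(i1, i2), ?_, ?_, ?_, ?_⟩
  · rw [Finset.mem_product, Finset.mem_Icc, Finset.mem_Icc]
    refine ⟨⟨?_, ?_⟩, ?_, ?_⟩
    · show -(6 * M) ≤ i1
      rw [hi1, Int.le_ediv_iff_mul_le (by omega)]
      linarith
    · show i1 ≤ 6 * M
      exact Int.ediv_le_of_le_mul (by omega) (by linarith)
    · show 0 ≤ i2
      exact Int.ediv_nonneg (by linarith) (by omega)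
    · show i2 ≤ 6 * M
      exact Int.ediv_le_of_le_mul (by omega) (by linarith)
  · intro t ht
    rw [mem_dF]
    simp only [Bq, gg, Finset.mem_product, Finset.mem_Ico] at ht
    show b.1 - R ≤ t.1 ∧ t.1 < b.1 + R ∧ b.2 ≤ t.2 ∧ t.2 < b.2 + R ∧
      (t.1 < b.1 - r ∨ b.1 + r ≤ t.1 ∨ b.2 + r ≤ t.2)
    refine ⟨by linarith, by linarith, by linarith, by linarith, ?_⟩
    rcases w5 with w5 | w5 | w5
    · left; linarith
    · right; left; linarith
    · right; right; linarith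
  · rintro p ⟨c1, c2⟩
    rw [nm_le_iff]
    simp only [gg, Prod.fst_sub, Prod.snd_sub]
    refine ⟨?_, ?_, ?_, ?_⟩ <;> omega
  · intro y hy
    have hyr := nm_le_iff.1 hy
    simp only [Prod.fst_sub, Prod.snd_sub] at hyr
    obtain ⟨y1, y2, y3, y4⟩ := hyr
    rw [le_nm_iff]
    simp only [gg, Prod.fst_sub, Prod.snd_sub]
    rcases w5 with w5 | w5 | w5
    · left; linarith
    · right; left; linarith
    · right; right; right; linarith

/-- A dual path from the inner part which visits a square of the region gives a dual arm. -/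
theorem grid_arm {ρ m : ℤ} {g p q y s : ℤ × ℤ} (hρm : ρ ≤ m) (hpq : PStep (cs false ω ∩ dq b r R) p q)
    (hs : s = (min p.1 q.1, min p.2 q.2)) (hg1 : ∀ p, Cor s p → nm (p - g) ≤ ρ)
    (hy : m ≤ nm (y - g)) (hodd : (y.1 + y.2) % 2 = 1) (hp : Pw (cs false ω ∩ dq b r R) y p) :
    ArmDx g ρ m ω := by
  have hpy : nm (p - g) ≤ ρ := hg1 p (by rw [hs]; exact (cor_of_step hpq).1)
  have hpath : ReflTransGen (PStep (op ω)ᶜ) p y := by
    have h5 : Pw (cs false ω ∩ dq b r R) p y := Pw.symm hp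
    refine h5.mono ?_
    intro t ht ht'
    have h6 : ω t = false := ht.1
    have h7 : ω t = true := ht'
    rw [h6] at h7
    exact absurd h7 (by simp)
  obtain ⟨y1, hy1, hp1⟩ := exit (c := g) (R := m) hpath (hpy.trans hρm) hy
  refine ⟨p, y1, ?_, hpy, hy1.ge, hp1⟩
  have h8 := Pw.parity hp
  rw [Int.odd_iff]
  omega

/-- The end of a path of the half box. -/
theorem end_bd {a : ℤ} {u v x : ℤ × ℤ} (hc : CP (HB x a) ω u v) (hne : u ≠ v) :
    x.1 - a ≤ v.1 ∧ v.1 ≤ x.1 + a ∧ v.2 ≤ x.2 + a := by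
  obtain ⟨s, hs, -, hcs⟩ := CP.end_cor hc hne
  have hs1 := (mem_HB.1 hs).1
  simp only [Bq, Finset.mem_product, Finset.mem_Ico] at hs1
  simp only [Cor] at hcs
  omega

/-- **Topology**: two paths from the side to height `h`, and no dual arms at the grid points. -/
theorem no_xc {a h ρ Λ : ℤ} (hΛ : 2 ≤ Λ) (hρ : 1 ≤ ρ) (hh : h = (Λ + 1) * ρ) (ha : h ≤ a)
    (hr : 1 ≤ r) (hra : r ≤ a) (haR : 8 * a ≤ R) {M : ℤ} (hM : a ≤ M * ρ)
    (h1 : ω ∈ Ev (HB (b.1 - 5 * a, b.2) a) (PH (b.1 - 5 * a, b.2) a h))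
    (h2 : ω ∈ Ev (HB (b.1 + 5 * a, b.2) a) (PH (b.1 + 5 * a, b.2) a h))
    (h3 : ∀ i ∈ Finset.Icc (-(6 * M)) (6 * M) ×ˢ Finset.Icc 0 (6 * M),
      Bq (gg b ρ i) (Λ * ρ) ⊆ dF b r R → ¬ ArmDx (gg b ρ i) ρ (Λ * ρ) ω) : ω ∉ Xc false b r R := by
  classical
  intro hX
  have hh1 : 1 ≤ h := by rw [hh]; nlinarith
  have ha1 : 1 ≤ a := by omega
  obtain ⟨u, v, ⟨hu, hu2, hux, hv⟩, hc⟩ := h1
  obtain ⟨u', v', ⟨hu', hu2', hux', hv'⟩, hc'⟩ := h2
  dsimp only at hu2 hv hu2' hv'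
  -- the modified configuration
  set ω' : Cfg := fun s => if s ∈ Wr b a h then true else ω s with hω'
  have hle : ∀ s, ω s = true → ω' s = true := by
    intro s hs
    simp only [hω']
    split
    · rfl
    · exact hs
  have hX' : ω' ∈ Xc (!true) b r R := by
    obtain ⟨y, y', g1, g2, g3, g4, g5⟩ := hX
    refine ⟨y, y', g1, g2, g3, ?_, g5⟩
    have key : ∀ w, Pw (cs false ω ∩ dq b r R) y w → Pw (cs false ω' ∩ dq b r R) y w := by
      intro w hw
      induction hw with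
      | refl => exact ReflTransGen.refl
      | @tail p q hp hpq ih =>
        refine ih.tail ⟨hpq.1, hpq.2.1, ?_, hpq.2.2.2⟩
        show ω' _ = false
        have hs0 : ω (min p.1 q.1, min p.2 q.2) = false := hpq.2.2.1
        simp only [hω']
        split
        · next hs =>
          obtain ⟨i, hi1, hi2, hi3, hi4⟩ := grid_pt hΛ hρ hh ha hra haR hM hs
          exact absurd (grid_arm (by nlinarith) hpq rfl hi3 (hi4 y g3) g2 hp) (h3 i hi1 hi2)
        · exact hs0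
    exact key y' g4
  -- the primal path
  have hdl : ∀ s ∈ HB (b.1 - 5 * a, b.2) a, s ∈ dq b r R := by
    intro s hs
    obtain ⟨s1, s2⟩ := mem_HB.1 hs
    simp only [Bq, Finset.mem_product, Finset.mem_Ico] at s1
    dsimp only at s2
    exact ⟨by linarith, by linarith, by linarith, by linarith, Or.inl (by linarith)⟩
  have hdr : ∀ s ∈ HB (b.1 + 5 * a, b.2) a, s ∈ dq b r R := by
    intro s hs
    obtain ⟨s1, s2⟩ := mem_HB.1 hs
    simp only [Bq, Finset.mem_product, Finset.mem_Ico] at s1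
    dsimp only at s2
    exact ⟨by linarith, by linarith, by linarith, by linarith, Or.inr (Or.inl (by linarith))⟩
  have k1 : Pw (cs true ω' ∩ dq b r R) u v :=
    ReflTransGen.mono (fun _ _ hs => ⟨hs.1, hs.2.1, hle _ hs.2.2.1, hdl _ hs.2.2.2⟩) _ _ hc
  have k2 : Pw (cs true ω' ∩ dq b r R) u' v' :=
    ReflTransGen.mono (fun _ _ hs => ⟨hs.1, hs.2.1, hle _ hs.2.2.1, hdr _ hs.2.2.2⟩) _ _ hc'
  have hW : Wr b a h ⊆ cs true ω' ∩ dq b r R := by
    rintro s hs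
    refine ⟨?_, ?_⟩
    · show ω' s = true
      simp only [hω']
      rw [if_pos hs]
    · obtain ⟨w1, w2, w3, w4, w5⟩ := hs
      refine ⟨by linarith, by linarith, by linarith, by linarith, ?_⟩
      rcases w5 with w5 | w5 | w5
      · exact Or.inl (by linarith)
      · exact Or.inr (Or.inl (by linarith))
      · exact Or.inr (Or.inr (by linarith))
  have hne : u ≠ v := fun e => by rw [← e] at hv; omega
  have hne' : u' ≠ v' := fun e => by rw [← e] at hv'; omega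
  obtain ⟨q1, q2, q3⟩ := end_bd hc hne
  obtain ⟨q1', q2', q3'⟩ := end_bd hc' hne'
  dsimp only at q1 q2 q3 q1' q2' q3'
  have hpv := rtg_parity hc.pc
  have hpv' := rtg_parity hc'.pc
  rw [Int.even_iff] at hu hu'
  have k3 := wr_path (b := b) (p := v) (q := v') ha1 hW ha (by omega) (by omega) (by linarith)
    (by linarith) hv (by linarith) (by linarith) (by linarith) hv' (by linarith)
  have k4 : Pw (cs true ω' ∩ dq b r R) u u' := (k1.trans k3).trans (Pw.symm k2)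
  have hux1 := nm_le_iff.1 hux
  have hux1' := nm_le_iff.1 hux'
  simp only [Prod.fst_sub, Prod.snd_sub] at hux1 hux1'
  refine no_cross (c := true) hr (by omega) hX' (s := false) (p := u) (q := u') ?_ ?_ k4
  · refine ⟨⟨by linarith, by linarith, by linarith, by linarith, Or.inl (by linarith)⟩, hu2, ?_, hu⟩
    simp only [sgn, Bool.false_eq_true, if_false]
    linarith
  · refine ⟨⟨by linarith, by linarith, by linarith, by linarith, Or.inr (Or.inl (by linarith))⟩,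
      hu2', ?_, hu'⟩
    simp only [sgn, Bool.not_false, if_true]
    linarith

/-- The ring of squares is flat at the two windows. -/
theorem hb_sub {a : ℤ} {σ : ℤ} (hσ : σ = 1 ∨ σ = -1) (hra : r ≤ a)
    (haR : 8 * a ≤ R) : HB (b.1 + σ * (5 * a), b.2) a ⊆ dF b r R := by
  intro s hs
  obtain ⟨s1, s2⟩ := mem_HB.1 hs
  simp only [Bq, Finset.mem_product, Finset.mem_Ico] at s1
  dsimp only at s2
  rw [mem_dF]
  rcases hσ with h | h
  · rw [h] at s1
    exact ⟨by omega, by omega, by omega, by omega, Or.inr (Or.inl (by omega))⟩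
  · rw [h] at s1
    exact ⟨by omega, by omega, by omega, by omega, Or.inl (by omega)⟩

/-- **Strong Russo-Seymour-Welsh** from the paths of macroscopic height. -/
theorem srsw_of_hi (hQ : 1 ≤ Q) (hrsw : RSW Q) {N h₀ : ℤ} {c : ℝ} (hN : 1 ≤ N) (hc : 0 < c)
    (hi : Hi Q N h₀ c) : H192.Q.SRSW Q := by
  classical
  have hQ0 : 0 < Q := by linarith
  obtain ⟨Λ, c₁, hΛ, hc₁, hR⟩ := hrsw
  set h₁ : ℤ := max h₀ 0 with hh₁
  have hh₁0 : 0 ≤ h₁ := le_max_right _ _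
  have hh₁h : h₀ ≤ h₁ := le_max_left _ _
  -- the number of grid points on each side
  set M : ℤ := N * (Λ + 1) with hM
  have hM1 : 3 ≤ M := by nlinarith
  set G := Finset.Icc (-(6 * M)) (6 * M) ×ˢ Finset.Icc (0 : ℤ) (6 * M) with hG
  set c₂ : ℝ := min c₁ 1 with hc₂
  have hc₂0 : 0 < c₂ := lt_min hc₁ one_pos
  have hc₂1 : c₂ ≤ 1 := min_le_right _ _
  refine ⟨8 * (M * (1 + h₁)), c * c * c₂ ^ G.card, by nlinarith, by positivity, ?_⟩
  intro b r hr
  set ρ : ℤ := r + h₁ with hρ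
  have hρ1 : 1 ≤ ρ := by omega
  set h : ℤ := (Λ + 1) * ρ with hh
  have hhρ : ρ ≤ h := by nlinarith
  set a : ℤ := N * h with ha
  have haM : a = M * ρ := by rw [ha, hh, hM]; ring
  have hha : h ≤ a := by nlinarith
  have hra : r ≤ a := by omega
  set R : ℤ := 8 * (M * (1 + h₁)) * r with hRd
  have haR : 8 * a ≤ R := by
    rw [haM, hRd, hρ]
    have h5 : h₁ ≤ h₁ * r := by nlinarith
    have h6 : M * (r + h₁) ≤ M * (r + h₁ * r) := mul_le_mul_of_nonneg_left (by linarith) (by omega)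
    have h7 : M * (r + h₁ * r) = M * (1 + h₁) * r := by ring
    linarith
  set D := dF b r R with hD
  have hg := f_good.2.1
  show Pr Q D eta0 (Xc false b r R) ≤ 1 - c * c * c₂ ^ G.card
  -- the two windows
  have e1 : ((b.1 - 5 * a, b.2) : ℤ × ℤ) = (b.1 + -1 * (5 * a), b.2) := by
    refine Prod.ext ?_ rfl
    dsimp only
    ring
  have e2 : ((b.1 + 5 * a, b.2) : ℤ × ℤ) = (b.1 + 1 * (5 * a), b.2) := by
    refine Prod.ext ?_ rfl
    dsimp only
    ring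
  have s1 : HB (b.1 - 5 * a, b.2) a ⊆ D := by
    rw [e1]; exact hb_sub (Or.inr rfl) hra haR
  have s2 : HB (b.1 + 5 * a, b.2) a ⊆ D := by
    rw [e2]; exact hb_sub (Or.inl rfl) hra haR
  set E1 := Ev (HB (b.1 - 5 * a, b.2) a) (PH (b.1 - 5 * a, b.2) a h) with hE1
  set E2 := Ev (HB (b.1 + 5 * a, b.2) a) (PH (b.1 + 5 * a, b.2) a h) with hE2
  have p1 : c ≤ Pr Q D eta0 E1 :=
    (hi (b.1 - 5 * a, b.2) h (by omega) (by omega)).trans (pr_ge hQ s1 hg (inc_ev _ _))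
  have p2 : c ≤ Pr Q D eta0 E2 :=
    (hi (b.1 + 5 * a, b.2) h (by omega) (by omega)).trans (pr_ge hQ s2 hg (inc_ev _ _))
  -- the grid points
  set A : ℤ × ℤ → Set Cfg := fun i => if Bq (gg b ρ i) (Λ * ρ) ⊆ D then
    {ω | ArmDx (gg b ρ i) ρ (Λ * ρ) ω}ᶜ else Set.univ with hA
  have hAinc : ∀ i ∈ G, IncS (A i) := by
    intro i _
    simp only [hA]
    split
    · exact inc_noD _ _ _
    · exact fun _ _ _ _ => trivial
  have hAp : ∀ i ∈ G, c₂ ≤ Pr Q D eta0 (A i) := by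
    intro i _
    simp only [hA]
    split
    · next hs =>
      exact (min_le_left _ _).trans (pr_noD hQ (hR (gg b ρ i) ρ hρ1).2 hs hg)
    · unfold Pr
      rw [Set.indicator_univ]
      have : Ex Q D eta0 (1 : Cfg → ℝ) = 1 := Ex_const hQ0 1
      rw [this]
      exact hc₂1
  have p3 : c₂ ^ G.card ≤ Pr Q D eta0 (⋂ i ∈ G, A i) := by
    refine le_trans ?_ (fkg_inc hQ hg G A hAinc)
    rw [← Finset.prod_const]
    exact Finset.prod_le_prod (fun _ _ => hc₂0.le) hAp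
  have p4 : c * c * c₂ ^ G.card ≤ Pr Q D eta0 ((E1 ∩ E2) ∩ ⋂ i ∈ G, A i) := by
    refine le_trans ?_ (fkg_inc2 hQ hg (IncS.inter' (inc_ev _ _) (inc_ev _ _))
      (IncS.iInter' hAinc))
    refine mul_le_mul ?_ p3 (by positivity) (Pr_nonneg hQ0 _)
    refine le_trans ?_ (fkg_inc2 hQ hg (inc_ev _ _) (inc_ev _ _))
    exact mul_le_mul p1 p2 hc.le (Pr_nonneg hQ0 _)
  have p5 : Pr Q D eta0 ((E1 ∩ E2) ∩ ⋂ i ∈ G, A i) ≤ Pr Q D eta0 (Xc false b r R)ᶜ := by
    refine Pr_mono hQ0 ?_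
    rintro ω ⟨⟨g1, g2⟩, g3⟩
    refine no_xc (Λ := Λ) (ρ := ρ) (h := h) (a := a) hΛ hρ1 hh hha hr hra haR (M := M)
      (by omega) g1 g2 ?_
    intro i hi hsub
    simp only [Set.mem_iInter] at g3
    have h5 := g3 i hi
    simp only [hA] at h5
    rw [if_pos hsub] at h5
    exact h5
  rw [Pr_compl hQ0] at p5
  linarith

/-- **Strong Russo-Seymour-Welsh at a flat side**, from touch at one scale. -/
theorem srsw_of (hQ : 1 ≤ Q) (hrsw : RSW Q) (h : Tch Q) : H192.Q.SRSW Q := by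
  have hQ0 : 0 < Q := by linarith
  obtain ⟨α, C, hα, hC, hdec⟩ := arm_dec hQ f_markov f_good f_fkg f_comp (rswp_of_rsw hQ0 hrsw)
  have hdecD := armdecD f_dual hQ0 hdec
  obtain ⟨L, hL⟩ := H519.exists_rat hQ hα hdec hdecD
  obtain ⟨N, h₀, c, hN, hc, H⟩ := exists_hi hQ hL hα hC hdec h
  refine srsw_of_hi hQ hrsw hN hc (h₀ := h₀) fun x h hh0 hh => H x h _ _ hh0 hh ?_
  exact ⟨f_good.2.1, fun v hv => by rw [mem_HB]; exact ⟨fun h => h.2, fun h => ⟨hv, h⟩⟩,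
    fun _ _ _ => rfl⟩

end Vale.Agent.P167.H199
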