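import Vale.Agent.P167.H199.QSr
import Vale.Agent.P167.H452.SDefs
import Vale.Agent.P167.H208.SmDefs

/-!
# P167, general `q`: strong Russo-Seymour-Welsh, the two forms of the input
-/

namespace Vale.Agent.P167.H199

open Finset Vale.Agent.P167.FK Vale.Agent.P167.FKA Relation
open Vale.Agent.P145.FB (PStep PConn)
open Vale.Agent.P167.QM (HB ow)

variable {Q c : ℝ} {V D : Finset (ℤ × ℤ)} {η ω : Cfg} {x y z p : ℤ × ℤ} {r R m M : ℤ}

/-- The touching event around `p`. -/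
def TE (p : ℤ × ℤ) (K n : ℤ) : Set Cfg :=
  {ω | ∃ u v : ℤ × ℤ, Even (u.1 + u.2) ∧ u.2 = p.2 ∧ nm (u - p) ≤ K ∧ n ≤ nm (v - u) ∧ PC ω u v}

theorem inc_te (p : ℤ × ℤ) (K n : ℤ) : IncS (TE p K n) := by
  rintro ω ω' h ⟨u, v, h1, h2, h3, h4, h5⟩
  exact ⟨u, v, h1, h2, h3, h4, ReflTransGen.mono (fun _ _ hs => ⟨hs.1, hs.2.1, h _ hs.2.2⟩) _ _ h5⟩

theorem te_tr (hp : Even (p.1 + p.2)) {ω : Cfg}
    (h : (ω ∘ fun v : ℤ × ℤ => (v.1 + p.1, v.2 + p.2)) ∈ H452.Tch M) : ω ∈ TE p M M := by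
  obtain ⟨u, v, h1, h2, h3, h4, h0, h5⟩ := h
  refine ⟨(u.1 + p.1, u.2 + p.2), (v.1 + p.1, v.2 + p.2), ?_, ?_, ?_, ?_, ?_⟩
  · rw [Int.even_iff] at *
    dsimp only
    omega
  · simp [h2]
  · rw [nm_le_iff]
    simp only [Prod.fst_sub, Prod.snd_sub]
    have := abs_le.1 h3
    omega
  · by_contra hlt
    push Not at hlt
    have h6 := nm_le_iff.1 (le_of_lt hlt)
    have h7 : nm v ≤ 2 * M - 1 := by
      have h6 := nm_le_iff.1 (show nm ((v.1 + p.1, v.2 + p.2) - (u.1 + p.1, u.2 + p.2)) ≤ M - 1 by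
        omega)
      simp only [Prod.fst_sub, Prod.snd_sub] at h6
      have := abs_le.1 h3
      have e : nm v = nm (v - 0) := by rw [sub_zero]
      rw [e, nm_le_iff]
      simp only [Prod.fst_sub, Prod.snd_sub, Prod.fst_zero, Prod.snd_zero]
      omega
    omega
  · clear h4
    induction h5 with
    | refl => exact ReflTransGen.refl
    | @tail a b _ hab ih =>
      refine ih.tail ⟨?_, ?_, ?_⟩
      · have := hab.1.1; dsimp only; omega
      · have := hab.1.2.1; dsimp only; omega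
      · show ω _ = true
        have h5 : ω (min a.1 b.1 + p.1, min a.2 b.2 + p.2) = true := hab.1.2.2
        have e : (min (a.1 + p.1) (b.1 + p.1), min (a.2 + p.2) (b.2 + p.2)) =
            (min a.1 b.1 + p.1, min a.2 b.2 + p.2) := by
          ext <;> dsimp only <;> omega
        dsimp only
        rw [e]
        exact h5

theorem ow_tr (p : ℤ × ℤ) (R : ℤ) :
    (ow p R ∘ fun v : ℤ × ℤ => (v.1 + p.1, v.2 + p.2)) = ow 0 R := by
  funext v
  show ow p R (v.1 + p.1, v.2 + p.2) = ow 0 R v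
  unfold ow
  by_cases h : v ∈ Bq 0 R
  · rw [H519.cf_in h, H519.cf_in (show (v.1 + p.1, v.2 + p.2) ∈ Bq p R by
      simp only [Bq, Finset.mem_product, Finset.mem_Ico, Prod.fst_zero, Prod.snd_zero] at h ⊢
      omega)]
    simp
  · rw [cf_out h, cf_out (show (v.1 + p.1, v.2 + p.2) ∉ Bq p R by
      simp only [Bq, Finset.mem_product, Finset.mem_Ico, Prod.fst_zero, Prod.snd_zero] at h ⊢
      omega)]
    rfl

theorem hb_tr (p : ℤ × ℤ) (R : ℤ) :
    (HB 0 R).image (fun v : ℤ × ℤ => (v.1 + p.1, v.2 + p.2)) = HB p R := by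
  ext v
  rw [Finset.mem_image]
  constructor
  · rintro ⟨w, hw, rfl⟩
    rw [mem_HB] at hw ⊢
    simp only [Bq, Finset.mem_product, Finset.mem_Ico, Prod.fst_zero, Prod.snd_zero] at hw ⊢
    omega
  · intro hv
    refine ⟨(v.1 - p.1, v.2 - p.2), ?_, by simp⟩
    rw [mem_HB] at hv ⊢
    simp only [Bq, Finset.mem_product, Finset.mem_Ico, Prod.fst_zero, Prod.snd_zero] at hv ⊢
    omega

/-- Translation. -/
theorem touch_tr (hQ : 0 < Q) (hp : Even (p.1 + p.2)) (M : ℤ) :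
    H452.touch Q M ≤ Pr Q (HB p (4 * M)) (ow p (4 * M)) (TE p M M) := by
  have h1 := (sy_tr p hp).2 Q (HB 0 (4 * M)) (ow p (4 * M)) ((H452.Tch M).indicator 1) hQ
    (ow_good _ _)
  rw [ow_tr, hb_tr] at h1
  have h2 : H452.touch Q M = Pr Q (HB p (4 * M)) (ow p (4 * M))
      {ω | (ω ∘ fun v : ℤ × ℤ => (v.1 + p.1, v.2 + p.2)) ∈ H452.Tch M} := h1
  rw [h2]
  exact Pr_mono hQ fun ω hω => te_tr hp hω

/-- **From the one scale touching of 452 to the input of `srsw_of`.** -/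
theorem tch_of_touch (hQ : 1 ≤ Q) (h : H452.TOUCH Q) : Tch Q := by
  have hQ0 : 0 < Q := by linarith
  obtain ⟨c, M₀, hc, hM₀, h⟩ := h
  refine ⟨4, max 2 M₀, c, by norm_num, hc, fun z n hn hn1 => ?_⟩
  have hn2 : 2 ≤ n := (le_max_left _ _).trans hn
  have hn3 : M₀ ≤ n := (le_max_right _ _).trans hn
  obtain ⟨p, hp, hp1, hp2⟩ : ∃ p : ℤ × ℤ, Even (p.1 + p.2) ∧ p.2 = z.2 ∧
      (p.1 = z.1 ∨ p.1 = z.1 + 1) := by
    by_cases hz : Even (z.1 + z.2)
    · exact ⟨z, hz, rfl, Or.inl rfl⟩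
    · refine ⟨(z.1 + 1, z.2), ?_, rfl, Or.inr rfl⟩
      rw [Int.even_iff] at *
      dsimp only
      omega
  have h1 := (h (3 * n + 1) (by omega)).trans (touch_tr hQ0 hp (3 * n + 1))
  have hsub : Bq z (3 * 4 * n) ⊆ Bq p (4 * (3 * n + 1)) := by
    refine bq_sub ?_
    have h2 : nm (z - p) ≤ 1 := by
      rw [nm_le_iff]
      simp only [Prod.fst_sub, Prod.snd_sub]
      omega
    omega
  have h2 : Pr Q (HB p (4 * (3 * n + 1))) (ow p (4 * (3 * n + 1))) (TE p (3 * n + 1) (3 * n + 1)) ≤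
      Pr Q (HB z (3 * 4 * n)) (ow z (3 * 4 * n)) (TE p (3 * n + 1) (3 * n + 1)) := by
    refine QM.Ex_dn hQ (fun v hv => ?_) (inc_te _ _ _).incF (ow_good _ _) (ow_good _ _)
      (fun v _ hv => ?_) (fun v hv hv' => ?_)
    · rw [mem_HB] at hv ⊢
      exact ⟨hsub hv.1, by omega⟩
    · have h3 := ow_out hv
      unfold ow
      rw [cf_out fun h4 => h3 (hsub h4)]
      rfl
    · rw [mem_HB] at hv hv'
      unfold ow
      rw [cf_out fun h4 => hv' ⟨h4, by omega⟩]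
      rfl
  refine (h1.trans h2).trans (Pr_mono hQ0 ?_)
  rintro ω ⟨u, v, e1, e2, e3, e4, e5⟩
  refine ⟨u, v, e1, e2.trans hp1, ?_, by omega, e5⟩
  rw [nm_le_iff] at e3 ⊢
  simp only [Prod.fst_sub, Prod.snd_sub] at e3 ⊢
  omega

/-- **Strong RSW from 452's touching.** -/
theorem srsw_of_touch (hQ : 1 ≤ Q) (hrsw : RSW Q) (h : H452.TOUCH Q) : H192.Q.SRSW Q :=
  srsw_of hQ hrsw (tch_of_touch hQ h)

/-- **From 208's touching to height.** -/
theorem hi_of_t (hQ : 1 ≤ Q) (h : H208.SRSWt Q) :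
    ∃ (N h₀ : ℤ) (c : ℝ), 1 ≤ N ∧ 0 < c ∧ Hi Q N h₀ c := by
  have hQ0 : 0 < Q := by linarith
  obtain ⟨Λ, m0, c, hΛ, hm0, hc, H⟩ := h
  refine ⟨Λ + 1, m0, c, by omega, hc, fun z m hm hm1 => ?_⟩
  obtain ⟨p, hp, hp1, hp2⟩ : ∃ p : ℤ × ℤ, (p.1 + p.2) % 2 = 0 ∧ p.2 = z.2 ∧
      (p.1 = z.1 ∨ p.1 = z.1 + 1) := by
    by_cases hz : (z.1 + z.2) % 2 = 0
    · exact ⟨z, hz, rfl, Or.inl rfl⟩
    · exact ⟨(z.1 + 1, z.2), by dsimp only; omega, rfl, Or.inr rfl⟩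
  have hfl : H208.Flt (HB p (Λ * m)) eta0 p (Λ * m) :=
    ⟨fun v hv => by rw [mem_HB]; exact ⟨fun h => h.2, fun h => ⟨hv, h⟩⟩, fun v _ _ => rfl⟩
  have h1 := H p m (HB p (Λ * m)) eta0 hm hp f_good.2.1 hfl
  have hpz : nm (p - z) ≤ 1 := by
    rw [nm_le_iff]
    simp only [Prod.fst_sub, Prod.snd_sub]
    omega
  have hsub : HB p (Λ * m) ⊆ HB z ((Λ + 1) * m) := by
    intro v hv
    rw [mem_HB] at hv ⊢
    refine ⟨bq_sub (x' := p) ?_ hv.1, by omega⟩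
    nlinarith
  refine h1.trans ?_
  have h2 : Pr Q (HB p (Λ * m)) eta0 (H208.Tch p m (Λ * m)) ≤
      Pr Q (HB p (Λ * m)) eta0 (Ev (HB z ((Λ + 1) * m)) (PH z ((Λ + 1) * m) m)) := by
    refine pr_mono' hQ0 ?_
    rintro S hS ⟨u, t, e1, e2, e3, e4, e5⟩
    refine ⟨u, t, ⟨Int.even_iff.2 e1, e2.trans hp1, ?_, by omega⟩, ?_⟩
    · have h3 : nm (u - z) ≤ m + 1 := by
        rw [nm_le_iff] at e3 hpz ⊢
        simp only [Prod.fst_sub, Prod.snd_sub] at e3 hpz ⊢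
        omega
      nlinarith
    · refine cp_of_pconn (y := p) (m := Λ * m) (fun s hs hso => ?_)
        (e5.mono subset_rfl ?_)
      · by_contra hn
        rw [cf_out (fun h => hn (hsub h))] at hso
        exact absurd hso (by simp [eta0])
      · rintro w ⟨hw, -⟩
        exact hw
  exact h2.trans (pr_ge hQ hsub f_good.2.1 (inc_ev _ _))

/-- **Strong RSW from 208's touching.** -/
theorem srsw_of_t (hQ : 1 ≤ Q) (hrsw : RSW Q) (h : H208.SRSWt Q) : H192.Q.SRSW Q := by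
  obtain ⟨N, h₀, c, hN, hc, h1⟩ := hi_of_t hQ h
  exact srsw_of_hi hQ hrsw hN hc h1

end Vale.Agent.P167.H199
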