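import Vale.Agent.P167.H662.L.LDefs2
import Vale.Agent.P167.H192.LY.Strip

/-!
# P167, general `q`, block Q-LAYER, sub-block L-TWO: (2a) for all neutral charges, from (2a) for flows
which vanish near the lines of the pinwheel and the cut-off
-/

namespace Vale.Agent.P167.H199

open Finset Filter Topology MeasureTheory
open Vale.Agent.P167.H825 (dvg lapl domP Box)
open Vale.Agent.P167.H638.L (ChiP strip_iff far_lines chi_near dvg_congr disj_lines dvg_smul hcs_mul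
  tsupport_mul_sub toR cms_eq integral_toR contDiff_toR tsupport_toR hcs_toR fderiv_toR1 fderiv_toR2
  lapl_toR)
open Vale.Agent.P167.H680.Q (alpq)
open Vale.Agent.P167.H662.L (CutV TwoA TwoF)
open P198W (lap pd)
open scoped ContDiff

variable {b : Box} {φ₁ φ₂ ψ : ℝ × ℝ → ℝ} {σ : ℝ} {S : CA.Dat} {L : Filter ℕ} {GP : Box → Prop}
  {V : ℕ → (ℤ × ℤ → ℝ) → ℝ}

theorem alpq_congr {f f' : ℝ × ℝ → ℝ} (h : ∀ x, f x * ψ x = f' x * ψ x) (s : ℝ) :
    alpq σ f ψ s = alpq σ f' ψ s := by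
  unfold alpq
  simp only [h]

theorem alpq_pos (f : ℝ × ℝ → ℝ) (ψ : ℝ × ℝ → ℝ) (s : ℝ) : 0 < alpq σ f ψ s := Real.exp_pos _

/-- **(2a) for all flows.** -/
theorem two_real (hc : CutV S L V) (h2a : TwoA σ S L GP V) (hb : b.Ok S.Q) (hgp : GP b)
    (h1 : ContDiff ℝ ∞ φ₁) (h2 : ContDiff ℝ ∞ φ₂) (hψ : ContDiff ℝ ∞ ψ)
    (s1 : HasCompactSupport φ₁) (s2 : HasCompactSupport φ₂) (s3 : HasCompactSupport ψ)
    (t1 : tsupport φ₁ ⊆ domP S.Q) (t2 : tsupport φ₂ ⊆ domP S.Q)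
    (t3 : tsupport ψ ⊆ {x | b.xl < x.1 ∧ x.1 < b.xr ∧ b.yb < x.2 ∧ x.2 < b.yt}) (s : ℝ) :
    Tendsto (fun n : ℕ => V n (H638.cm (fun x => dvg φ₁ φ₂ x + s * lapl ψ x) (1 / n)) -
      alpq σ (dvg φ₁ φ₂) ψ s * V n (H638.cm (dvg φ₁ φ₂) (1 / n))) L (𝓝 0) := by
  set a := alpq σ (dvg φ₁ φ₂) ψ s with ha
  have hap : 0 < a := alpq_pos _ _ _
  obtain ⟨B, Q, hB, hQ, hχ⟩ := strip_iff.1 H192.LY.s_strip b φ₁ φ₂ h1 h2 s1 s2
  have d1 : ContDiff ℝ ∞ fun x => fderiv ℝ ψ x (1, 0) :=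
    (hψ.fderiv_right (by simp)).clm_apply contDiff_const
  have d2 : ContDiff ℝ ∞ fun x => fderiv ℝ ψ x (0, 1) :=
    (hψ.fderiv_right (by simp)).clm_apply contDiff_const
  have hsub : ∀ v : ℝ × ℝ, tsupport (fun x => fderiv ℝ ψ x v) ⊆ tsupport ψ := by
    intro v
    refine closure_minimal (fun x hx => ?_) (isClosed_tsupport _)
    by_contra hc
    refine hx ?_
    have : fderiv ℝ ψ x = 0 := image_eq_zero_of_notMem_tsupport fun h => hc
      (tsupport_fderiv_subset ℝ h)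
    simp [this]
  have hsub' : ∀ v : ℝ × ℝ, tsupport (fun x => s * fderiv ℝ ψ x v) ⊆ tsupport ψ := fun v =>
    (tsupport_mul_subset_right).trans (hsub v)
  have q3 : tsupport ψ ⊆ domP S.Q := fun x hx => by
    obtain ⟨a1, a2, a3, a4⟩ := t3 hx
    exact hb.sub x a1.le a2.le a3.le a4.le
  have hk : ∀ v : ℝ × ℝ, HasCompactSupport fun x => s * fderiv ℝ ψ x v := fun v =>
    s3.isCompact.of_isClosed_subset (isClosed_tsupport _) (hsub' v)
  have hlap : ∀ x, s * lapl ψ x =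
      dvg (fun x => s * fderiv ℝ ψ x (1, 0)) (fun x => s * fderiv ℝ ψ x (0, 1)) x := by
    intro x
    unfold lapl
    rw [dvg_smul d1 d2]
  have z1 : ContDiff ℝ ∞ fun _ : ℝ × ℝ => (0 : ℝ) := contDiff_const
  have z2 : HasCompactSupport fun _ : ℝ × ℝ => (0 : ℝ) := HasCompactSupport.zero
  have z3 : tsupport (fun _ : ℝ × ℝ => (0 : ℝ)) ⊆ domP S.Q := by
    have : tsupport (fun _ : ℝ × ℝ => (0 : ℝ)) = ∅ := tsupport_eq_empty_iff.2 rfl
    rw [this]; exact Set.empty_subset _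
  have z4 : ∀ x, dvg (fun _ : ℝ × ℝ => (0 : ℝ)) (fun _ => 0) x = 0 := by
    intro x
    unfold dvg
    simp
  obtain ⟨d, hd, hdC⟩ := far_lines s3.isCompact t3
  rw [Metric.tendsto_nhds]
  intro ε hε
  obtain ⟨w1, hw1, hw1'⟩ := hc b φ₁ φ₂ _ _ h1 h2 (contDiff_const.mul d1) (contDiff_const.mul d2)
    s1 s2 (hk _) (hk _) t1 t2 ((hsub' _).trans q3) ((hsub' _).trans q3) B Q hB hQ (ε / 4)
    (by positivity)
  obtain ⟨w2, hw2, hw2'⟩ := hc b φ₁ φ₂ _ _ h1 h2 z1 z1 s1 s2 z2 z2 t1 t2 z3 z3 B Q hB hQ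
    (ε / (4 * a)) (by positivity)
  set w : ℝ := min (min w1 w2) (min 1 (d / 3)) / 2 with hw
  have hm : 0 < min (min w1 w2) (min 1 (d / 3)) :=
    lt_min (lt_min hw1 hw2) (lt_min one_pos (by positivity))
  have hwp : 0 < w := by positivity
  have hwlt : w < min (min w1 w2) (min 1 (d / 3)) := by rw [hw]; linarith
  simp only [lt_min_iff] at hwlt
  obtain ⟨⟨l1, l2⟩, l3, l4⟩ := hwlt
  obtain ⟨χ, hχw⟩ := hχ w hwp l3.le
  have m1 := hw1' w hwp l1 χ hχw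
  have m2 := hw2' w hwp l2 χ hχw
  obtain ⟨hχs, hχ1, hχl, hχd, hχn⟩ := hχw
  have hloc : ∀ x ∈ tsupport ψ, ∀ᶠ y in 𝓝 x, χ y = 1 := fun x hx =>
    chi_near (by linarith) hχd (hdC x hx)
  have haa : alpq σ (dvg (fun y => χ y * φ₁ y) fun y => χ y * φ₂ y) ψ s = a := by
    rw [ha]
    refine alpq_congr (fun x => ?_) s
    by_cases hx : ψ x = 0
    · simp [hx]
    · have h := hloc x (subset_tsupport _ hx)
      have e : dvg (fun y => χ y * φ₁ y) (fun y => χ y * φ₂ y) x = dvg φ₁ φ₂ x := by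
        refine dvg_congr ?_ ?_
        · filter_upwards [h] with y hy; simp [hy]
        · filter_upwards [h] with y hy; simp [hy]
      rw [e]
  have m3 := h2a b hb hgp (fun y => χ y * φ₁ y)
    (fun y => χ y * φ₂ y) ψ (hχs.mul h1) (hχs.mul h2) hψ (hcs_mul s1) (hcs_mul s2) s3
    ((tsupport_mul_sub _ _).trans t1) ((tsupport_mul_sub _ _).trans t2) t3
    (disj_lines hχl) (disj_lines hχl) s
  rw [haa, Metric.tendsto_nhds] at m3
  filter_upwards [m3 (ε / 4) (by positivity), m1, m2] with n r1 r2 r3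
  rw [Real.dist_eq, sub_zero] at r1 ⊢
  simp only [← hlap, z4, add_zero] at r2 r3
  set V1 := V n
    (H638.cm (fun x => dvg (fun y => χ y * φ₁ y) (fun y => χ y * φ₂ y) x + s * lapl ψ x) (1 / n))
  set V2 := V n (H638.cm (fun x => dvg φ₁ φ₂ x + s * lapl ψ x) (1 / n))
  set V3 := V n
    (H638.cm (fun x => dvg (fun y => χ y * φ₁ y) (fun y => χ y * φ₂ y) x) (1 / n))
  set V4 := V n (H638.cm (fun x => dvg φ₁ φ₂ x) (1 / n))
  change |V1 - a * V3| < ε / 4 at r1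
  have r4 : |a * V3 - a * V4| ≤ ε / 4 := by
    rw [← mul_sub, abs_mul, abs_of_pos hap]
    calc a * |V3 - V4| ≤ a * (ε / (4 * a)) := mul_le_mul_of_nonneg_left r3 hap.le
      _ = ε / 4 := by field_simp
  rw [abs_lt] at r1 ⊢
  rw [abs_le] at r2 r4
  constructor <;> linarith [r1.1, r1.2, r2.1, r2.2, r4.1, r4.2]

/-- **L-TWO.** -/
theorem l_two : H662.L.S_two := by
  intro σ S L GP V _ hc h2a f hf b hb hgp ψ hψ s
  obtain ⟨⟨f1, f2, f3⟩, f4⟩ := hf
  obtain ⟨p1, p2, p3⟩ := hψ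
  obtain ⟨φ₁, φ₂, h1, h2, s1, s2, t1, t2, he⟩ := H327.exists_dvg_domP S.poly S.enc
    (contDiff_toR f1) (hcs_toR f2) (by
      rw [tsupport_toR]
      exact Set.preimage_mono f3) (by rw [← integral_toR]; exact f4)
  have h := two_real (ψ := toR ψ) hc h2a hb hgp h1 h2 (contDiff_toR p1) s1 s2
    (hcs_toR p2) t1 t2 (by
      rw [tsupport_toR]
      exact Set.preimage_mono p3) s
  have ha : Real.exp (σ * s * (∫ z, f z * ψ z) -
        σ / 2 * s ^ 2 * ∫ z, ((fderiv ℝ ψ z 1) ^ 2 + (fderiv ℝ ψ z Complex.I) ^ 2)) =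
      alpq σ (dvg φ₁ φ₂) (toR ψ) s := by
    unfold alpq
    rw [← he]
    congr 1
    have e1 : ∫ x, toR f x * toR ψ x = ∫ z, f z * ψ z := (integral_toR fun z => f z * ψ z).symm
    have e2 : ∫ x, (fderiv ℝ (toR ψ) x (1, 0) ^ 2 + fderiv ℝ (toR ψ) x (0, 1) ^ 2) =
        ∫ z, ((fderiv ℝ ψ z 1) ^ 2 + (fderiv ℝ ψ z Complex.I) ^ 2) := by
      rw [integral_toR]
      refine integral_congr_ae (Eventually.of_forall fun x => ?_)
      have g1 := congrFun (fderiv_toR1 ψ) x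
      have g2 := congrFun (fderiv_toR2 ψ) x
      simp only at g1 g2 ⊢
      rw [g1, g2]
      rfl
    rw [e1, e2]
  rw [ha]
  refine h.congr fun n => ?_
  have v1 : CA.cms (fun z => f z + s * lap ψ z) (1 / n) =
      H638.cm (fun x => dvg φ₁ φ₂ x + s * lapl (toR ψ) x) (1 / n) := by
    funext z
    rw [cms_eq, lapl_toR, ← he]
    rfl
  have v2 : CA.cms f (1 / n) = H638.cm (dvg φ₁ φ₂) (1 / n) := by
    funext z
    rw [cms_eq, ← he]
  rw [v1, v2]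

end Vale.Agent.P167.H199
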