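import Vale.Agent.P167.H199.WOps

/-!
P167, block 2A: the insertion of a configuration of walls with a flow: sums, translations,
reflections, admissibility.
-/

namespace Vale.Agent.P167.H199

open Finset Filter Topology MeasureTheory
open Vale.Agent.P167.H592
open Vale.Agent.P167.H825 (Wall WC dv epos gX gY gD gA)
open Vale.Agent.P152 (Edge Ori vw wt)

variable {ι : Type} [Fintype ι]

/-- finitely supported flow -/
def Fc (W : WC ι) : Prop := (Function.support W.c).Finite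

omit [Fintype ι] in
theorem mem_S_iff [Fintype ι] {W : WC ι} {e : Ed} : e ∈ W.S ↔ ∃ i, e ∈ (W.w i).S := by
  simp [WC.S]

theorem fs_ph {W : WC ι} (hc : Fc W) : Fs W.ph := by
  classical
  refine Fs.of (E := W.S ∪ Set.Finite.toFinset hc) fun e he => ?_
  funext b
  have h1 : ∀ i, (W.w i).ph e = 0 := fun i => ph_off fun h =>
    he (mem_union_left _ (mem_S_iff.2 ⟨i, h⟩))
  have h2 : W.c e = 0 := by
    by_contra hn
    exact he (mem_union_right _ ((Set.Finite.mem_toFinset hc).2 hn))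
  show ∑ i, (W.w i).ph e b + W.c e / 2 = 0
  rw [sum_eq_zero fun i _ => by rw [h1 i]; rfl, h2]
  simp

/-- **The insertion of a configuration of walls**, normalised by `√3` for every cut edge. -/
noncomputable def insW (W : WC ι) (hc : Fc W) : LIns := insP W.S W.ph (fs_ph hc)

theorem insW_S (W : WC ι) (hc : Fc W) : (insW W hc).1.S = W.S := rfl

/-- The value of the insertion is the percolation expectation. -/
theorem om_insW {om : Ins → ℂ} (hom : IsOm (√3) om) (W : WC ι) (hc : Fc W) :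
    om (insW W hc).1 = ((∫ ω, W.X ω ∂μ : ℝ) : ℂ) := by
  unfold insW
  rw [om_insP hom]
  congr 1
  unfold WC.X
  rw [integral_const_mul]

theorem insW_congr {W W' : WC ι} (h : W = W') (hc : Fc W) (hc' : Fc W') :
    insW W hc = insW W' hc' := by
  subst h
  rfl

/-- Support of the insertion. -/
theorem insW_LI {K : Set (ℤ × ℤ)} {W : WC ι} (hc : Fc W) (hS : ∀ e ∈ W.S, e ∈ EdT K)
    (hK : ∀ e, W.c e ≠ 0 → e ∈ EdT K) : LI K (insW W hc).1 := by
  classical
  refine ⟨W.S ∪ Set.Finite.toFinset hc, ?_, subset_union_left, ?_⟩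
  · intro e he
    rcases mem_union.1 he with he | he
    · exact hS e he
    · exact hK e ((Set.Finite.mem_toFinset hc).1 he)
  · intro ω ω' h
    show _ * phO W.ph ω = _ * phO W.ph ω'
    congr 1
    unfold phO
    have h0 : ∀ e ∉ W.S ∪ Set.Finite.toFinset hc, W.ph e = 0 := by
      intro e he
      funext b
      have h1 : ∀ i, (W.w i).ph e = 0 := fun i => ph_off fun h =>
        he (mem_union_left _ (mem_S_iff.2 ⟨i, h⟩))
      have h2 : W.c e = 0 := by
        by_contra hn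
        exact he (mem_union_right _ ((Set.Finite.mem_toFinset hc).2 hn))
      show ∑ i, (W.w i).ph e b + W.c e / 2 = 0
      rw [sum_eq_zero fun i _ => by rw [h1 i]; rfl, h2]
      simp
    rw [exO_eq h0, exO_eq h0]
    congr 3
    refine sum_congr rfl fun e he => ?_
    rw [h e he]

/-! ### sums -/

section sig

variable {I : Type} [Fintype I] {κ : I → Type} [∀ i, Fintype (κ i)]

/-- The union of a family of configurations. -/
noncomputable def sig (W : ∀ i, WC (κ i)) : WC (Σ i, κ i) :=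
  ⟨fun x => (W x.1).w x.2, fun e => ∑ i, (W i).c e⟩

theorem sig_S (W : ∀ i, WC (κ i)) : (sig W).S = univ.biUnion fun i => (W i).S := by
  ext e
  rw [mem_S_iff, mem_biUnion]
  constructor
  · rintro ⟨⟨i, j⟩, h⟩
    exact ⟨i, mem_univ _, mem_S_iff.2 ⟨j, h⟩⟩
  · rintro ⟨i, _, h⟩
    obtain ⟨j, h⟩ := mem_S_iff.1 h
    exact ⟨⟨i, j⟩, h⟩

theorem sig_ph (W : ∀ i, WC (κ i)) : (sig W).ph = ∑ i, (W i).ph := by
  funext e b
  rw [Finset.sum_apply, Finset.sum_apply]
  show ∑ x : Σ i, κ i, ((W x.1).w x.2).ph e b + (∑ i, (W i).c e) / 2 =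
    ∑ i, (∑ j, ((W i).w j).ph e b + (W i).c e / 2)
  rw [Fintype.sum_sigma, sum_add_distrib, sum_div]

omit [∀ i, Fintype (κ i)] in
theorem sig_fc {W : ∀ i, WC (κ i)} (hc : ∀ i, Fc (W i)) : Fc (sig W) := by
  refine (Set.finite_iUnion hc).subset fun e he => ?_
  rw [Set.mem_iUnion]
  by_contra hn
  push Not at hn
  apply he
  show ∑ i, (W i).c e = 0
  exact sum_eq_zero fun i _ => by
    have := hn i
    simpa [Function.mem_support] using this

/-- **Products of insertions.** -/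
theorem insW_sig [DecidableEq I] (W : ∀ i, WC (κ i)) (hc : ∀ i, Fc (W i))
    (hd : ∀ i j, i ≠ j → Disjoint (W i).S (W j).S) :
    insW (sig W) (sig_fc hc) = ∏ i, insW (W i) (hc i) := by
  unfold insW
  have h' : Fs (∑ i, (W i).ph) := by rw [← sig_ph]; exact fs_ph (sig_fc hc)
  rw [← insP_prod univ (fun i => (W i).S) (fun i => (W i).ph) (fun i => fs_ph (hc i))
    (fun i _ j _ h => hd i j h) h']
  exact insP_congr (sig_S W) (sig_ph W) _ _

end sig

/-- Products over a finite set of indices. -/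
theorem insW_sig_coe {I : Type} [DecidableEq I] {κ : I → Type} [∀ i, Fintype (κ i)]
    (A : Finset I) (W : ∀ i, WC (κ i)) (hc : ∀ i, Fc (W i))
    (hd : ∀ i ∈ A, ∀ j ∈ A, i ≠ j → Disjoint (W i).S (W j).S) :
    insW (sig fun i : A => W i) (sig_fc fun i : A => hc i) = ∏ i ∈ A, insW (W i) (hc i) := by
  rw [insW_sig (fun i : A => W i) (fun i => hc i)
    (fun i j h => hd i i.2 j j.2 fun e => h (Subtype.ext e))]
  exact prod_coe_sort A fun i => insW (W i) (hc i)

/-! ### translations and reflections -/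

/-- translations -/
noncomputable def tr (W : WC ι) (a : ℤ × ℤ) : WC ι :=
  ⟨fun i => wtr (W.w i) a, fun e => W.c (shE (-a) e)⟩

theorem tr_S (W : WC ι) (a : ℤ × ℤ) : (tr W a).S = W.S.image (shE a) := by
  unfold WC.S
  rw [biUnion_image]
  exact biUnion_congr rfl fun i _ => wtr_S (W.w i) a

theorem tr_ph (W : WC ι) (a : ℤ × ℤ) : (tr W a).ph = shA a W.ph := by
  funext e b
  show ∑ i, (wtr (W.w i) a).ph e b + W.c (shE (-a) e) / 2 =
    ∑ i, (W.w i).ph (shE (-a) e) b + W.c (shE (-a) e) / 2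
  congr 1
  refine sum_congr rfl fun i _ => ?_
  rw [wtr_ph]
  rfl

omit [Fintype ι] in
theorem tr_fc [Fintype ι] {W : WC ι} (hc : Fc W) (a : ℤ × ℤ) : Fc (tr W a) := by
  refine (Set.Finite.image (shE a) hc).subset fun e he => ⟨shE (-a) e, he, ?_⟩
  rw [shE_shE, add_neg_cancel, shE_zero]

theorem insW_tr (W : WC ι) (hc : Fc W) (a : ℤ × ℤ) :
    insW (tr W a) (tr_fc hc a) = LIns.sh a (insW W hc) := by
  unfold insW
  rw [← insP_sh]
  exact insP_congr (tr_S W a) (tr_ph W a) _ _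

/-- Reflected flow. -/
def cP (P : Rf (ℤ × ℤ)) (c : Ed → ℝ) (e : Ed) : ℝ := (if P.s e then 1 else -1) * c (P.ρ e)

theorem cP_supp {P : Rf (ℤ × ℤ)} {c : Ed → ℝ} {e : Ed} (h : cP P c e ≠ 0) : c (P.ρ e) ≠ 0 := by
  intro h0
  apply h
  unfold cP
  rw [h0, mul_zero]

theorem cP_abs (P : Rf (ℤ × ℤ)) (c : Ed → ℝ) (e : Ed) : |cP P c e| = |c (P.ρ e)| := by
  unfold cP
  split_ifs <;> simp

/-- reflection in the columns -/
noncomputable def mX (W : WC ι) : WC ι := ⟨fun i => wrX (W.w i), cP (rX ℤ ℤ) W.c⟩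

/-- reflection in the diagonal -/
noncomputable def mD (W : WC ι) : WC ι := ⟨fun i => wrD (W.w i), cP rD W.c⟩

theorem mX_S (W : WC ι) : (mX W).S = W.S.image (rX ℤ ℤ).ρ := by
  unfold WC.S
  rw [biUnion_image]
  exact biUnion_congr rfl fun i _ => wrX_S (W.w i)

theorem mD_S (W : WC ι) : (mD W).S = W.S.image rD.ρ := by
  unfold WC.S
  rw [biUnion_image]
  exact biUnion_congr rfl fun i _ => wrD_S (W.w i)

theorem mX_ph (W : WC ι) : (mX W).ph = thP (rX ℤ ℤ) W.ph := by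
  funext e b
  show ∑ i, (wrX (W.w i)).ph e b + (if (rX ℤ ℤ).s e then 1 else -1) * W.c ((rX ℤ ℤ).ρ e) / 2 =
    (if (rX ℤ ℤ).s e then 1 else -1) * (∑ i, (W.w i).ph ((rX ℤ ℤ).ρ e) (xor ((rX ℤ ℤ).t e) b) +
      W.c ((rX ℤ ℤ).ρ e) / 2)
  rw [mul_add, mul_sum, mul_div_assoc]
  congr 1
  refine sum_congr rfl fun i _ => ?_
  rw [wrX_ph]
  rfl

theorem mD_ph (W : WC ι) : (mD W).ph = thP rD W.ph := by
  funext e b
  show ∑ i, (wrD (W.w i)).ph e b + (if rD.s e then 1 else -1) * W.c (rD.ρ e) / 2 =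
    (if rD.s e then 1 else -1) * (∑ i, (W.w i).ph (rD.ρ e) (xor (rD.t e) b) +
      W.c (rD.ρ e) / 2)
  rw [mul_add, mul_sum, mul_div_assoc]
  congr 1
  refine sum_congr rfl fun i _ => ?_
  rw [wrD_ph]
  rfl

theorem cP_fc {P : Rf (ℤ × ℤ)} {l : ℤ × ℤ → ℤ × ℤ} (hP : P.Lin l) {c : Ed → ℝ}
    (hc : (Function.support c).Finite) : (Function.support (cP P c)).Finite :=
  (Set.Finite.image P.ρ hc).subset fun e he => ⟨P.ρ e, cP_supp he, hP.ok.ρρ e⟩

omit [Fintype ι] in
theorem mX_fc [Fintype ι] {W : WC ι} (hc : Fc W) : Fc (mX W) := cP_fc rX_lin hc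

omit [Fintype ι] in
theorem mD_fc [Fintype ι] {W : WC ι} (hc : Fc W) : Fc (mD W) := cP_fc rD_lin hc

theorem insW_mX (W : WC ι) (hc : Fc W) : insW (mX W) (mX_fc hc) = LIns.th rX_lin (insW W hc) := by
  unfold insW
  rw [← insP_th rX_lin]
  exact insP_congr (mX_S W) (mX_ph W) _ _

theorem insW_mD (W : WC ι) (hc : Fc W) : insW (mD W) (mD_fc hc) = LIns.th rD_lin (insW W hc) := by
  unfold insW
  rw [← insP_th rD_lin]
  exact insP_congr (mD_S W) (mD_ph W) _ _

/-- The four reflections. -/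
noncomputable def rfX (m : ℤ) (W : WC ι) : WC ι := tr (mX W) (m • gX.s)
/-- The four reflections. -/
noncomputable def rfD (m : ℤ) (W : WC ι) : WC ι := tr (mD W) (m • gD.s)
/-- The four reflections. -/
noncomputable def rfY (m : ℤ) (W : WC ι) : WC ι := tr (mD (mX (mD W))) (m • gY.s)
/-- The four reflections. -/
noncomputable def rfA (m : ℤ) (W : WC ι) : WC ι := tr (mX (mD (mX W))) (m • gA.s)

theorem rfX_fc {W : WC ι} (hc : Fc W) (m : ℤ) : Fc (rfX m W) := tr_fc (mX_fc hc) _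
theorem rfD_fc {W : WC ι} (hc : Fc W) (m : ℤ) : Fc (rfD m W) := tr_fc (mD_fc hc) _
theorem rfY_fc {W : WC ι} (hc : Fc W) (m : ℤ) : Fc (rfY m W) := tr_fc (mD_fc (mX_fc (mD_fc hc))) _
theorem rfA_fc {W : WC ι} (hc : Fc W) (m : ℤ) : Fc (rfA m W) := tr_fc (mX_fc (mD_fc (mX_fc hc))) _

theorem insW_rfX (W : WC ι) (hc : Fc W) (m : ℤ) : insW (rfX m W) (rfX_fc hc m) =
    LIns.sh (m • gX.s) (LIns.th rX_lin (insW W hc)) := by
  unfold rfX
  rw [insW_tr _ (mX_fc hc), insW_mX _ hc]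

theorem insW_rfD (W : WC ι) (hc : Fc W) (m : ℤ) : insW (rfD m W) (rfD_fc hc m) =
    LIns.sh (m • gD.s) (LIns.th rD_lin (insW W hc)) := by
  unfold rfD
  rw [insW_tr _ (mD_fc hc), insW_mD _ hc]

theorem insW_rfY (W : WC ι) (hc : Fc W) (m : ℤ) : insW (rfY m W) (rfY_fc hc m) =
    LIns.sh (m • gY.s) (thY (insW W hc)) := by
  unfold rfY thY
  rw [insW_tr _ (mD_fc (mX_fc (mD_fc hc))), insW_mD _ (mX_fc (mD_fc hc)), insW_mX _ (mD_fc hc),
    insW_mD _ hc]

theorem insW_rfA (W : WC ι) (hc : Fc W) (m : ℤ) : insW (rfA m W) (rfA_fc hc m) =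
    LIns.sh (m • gA.s) (thA (insW W hc)) := by
  unfold rfA thA
  rw [insW_tr _ (mX_fc (mD_fc (mX_fc hc))), insW_mX _ (mD_fc (mX_fc hc)), insW_mD _ (mX_fc hc),
    insW_mX _ hc]

end Vale.Agent.P167.H199
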