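import Vale.Agent.P167.H199.Ph
import Vale.Agent.P167.H825.Defs2A

/-!
P167, block 2A: the insertion of a configuration of walls and its operations: disjoint sums,
translations, reflections.
-/

namespace Vale.Agent.P167.H199

open Finset Filter Topology MeasureTheory
open Vale.Agent.P167.H592
open Vale.Agent.P167.H825 (Wall WC dv epos)
open Vale.Agent.P152 (Edge Ori vw wt)

/-! ### one wall -/

/-- The phases at the `k`-th edge. -/
noncomputable def wv (w : Wall) (k : ℕ) (b : Bool) : ℝ := if b then w.u k + w.J else - w.u k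

theorem ph_def (w : Wall) (e : Ed) (b : Bool) :
    w.ph e b = ∑ k ∈ range w.L, if e = w.e k then wv w k b else 0 := rfl

theorem ph_off {w : Wall} {e : Ed} (he : e ∉ w.S) : w.ph e = 0 := by
  funext b
  rw [ph_def]
  refine sum_eq_zero fun k hk => if_neg fun h => he ?_
  rw [h]
  exact mem_image_of_mem _ hk

/-- A wall mapped by a bijection `r` of the edges which keeps the order. -/
theorem ph_map {w w' : Wall} (hL : w'.L = w.L) {r : Ed → Ed} (hr : ∀ e, r (r e) = e)
    (he : ∀ k < w.L, w'.e k = r (w.e k)) (e : Ed) (b : Bool) :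
    w'.ph e b = ∑ k ∈ range w.L, if r e = w.e k then wv w' k b else 0 := by
  rw [ph_def, hL]
  refine sum_congr rfl fun k hk => ?_
  rw [he k (mem_range.1 hk)]
  congr 1
  apply propext
  constructor
  · intro h
    rw [h, hr]
  · intro h
    rw [← h, hr]

/-- translations -/
def wtr (w : Wall) (a : ℤ × ℤ) : Wall := { w with q := w.q + a }

theorem wtr_e (w : Wall) (a : ℤ × ℤ) (k : ℕ) : (wtr w a).e k = shE a (w.e k) := by
  show (if w.o then Sum.inr ((w.q + a).1 + k, (w.q + a).2) else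
    Sum.inl ((w.q + a).1, (w.q + a).2 + k) : Ed) = shE a (w.e k)
  unfold Wall.e
  split_ifs
  · show (Sum.inr _ : Ed) = Sum.inr _
    congr 1
    apply Prod.ext
    · show w.q.1 + a.1 + k = w.q.1 + k + a.1
      ring
    · rfl
  · show (Sum.inl _ : Ed) = Sum.inl _
    congr 1
    apply Prod.ext
    · rfl
    · show w.q.2 + a.2 + k = w.q.2 + k + a.2
      ring

theorem wtr_pos (w : Wall) (a : ℤ × ℤ) (k : ℕ) : (wtr w a).pos k = w.pos k + a := by
  show (if w.o then ((w.q + a).1 + k, (w.q + a).2) else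
    ((w.q + a).1, (w.q + a).2 + k) : ℤ × ℤ) = w.pos k + a
  unfold Wall.pos
  split_ifs
  · apply Prod.ext
    · show w.q.1 + a.1 + k = w.q.1 + k + a.1
      ring
    · rfl
  · apply Prod.ext
    · rfl
    · show w.q.2 + a.2 + k = w.q.2 + k + a.2
      ring

theorem wtr_ph (w : Wall) (a : ℤ × ℤ) : (wtr w a).ph = shA a w.ph := by
  funext e b
  show _ = w.ph (shE (-a) e) b
  rw [ph_def, ph_def]
  refine sum_congr rfl fun k _ => ?_
  rw [wtr_e]
  have h1 : (e = shE a (w.e k)) ↔ (shE (-a) e = w.e k) := by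
    constructor
    · intro h
      rw [h, shE_shE, neg_add_cancel, shE_zero]
    · intro h
      rw [← h, shE_shE, add_neg_cancel, shE_zero]
  simp only [h1]
  rfl

theorem wtr_S (w : Wall) (a : ℤ × ℤ) : (wtr w a).S = w.S.image (shE a) := by
  unfold Wall.S
  rw [image_image]
  exact image_congr fun k _ => wtr_e w a k

/-- reflection in the diagonal -/
def wrD (w : Wall) : Wall := { w with o := !w.o, q := (w.q.2, w.q.1) }

theorem wrD_e (w : Wall) (k : ℕ) : (wrD w).e k = rD.ρ (w.e k) := by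
  show (if (!w.o) then Sum.inr (w.q.2 + k, w.q.1) else
    Sum.inl (w.q.2, w.q.1 + k) : Ed) = rD.ρ (w.e k)
  unfold Wall.e
  cases w.o <;> rfl

theorem wrD_pos (w : Wall) (k : ℕ) : (wrD w).pos k = (w.pos k).swap := by
  show (if (!w.o) then (w.q.2 + k, w.q.1) else
    (w.q.2, w.q.1 + k) : ℤ × ℤ) = (w.pos k).swap
  unfold Wall.pos
  cases w.o <;> rfl

theorem wrD_ph (w : Wall) : (wrD w).ph = thP rD w.ph := by
  funext e b
  rw [ph_map (w := w) (w' := wrD w) rfl (r := rD.ρ) rD_lin.ok.ρρ fun k _ => wrD_e w k]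
  show _ = (if true then (1 : ℝ) else -1) * w.ph (rD.ρ e) (xor false b)
  rw [if_pos rfl, one_mul, Bool.false_xor]
  rfl

theorem wrD_S (w : Wall) : (wrD w).S = w.S.image rD.ρ := by
  unfold Wall.S
  rw [image_image]
  exact image_congr fun k _ => wrD_e w k

/-- reflection in the columns -/
noncomputable def wrX (w : Wall) : Wall :=
  if w.o then ⟨true, (2 - w.q.1 - w.L, w.q.2), w.L, w.c + w.j * (Real.pi / 3), w.t, -w.j,
    w.L - w.k0⟩
  else ⟨false, (-w.q.1, w.q.2), w.L, w.c + w.J, !w.t, w.j, w.k0⟩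

theorem wrX_L (w : Wall) : (wrX w).L = w.L := by
  unfold wrX
  split_ifs <;> rfl

theorem wrX_e_true {w : Wall} (ho : w.o = true) {k : ℕ} (hk : k < w.L) :
    (wrX w).e (w.L - 1 - k) = (rX ℤ ℤ).ρ (w.e k) := by
  have h1 : wrX w = ⟨true, (2 - w.q.1 - w.L, w.q.2), w.L, w.c + w.j * (Real.pi / 3), w.t, -w.j,
    w.L - w.k0⟩ := by unfold wrX; rw [if_pos ho]
  rw [h1]
  have h2 : w.e k = Sum.inr (w.q.1 + k, w.q.2) := by unfold Wall.e; rw [if_pos ho]
  rw [h2]
  show (Sum.inr (2 - w.q.1 - w.L + ((w.L - 1 - k : ℕ) : ℤ), w.q.2) : Ed) =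
    Sum.inr (1 - (w.q.1 + k), w.q.2)
  congr 2
  omega

theorem wrX_e_false {w : Wall} (ho : w.o = false) (k : ℕ) :
    (wrX w).e k = (rX ℤ ℤ).ρ (w.e k) := by
  have h1 : wrX w = ⟨false, (-w.q.1, w.q.2), w.L, w.c + w.J, !w.t, w.j, w.k0⟩ := by
    unfold wrX; rw [if_neg (by simp [ho])]
  rw [h1]
  have h2 : w.e k = Sum.inl (w.q.1, w.q.2 + k) := by unfold Wall.e; rw [if_neg (by simp [ho])]
  rw [h2]
  rfl

theorem wrX_S (w : Wall) : (wrX w).S = w.S.image (rX ℤ ℤ).ρ := by
  cases ho : w.o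
  · unfold Wall.S
    rw [image_image, wrX_L]
    exact image_congr fun k _ => wrX_e_false ho k
  · unfold Wall.S
    rw [image_image, wrX_L]
    ext e
    simp only [mem_image, mem_range, Function.comp]
    constructor
    · rintro ⟨k, hk, rfl⟩
      refine ⟨w.L - 1 - k, by omega, ?_⟩
      rw [← wrX_e_true ho (by omega)]
      congr 1
      omega
    · rintro ⟨k, hk, rfl⟩
      exact ⟨w.L - 1 - k, by omega, wrX_e_true ho hk⟩

theorem wrX_ph (w : Wall) : (wrX w).ph = thP (rX ℤ ℤ) w.ph := by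
  cases ho : w.o
  · have h1 : wrX w = ⟨false, (-w.q.1, w.q.2), w.L, w.c + w.J, !w.t, w.j, w.k0⟩ := by
      unfold wrX; rw [if_neg (by simp [ho])]
    funext e b
    rw [ph_map (w := w) (wrX_L w) (r := (rX ℤ ℤ).ρ) rX_lin.ok.ρρ fun k _ => wrX_e_false ho k]
    show _ = (if (rX ℤ ℤ).s e then (1 : ℝ) else -1) * w.ph ((rX ℤ ℤ).ρ e)
      (xor ((rX ℤ ℤ).t e) b)
    rcases e with v | v
    · show _ = (if false then (1 : ℝ) else -1) * w.ph ((rX ℤ ℤ).ρ (Sum.inl v)) (xor true b)
      rw [if_neg (by simp), Bool.true_xor, ph_def, mul_sum]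
      refine sum_congr rfl fun k _ => ?_
      by_cases hh : (rX ℤ ℤ).ρ (Sum.inl v) = w.e k
      · rw [if_pos hh, if_pos hh]
        have hJ : (wrX w).J = - w.J := by
          rw [h1]
          unfold Wall.J
          cases w.t <;> simp
        have hu : (wrX w).u k = w.u k + w.J := by
          rw [h1]
          unfold Wall.u
          simp only
          ring
        unfold wv
        rw [hJ, hu]
        cases b <;> simp
      · rw [if_neg hh, if_neg hh, mul_zero]
    · have h2 : ∀ k, (rX ℤ ℤ).ρ (Sum.inr v) ≠ w.e k := by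
        intro k hk
        have h3 : w.e k = Sum.inl (w.q.1, w.q.2 + k) := by
          unfold Wall.e; rw [if_neg (by simp [ho])]
        rw [h3] at hk
        exact Sum.inr_ne_inl hk
      rw [ph_def, sum_eq_zero fun k _ => if_neg (h2 k), sum_eq_zero fun k _ => if_neg (h2 k),
        mul_zero]
  · have h1 : wrX w = ⟨true, (2 - w.q.1 - w.L, w.q.2), w.L, w.c + w.j * (Real.pi / 3), w.t, -w.j,
      w.L - w.k0⟩ := by unfold wrX; rw [if_pos ho]
    funext e b
    rw [ph_def, wrX_L, ← sum_range_reflect]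
    show _ = (if (rX ℤ ℤ).s e then (1 : ℝ) else -1) * w.ph ((rX ℤ ℤ).ρ e)
      (xor ((rX ℤ ℤ).t e) b)
    have hiff : ∀ k < w.L, (e = (wrX w).e (w.L - 1 - k)) ↔ ((rX ℤ ℤ).ρ e = w.e k) := by
      intro k hk
      rw [wrX_e_true ho hk]
      constructor
      · intro h
        rw [h, rX_lin.ok.ρρ]
      · intro h
        rw [← h, rX_lin.ok.ρρ]
    rcases e with v | v
    · have h2 : ∀ k, (rX ℤ ℤ).ρ (Sum.inl v) ≠ w.e k := by
        intro k hk
        have h3 : w.e k = Sum.inr (w.q.1 + k, w.q.2) := by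
          unfold Wall.e; rw [if_pos ho]
        rw [h3] at hk
        exact Sum.inl_ne_inr hk
      rw [ph_def, sum_eq_zero fun k hk => if_neg fun h => h2 k ((hiff k (mem_range.1 hk)).1 h),
        sum_eq_zero fun k _ => if_neg (h2 k), mul_zero]
    · show _ = (if true then (1 : ℝ) else -1) * w.ph ((rX ℤ ℤ).ρ (Sum.inr v)) (xor false b)
      rw [if_pos rfl, one_mul, Bool.false_xor, ph_def]
      refine sum_congr rfl fun k hk => ?_
      have hk' := mem_range.1 hk
      by_cases hh : (rX ℤ ℤ).ρ (Sum.inr v) = w.e k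
      · rw [if_pos hh, if_pos ((hiff k hk').2 hh)]
        have hJ : (wrX w).J = w.J := by
          rw [h1]
          rfl
        have hu : (wrX w).u (w.L - 1 - k) = w.u k := by
          rw [h1]
          unfold Wall.u
          simp only
          by_cases h5 : w.k0 ≤ k
          · rw [if_pos h5, if_neg (by omega)]
            ring
          · rw [if_neg h5, if_pos (by omega)]
            push_cast
            ring
        unfold wv
        rw [hJ, hu]
      · rw [if_neg hh, if_neg fun h => hh ((hiff k hk').1 h)]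

end Vale.Agent.P167.H199
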